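import Mathlib

/-!
# Row 213: smoothness of parametric integrals on convex sets (one-sided version)

`contDiffOn_param`: if `g` is `C^n` on `K ×ˢ Icc a b` (`K` convex, `UniqueDiffOn`), then
`z ↦ ∫ s in a..b, g (z, s)` is `C^n` on `K`.
-/

set_option autoImplicit false
set_option linter.unusedSectionVars false

open Set MeasureTheory Filter Topology
open scoped ContDiff

namespace Crest.Agent.R213.ParamInt

universe u

variable {E : Type*} [NormedAddCommGroup E] [NormedSpace ℝ E]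

section
variable {V : Type u} [NormedAddCommGroup V] [NormedSpace ℝ V]

lemma slice_cont {K : Set E} {a b : ℝ} {g : E × ℝ → V} (hg : ContinuousOn g (K ×ˢ Icc a b))
    {z : E} (hz : z ∈ K) : ContinuousOn (fun s => g (z, s)) (Icc a b) :=
  hg.comp (by fun_prop) (fun s hs => ⟨hz, hs⟩)

lemma slice_int {K : Set E} {a b : ℝ} (hab : a ≤ b) {g : E × ℝ → V}
    (hg : ContinuousOn g (K ×ˢ Icc a b))
    {z : E} (hz : z ∈ K) : IntervalIntegrable (fun s => g (z, s)) volume a b := by
  apply ContinuousOn.intervalIntegrable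
  rw [uIcc_of_le hab]
  exact slice_cont hg hz

/-- uniform continuity in the parameter -/
lemma unif {K : Set E} {a b : ℝ} {g : E × ℝ → V}
    (hg : ContinuousOn g (K ×ˢ Icc a b)) {z0 : E} (hz0 : z0 ∈ K) {ε : ℝ} (hε : 0 < ε) :
    ∀ᶠ z in 𝓝[K] z0, ∀ s ∈ Icc a b, ‖g (z, s) - g (z0, s)‖ < ε := by
  have hg' : ContinuousOn (Function.uncurry (fun (z : E) (s : ℝ) => g (z, s))) (K ×ˢ Icc a b) := hg
  obtain ⟨v, hv, h⟩ := IsCompact.mem_uniformity_of_prod isCompact_Icc hg' hz0
    (Metric.dist_mem_uniformity hε)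
  filter_upwards [hv] with z hz s hs
  have := h z hz s hs
  simpa [dist_eq_norm, norm_sub_rev] using this

lemma cont_param {K : Set E} {a b : ℝ} (hab : a ≤ b) {g : E × ℝ → V}
    (hg : ContinuousOn g (K ×ˢ Icc a b)) : ContinuousOn (fun z => ∫ s in a..b, g (z, s)) K := by
  intro z0 hz0
  rw [ContinuousWithinAt, Metric.tendsto_nhds]
  intro ε hε
  have hε' : 0 < ε / (b - a + 1) := div_pos hε (by linarith)
  filter_upwards [unif hg hz0 hε', self_mem_nhdsWithin] with z hz hzK
  rw [dist_eq_norm, ← intervalIntegral.integral_sub (slice_int hab hg hzK) (slice_int hab hg hz0)]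
  have h1 : ‖∫ s in a..b, (g (z, s) - g (z0, s))‖ ≤ ε / (b - a + 1) * |b - a| := by
    apply intervalIntegral.norm_integral_le_of_norm_le_const
    intro s hs
    rw [uIoc_of_le hab] at hs
    exact (hz s (Ioc_subset_Icc_self hs)).le
  rw [abs_of_nonneg (by linarith)] at h1
  refine lt_of_le_of_lt h1 ?_
  rw [div_mul_eq_mul_div, div_lt_iff₀ (by linarith)]
  nlinarith

/-- differentiation under the integral sign, within a convex set -/
theorem hasFDerivWithinAt_param [CompleteSpace V] {K : Set E} (hK : Convex ℝ K) {a b : ℝ}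
    (hab : a ≤ b)
    {g : E × ℝ → V} {g' : E × ℝ → (E →L[ℝ] V)}
    (hg : ContinuousOn g (K ×ˢ Icc a b)) (hg' : ContinuousOn g' (K ×ˢ Icc a b))
    (hd : ∀ z ∈ K, ∀ s ∈ Icc a b, HasFDerivWithinAt (fun y => g (y, s)) (g' (z, s)) K z)
    {z0 : E} (hz0 : z0 ∈ K) :
    HasFDerivWithinAt (fun z => ∫ s in a..b, g (z, s)) (∫ s in a..b, g' (z0, s)) K z0 := by
  rw [hasFDerivWithinAt_iff_isLittleO, Asymptotics.isLittleO_iff]
  intro ε hε
  have hε' : 0 < ε / (b - a + 1) := div_pos hε (by linarith)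
  obtain ⟨δ, hδ, hball⟩ := Metric.mem_nhdsWithin_iff.1 (unif hg' hz0 hε')
  have hint' := slice_int hab hg' hz0
  filter_upwards [inter_mem self_mem_nhdsWithin
    (mem_nhdsWithin_of_mem_nhds (Metric.ball_mem_nhds z0 hδ))] with z hz
  have hzK : z ∈ K := hz.1
  have key : ∀ s ∈ Icc a b, ‖g (z, s) - g (z0, s) - g' (z0, s) (z - z0)‖
      ≤ ε / (b - a + 1) * ‖z - z0‖ := by
    intro s hs
    have hconv : Convex ℝ (Metric.ball z0 δ ∩ K) := (convex_ball z0 δ).inter hK
    refine hconv.norm_image_sub_le_of_norm_hasFDerivWithin_le'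
      (f := fun y => g (y, s)) (f' := fun y => g' (y, s)) (φ := g' (z0, s)) ?_ ?_
      ⟨Metric.mem_ball_self hδ, hz0⟩ ⟨hz.2, hz.1⟩
    · intro y hy
      exact (hd y hy.2 s hs).mono inter_subset_right
    · intro y hy
      exact (hball ⟨hy.1, hy.2⟩ s hs).le
  have e1 : (∫ s in a..b, g (z, s)) - (∫ s in a..b, g (z0, s)) - (∫ s in a..b, g' (z0, s)) (z - z0)
      = ∫ s in a..b, (g (z, s) - g (z0, s) - g' (z0, s) (z - z0)) := by
    rw [ContinuousLinearMap.intervalIntegral_apply hint', intervalIntegral.integral_sub,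
      intervalIntegral.integral_sub (slice_int hab hg hzK) (slice_int hab hg hz0)]
    · exact (slice_int hab hg hzK).sub (slice_int hab hg hz0)
    · have : ContinuousOn (fun q : E × ℝ => g' q (z - z0)) (K ×ˢ Icc a b) :=
        hg'.clm_apply continuousOn_const
      exact slice_int hab this hz0
  rw [e1]
  have h1 : ‖∫ s in a..b, (g (z, s) - g (z0, s) - g' (z0, s) (z - z0))‖
      ≤ ε / (b - a + 1) * ‖z - z0‖ * |b - a| := by
    apply intervalIntegral.norm_integral_le_of_norm_le_const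
    intro s hs
    rw [uIoc_of_le hab] at hs
    exact key s (Ioc_subset_Icc_self hs)
  rw [abs_of_nonneg (by linarith)] at h1
  refine h1.trans ?_
  have h2 : ε / (b - a + 1) * (b - a) ≤ ε := by
    rw [div_mul_eq_mul_div, div_le_iff₀ (by linarith)]
    nlinarith
  calc ε / (b - a + 1) * ‖z - z0‖ * (b - a) = (ε / (b - a + 1) * (b - a)) * ‖z - z0‖ := by ring
    _ ≤ ε * ‖z - z0‖ := by gcongr

end

theorem contDiffOn_param_nat {E : Type u} [NormedAddCommGroup E] [NormedSpace ℝ E]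
    {K : Set E} (hK : Convex ℝ K) (hKu : UniqueDiffOn ℝ K) {a b : ℝ}
    (hab : a < b) (n : ℕ) :
    ∀ {V : Type u} [NormedAddCommGroup V] [NormedSpace ℝ V] [CompleteSpace V] {g : E × ℝ → V},
      ContDiffOn ℝ n g (K ×ˢ Icc a b) → ContDiffOn ℝ n (fun z => ∫ s in a..b, g (z, s)) K := by
  have hu : UniqueDiffOn ℝ (K ×ˢ Icc a b) := hKu.prod (uniqueDiffOn_Icc hab)
  induction n with
  | zero =>
    intro V _ _ _ g hg
    rw [Nat.cast_zero, contDiffOn_zero] at hg ⊢
    exact cont_param hab.le hg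
  | succ n ih =>
    intro V _ _ _ g hg
    rw [Nat.cast_add, Nat.cast_one] at hg ⊢
    rw [contDiffOn_succ_iff_fderivWithin hu] at hg
    have h2 : ContDiffOn ℝ n (fun p => (fderivWithin ℝ g (K ×ˢ Icc a b) p).comp
        (ContinuousLinearMap.inl ℝ E ℝ)) (K ×ˢ Icc a b) :=
      hg.2.2.clm_comp contDiffOn_const
    have hd : ∀ z ∈ K, ∀ s ∈ Icc a b, HasFDerivWithinAt (fun y => g (y, s))
        ((fderivWithin ℝ g (K ×ˢ Icc a b) (z, s)).comp (ContinuousLinearMap.inl ℝ E ℝ)) K z := by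
      intro z hz s hs
      have h1 := (hg.1 (z, s) ⟨hz, hs⟩).hasFDerivWithinAt
      have h3 : HasFDerivWithinAt (fun y : E => (y, s)) (ContinuousLinearMap.inl ℝ E ℝ) K z :=
        (hasFDerivAt_prodMk_left z s).hasFDerivWithinAt
      exact h1.comp z h3 (fun y (hy : y ∈ K) => (⟨hy, hs⟩ : (y, s) ∈ K ×ˢ Icc a b))
    have hD : ∀ z ∈ K, HasFDerivWithinAt (fun z => ∫ s in a..b, g (z, s))
        (∫ s in a..b, (fderivWithin ℝ g (K ×ˢ Icc a b) (z, s)).comp
          (ContinuousLinearMap.inl ℝ E ℝ)) K z := fun z hz =>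
      hasFDerivWithinAt_param hK hab.le hg.1.continuousOn h2.continuousOn hd hz
    rw [contDiffOn_succ_iff_fderivWithin hKu]
    refine ⟨fun z hz => (hD z hz).differentiableWithinAt, by simp, ?_⟩
    have h5 := ih (g := fun p => (fderivWithin ℝ g (K ×ˢ Icc a b) p).comp
        (ContinuousLinearMap.inl ℝ E ℝ)) h2
    exact h5.congr (fun z hz => (hD z hz).fderivWithin (hKu z hz))

theorem contDiffOn_param {E : Type u} [NormedAddCommGroup E] [NormedSpace ℝ E]
    {K : Set E} (hK : Convex ℝ K) (hKu : UniqueDiffOn ℝ K) {a b : ℝ}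
    (hab : a < b) {V : Type u} [NormedAddCommGroup V] [NormedSpace ℝ V] [CompleteSpace V]
    {g : E × ℝ → V} (hg : ContDiffOn ℝ ∞ g (K ×ˢ Icc a b)) :
    ContDiffOn ℝ ∞ (fun z => ∫ s in a..b, g (z, s)) K := by
  rw [contDiffOn_infty] at hg ⊢
  exact fun n => contDiffOn_param_nat hK hKu hab n (hg n)

end Crest.Agent.R213.ParamInt
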