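import Crest.Agent.R213.Defs

/-!
# Row 213, J0: calculus library for `Sm`, `dx`, `dt`, `Kint`
-/

set_option autoImplicit false

open Set MeasureTheory Filter Topology

noncomputable section

namespace Crest.Agent.R213

variable {s s' : Set ℝ} {L L' t x : ℝ} {u v : ℝ → ℝ → ℝ}

/-! ### Basic facts about the domain -/

theorem uniqueDiffOn_dom (hs : IsOpen s) (hL : 0 < L) : UniqueDiffOn ℝ (s ×ˢ Icc 0 L) :=
  hs.uniqueDiffOn.prod (uniqueDiffOn_Icc hL)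

theorem dom_subset_closure_interior (hs : IsOpen s) (hL : 0 < L) :
    s ×ˢ Icc 0 L ⊆ closure (interior (s ×ˢ Icc 0 L)) := by
  rw [interior_prod_eq, hs.interior_eq, interior_Icc, closure_prod_eq, closure_Ioo hL.ne]
  exact Set.prod_mono subset_closure subset_rfl

/-! ### Partial derivatives as values of the within-derivative -/

theorem hasDerivWithinAt_right {G : ℝ × ℝ → ℝ} {G' : ℝ × ℝ →L[ℝ] ℝ}
    (h : HasFDerivWithinAt G G' (s ×ˢ Icc 0 L) (t, x)) (ht : t ∈ s) :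
    HasDerivWithinAt (fun y => G (t, y)) (G' (0, 1)) (Icc 0 L) x := by
  have h1 : HasDerivWithinAt (fun y : ℝ => (t, y)) ((0 : ℝ), (1 : ℝ)) (Icc 0 L) x :=
    (hasDerivWithinAt_const x _ t).prodMk (hasDerivWithinAt_id x _)
  exact h.comp_hasDerivWithinAt x h1 (fun y hy => Set.mk_mem_prod ht hy)

theorem hasDerivAt_left {G : ℝ × ℝ → ℝ} {G' : ℝ × ℝ →L[ℝ] ℝ} (hs : IsOpen s)
    (h : HasFDerivWithinAt G G' (s ×ˢ Icc 0 L) (t, x)) (ht : t ∈ s) (hx : x ∈ Icc 0 L) :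
    HasDerivAt (fun r => G (r, x)) (G' (1, 0)) t := by
  have h1 : HasDerivWithinAt (fun r : ℝ => (r, x)) ((1 : ℝ), (0 : ℝ)) s t :=
    (hasDerivWithinAt_id t _).prodMk (hasDerivWithinAt_const t _ x)
  exact (h.comp_hasDerivWithinAt t h1 (fun y hy => Set.mk_mem_prod hy hx)).hasDerivAt
    (hs.mem_nhds ht)

theorem dx_eq_of_hasDerivWithinAt {a : ℝ} (hL : 0 < L) (hx : x ∈ Icc 0 L)
    (h : HasDerivWithinAt (fun y => u t y) a (Icc 0 L) x) : dx L u t x = a :=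
  h.derivWithin ((uniqueDiffOn_Icc hL) x hx)

theorem dt_eq_of_hasDerivAt {a : ℝ} (h : HasDerivAt (fun r => u r x) a t) : dt u t x = a :=
  h.deriv

theorem Sm.differentiableWithinAt (hu : Sm s L u) (ht : t ∈ s) (hx : x ∈ Icc 0 L) :
    DifferentiableWithinAt ℝ (fun p : ℝ × ℝ => u p.1 p.2) (s ×ˢ Icc 0 L) (t, x) :=
  (hu.differentiableOn (by simp)) (t, x) ⟨ht, hx⟩

theorem Sm.dx_eq (hL : 0 < L) (hu : Sm s L u) (ht : t ∈ s) (hx : x ∈ Icc 0 L) :
    dx L u t x = fderivWithin ℝ (fun p : ℝ × ℝ => u p.1 p.2) (s ×ˢ Icc 0 L) (t, x) (0, 1) :=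
  dx_eq_of_hasDerivWithinAt hL hx
    (hasDerivWithinAt_right (hu.differentiableWithinAt ht hx).hasFDerivWithinAt ht)

theorem Sm.dt_eq (hs : IsOpen s) (hu : Sm s L u) (ht : t ∈ s) (hx : x ∈ Icc 0 L) :
    dt u t x = fderivWithin ℝ (fun p : ℝ × ℝ => u p.1 p.2) (s ×ˢ Icc 0 L) (t, x) (1, 0) :=
  dt_eq_of_hasDerivAt
    (hasDerivAt_left hs (hu.differentiableWithinAt ht hx).hasFDerivWithinAt ht hx)

/-- the primary API for `dx` -/
theorem Sm.hasDx (hu : Sm s L u) (hL : 0 < L) (ht : t ∈ s) (hx : x ∈ Icc 0 L) :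
    HasDerivWithinAt (fun y => u t y) (dx L u t x) (Icc 0 L) x := by
  rw [hu.dx_eq hL ht hx]
  exact hasDerivWithinAt_right (hu.differentiableWithinAt ht hx).hasFDerivWithinAt ht

/-- the primary API for `dt` -/
theorem Sm.hasDt (hu : Sm s L u) (hs : IsOpen s) (ht : t ∈ s) (hx : x ∈ Icc 0 L) :
    HasDerivAt (fun r => u r x) (dt u t x) t := by
  rw [hu.dt_eq hs ht hx]
  exact hasDerivAt_left hs (hu.differentiableWithinAt ht hx).hasFDerivWithinAt ht hx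

/-- interior points: `dx` is the usual derivative -/
theorem Sm.hasDx_interior (hu : Sm s L u) (hL : 0 < L) (ht : t ∈ s) (hx : x ∈ Ioo 0 L) :
    HasDerivAt (fun y => u t y) (dx L u t x) x :=
  (hu.hasDx hL ht (Ioo_subset_Icc_self hx)).hasDerivAt (Icc_mem_nhds hx.1 hx.2)

theorem dx_eq_deriv (hx : x ∈ Ioo 0 L) : dx L u t x = deriv (fun y => u t y) x :=
  derivWithin_of_mem_nhds (Icc_mem_nhds hx.1 hx.2)

/-! ### Smoothness of `dx`, `dt` -/

theorem Sm.congr (hu : Sm s L u) (h : ∀ t ∈ s, ∀ x ∈ Icc 0 L, v t x = u t x) : Sm s L v :=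
  ContDiffOn.congr hu (fun p hp => h p.1 hp.1 p.2 hp.2)

theorem Sm.fderivWithin_apply (hs : IsOpen s) (hL : 0 < L) (hu : Sm s L u) (w : ℝ × ℝ) :
    ContDiffOn ℝ (⊤ : ℕ∞)
      (fun p => fderivWithin ℝ (fun p : ℝ × ℝ => u p.1 p.2) (s ×ˢ Icc 0 L) p w)
      (s ×ˢ Icc 0 L) :=
  (hu.fderivWithin (uniqueDiffOn_dom hs hL) (by simp)).clm_apply contDiffOn_const

theorem Sm.dx (hs : IsOpen s) (hL : 0 < L) (hu : Sm s L u) : Sm s L (dx L u) :=
  ContDiffOn.congr (hu.fderivWithin_apply hs hL (0, 1))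
    (fun _ hp => hu.dx_eq hL hp.1 hp.2)

theorem Sm.dt (hs : IsOpen s) (hL : 0 < L) (hu : Sm s L u) : Sm s L (dt u) :=
  ContDiffOn.congr (hu.fderivWithin_apply hs hL (1, 0))
    (fun _ hp => hu.dt_eq hs hp.1 hp.2)

theorem Sm.dt_iter (hs : IsOpen s) (hL : 0 < L) (hu : Sm s L u) (j : ℕ) :
    Sm s L ((Crest.Agent.R213.dt^[j]) u) := by
  induction j generalizing u with
  | zero => exact hu
  | succ j ih => exact ih (hu.dt hs hL)

/-- `dx` and `dt` commute on smooth functions -/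
theorem Sm.dt_dx (hs : IsOpen s) (hL : 0 < L) (hu : Sm s L u) (ht : t ∈ s) (hx : x ∈ Icc 0 L) :
    Crest.Agent.R213.dt (Crest.Agent.R213.dx L u) t x
      = Crest.Agent.R213.dx L (Crest.Agent.R213.dt u) t x := by
  set F : ℝ × ℝ → ℝ := fun p => u p.1 p.2 with hF
  set D := s ×ˢ Icc 0 L with hD
  have hU := uniqueDiffOn_dom hs hL
  have hcont : ContDiffOn ℝ (⊤ : ℕ∞) (fderivWithin ℝ F D) D := hu.fderivWithin hU (by simp)
  have hd : DifferentiableWithinAt ℝ (fderivWithin ℝ F D) D (t, x) :=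
    (hcont.differentiableOn (by simp)) (t, x) ⟨ht, hx⟩
  have hfd := hd.hasFDerivWithinAt
  have happ : ∀ w : ℝ × ℝ, HasFDerivWithinAt (fun p => fderivWithin ℝ F D p w)
      ((ContinuousLinearMap.apply ℝ ℝ w).comp
        (fderivWithin ℝ (fderivWithin ℝ F D) D (t, x))) D (t, x) := by
    intro w
    exact (ContinuousLinearMap.apply ℝ ℝ w).hasFDerivAt.comp_hasFDerivWithinAt _ hfd
  -- left side
  have h1 : Crest.Agent.R213.dt (Crest.Agent.R213.dx L u) t x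
      = fderivWithin ℝ (fderivWithin ℝ F D) D (t, x) (1, 0) (0, 1) := by
    have e1 : HasDerivAt (fun r => fderivWithin ℝ F D (r, x) (0, 1))
        (fderivWithin ℝ (fderivWithin ℝ F D) D (t, x) (1, 0) (0, 1)) t :=
      hasDerivAt_left (G := fun p => fderivWithin ℝ F D p (0, 1)) hs (happ (0, 1)) ht hx
    have e2 : (fun r => Crest.Agent.R213.dx L u r x)
        =ᶠ[𝓝 t] (fun r => fderivWithin ℝ F D (r, x) (0, 1)) := by
      filter_upwards [hs.mem_nhds ht] with r hr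
      exact hu.dx_eq hL hr hx
    exact dt_eq_of_hasDerivAt (e1.congr_of_eventuallyEq e2)
  have h2 : Crest.Agent.R213.dx L (Crest.Agent.R213.dt u) t x
      = fderivWithin ℝ (fderivWithin ℝ F D) D (t, x) (0, 1) (1, 0) := by
    have e1 : HasDerivWithinAt (fun y => fderivWithin ℝ F D (t, y) (1, 0))
        (fderivWithin ℝ (fderivWithin ℝ F D) D (t, x) (0, 1) (1, 0)) (Icc 0 L) x :=
      hasDerivWithinAt_right (G := fun p => fderivWithin ℝ F D p (1, 0)) (happ (1, 0)) ht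
    exact dx_eq_of_hasDerivWithinAt hL hx
      (e1.congr (fun y hy => hu.dt_eq hs ht hy) (hu.dt_eq hs ht hx))
  rw [h1, h2]
  have hsym : IsSymmSndFDerivWithinAt ℝ F D (t, x) := by
    refine ContDiffWithinAt.isSymmSndFDerivWithinAt (n := ((⊤ : ℕ∞) : WithTop ℕ∞))
      (hu (t, x) ⟨ht, hx⟩) ?_ hU (dom_subset_closure_interior hs hL ⟨ht, hx⟩) ⟨ht, hx⟩
    simp only [minSmoothness_of_isRCLikeNormedField]
    exact WithTop.coe_le_coe.2 le_top
  exact hsym (1, 0) (0, 1)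

/-! ### Restriction -/

theorem Sm.mono (hu : Sm s L u) (h : s' ⊆ s) : Sm s' L u :=
  ContDiffOn.mono hu (Set.prod_mono h subset_rfl)

theorem Sm.mono_right (hu : Sm s L u) (h : L' ≤ L) : Sm s L' u :=
  ContDiffOn.mono hu (Set.prod_mono subset_rfl (Icc_subset_Icc_right h))

theorem Sm.dx_restrict (hu : Sm s L u) (hL : 0 < L) (hL' : 0 < L') (h : L' ≤ L) (ht : t ∈ s)
    (hx : x ∈ Icc 0 L') : Crest.Agent.R213.dx L' u t x = Crest.Agent.R213.dx L u t x :=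
  dx_eq_of_hasDerivWithinAt hL' hx
    ((hu.hasDx hL ht (Icc_subset_Icc_right h hx)).mono (Icc_subset_Icc_right h))

/-! ### Congruence -/

theorem dx_congr (h : ∀ y ∈ Icc 0 L, v t y = u t y) (hx : x ∈ Icc 0 L) :
    Crest.Agent.R213.dx L v t x = Crest.Agent.R213.dx L u t x :=
  derivWithin_congr h (h x hx)

theorem dt_congr (hs : IsOpen s) (h : ∀ r ∈ s, v r x = u r x) (ht : t ∈ s) :
    Crest.Agent.R213.dt v t x = Crest.Agent.R213.dt u t x :=
  Filter.EventuallyEq.deriv_eq (by filter_upwards [hs.mem_nhds ht] with r hr using h r hr)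

theorem dt_iter_congr (hs : IsOpen s) (h : ∀ r ∈ s, v r x = u r x) (ht : t ∈ s) (j : ℕ) :
    (Crest.Agent.R213.dt^[j]) v t x = (Crest.Agent.R213.dt^[j]) u t x := by
  induction j generalizing u v with
  | zero => exact h t ht
  | succ j ih => exact ih (fun r hr => dt_congr hs h hr)

/-! ### Closure properties -/

theorem Sm.const (c : ℝ) : Sm s L (fun _ _ => c) := contDiffOn_const

theorem Sm.fst : Sm s L (fun t _ => t) := contDiff_fst.contDiffOn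

theorem Sm.snd : Sm s L (fun _ x => x) := contDiff_snd.contDiffOn

theorem Sm.of_left {f : ℝ → ℝ} (hf : ContDiffOn ℝ (⊤ : ℕ∞) f s) : Sm s L (fun t _ => f t) :=
  hf.comp contDiff_fst.contDiffOn (fun _ hp => hp.1)

theorem Sm.of_right {f : ℝ → ℝ} (hf : ContDiffOn ℝ (⊤ : ℕ∞) f (Icc 0 L)) :
    Sm s L (fun _ x => f x) :=
  hf.comp contDiff_snd.contDiffOn (fun _ hp => hp.2)

theorem Sm.add (hu : Sm s L u) (hv : Sm s L v) : Sm s L (fun t x => u t x + v t x) :=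
  ContDiffOn.add hu hv

theorem Sm.sub (hu : Sm s L u) (hv : Sm s L v) : Sm s L (fun t x => u t x - v t x) :=
  ContDiffOn.sub hu hv

theorem Sm.mul (hu : Sm s L u) (hv : Sm s L v) : Sm s L (fun t x => u t x * v t x) :=
  ContDiffOn.mul hu hv

theorem Sm.neg (hu : Sm s L u) : Sm s L (fun t x => - u t x) :=
  ContDiffOn.neg hu

theorem Sm.const_mul (c : ℝ) (hu : Sm s L u) : Sm s L (fun t x => c * u t x) :=
  (Sm.const c).mul hu

theorem Sm.pow (hu : Sm s L u) (n : ℕ) : Sm s L (fun t x => u t x ^ n) :=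
  ContDiffOn.pow hu n

theorem Sm.inv (hu : Sm s L u) (h : ∀ t ∈ s, ∀ x ∈ Icc 0 L, u t x ≠ 0) :
    Sm s L (fun t x => (u t x)⁻¹) :=
  ContDiffOn.inv hu (fun p hp => h p.1 hp.1 p.2 hp.2)

theorem Sm.div (hu : Sm s L u) (hv : Sm s L v) (h : ∀ t ∈ s, ∀ x ∈ Icc 0 L, v t x ≠ 0) :
    Sm s L (fun t x => u t x / v t x) :=
  ContDiffOn.div hu hv (fun p hp => h p.1 hp.1 p.2 hp.2)

theorem Sm.sum {ι : Type*} {f : ι → ℝ → ℝ → ℝ} {I : Finset ι} (h : ∀ i ∈ I, Sm s L (f i)) :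
    Sm s L (fun t x => ∑ i ∈ I, f i t x) :=
  ContDiffOn.sum h

/-- composition with a function of one variable -/
theorem Sm.comp_left {f : ℝ → ℝ} {A : Set ℝ} (hf : ContDiffOn ℝ (⊤ : ℕ∞) f A) (hu : Sm s L u)
    (h : ∀ t ∈ s, ∀ x ∈ Icc 0 L, u t x ∈ A) : Sm s L (fun t x => f (u t x)) :=
  hf.comp hu (fun p hp => h p.1 hp.1 p.2 hp.2)

theorem Sm.comp_left' {f : ℝ → ℝ} (hf : ContDiff ℝ (⊤ : ℕ∞) f) (hu : Sm s L u) :
    Sm s L (fun t x => f (u t x)) :=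
  hf.comp_contDiffOn hu

/-- composition with a change of both variables -/
theorem Sm.comp2 {a b : ℝ → ℝ → ℝ} (hu : Sm s L u) (ha : Sm s' L' a) (hb : Sm s' L' b)
    (h1 : ∀ t ∈ s', ∀ x ∈ Icc 0 L', a t x ∈ s)
    (h2 : ∀ t ∈ s', ∀ x ∈ Icc 0 L', b t x ∈ Icc 0 L) :
    Sm s' L' (fun t x => u (a t x) (b t x)) :=
  ContDiffOn.comp (g := fun p : ℝ × ℝ => u p.1 p.2)
    (f := fun p : ℝ × ℝ => (a p.1 p.2, b p.1 p.2)) hu (ContDiffOn.prodMk ha hb)
    (fun p hp => Set.mk_mem_prod (h1 p.1 hp.1 p.2 hp.2) (h2 p.1 hp.1 p.2 hp.2))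

theorem Sm.exp (hu : Sm s L u) : Sm s L (fun t x => Real.exp (u t x)) :=
  Sm.comp_left' Real.contDiff_exp hu

theorem Sm.log (hu : Sm s L u) (h : ∀ t ∈ s, ∀ x ∈ Icc 0 L, u t x ≠ 0) :
    Sm s L (fun t x => Real.log (u t x)) :=
  ContDiffOn.log hu (fun p hp => h p.1 hp.1 p.2 hp.2)

theorem Sm.sqrt (hu : Sm s L u) (h : ∀ t ∈ s, ∀ x ∈ Icc 0 L, u t x ≠ 0) :
    Sm s L (fun t x => √(u t x)) :=
  ContDiffOn.sqrt hu (fun p hp => h p.1 hp.1 p.2 hp.2)

theorem Sm.rpow (hu : Sm s L u) (a : ℝ) (h : ∀ t ∈ s, ∀ x ∈ Icc 0 L, u t x ≠ 0) :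
    Sm s L (fun t x => u t x ^ a) :=
  ContDiffOn.rpow_const_of_ne hu (fun p hp => h p.1 hp.1 p.2 hp.2)

theorem Sm.continuousOn (hu : Sm s L u) :
    ContinuousOn (fun p : ℝ × ℝ => u p.1 p.2) (s ×ˢ Icc 0 L) :=
  ContDiffOn.continuousOn hu

theorem Sm.continuousOn_right (hu : Sm s L u) (ht : t ∈ s) : ContinuousOn (u t) (Icc 0 L) :=
  hu.continuousOn.comp (Continuous.continuousOn (by fun_prop : Continuous fun y : ℝ => (t, y)))
    (fun _ hy => Set.mk_mem_prod ht hy)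

theorem Sm.continuousOn_left (hu : Sm s L u) (hx : x ∈ Icc 0 L) :
    ContinuousOn (fun r => u r x) s :=
  hu.continuousOn.comp (Continuous.continuousOn (by fun_prop : Continuous fun r : ℝ => (r, x)))
    (fun _ hy => Set.mk_mem_prod hy hx)

theorem Sm.contDiffOn_right (hu : Sm s L u) (ht : t ∈ s) :
    ContDiffOn ℝ (⊤ : ℕ∞) (u t) (Icc 0 L) :=
  ContDiffOn.comp (g := fun p : ℝ × ℝ => u p.1 p.2) (f := fun y : ℝ => (t, y)) hu
    (ContDiff.contDiffOn (by fun_prop)) (fun _ hy => Set.mk_mem_prod ht hy)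

theorem Sm.contDiffOn_left (hu : Sm s L u) (hx : x ∈ Icc 0 L) :
    ContDiffOn ℝ (⊤ : ℕ∞) (fun r => u r x) s :=
  ContDiffOn.comp (g := fun p : ℝ × ℝ => u p.1 p.2) (f := fun r : ℝ => (r, x)) hu
    (ContDiff.contDiffOn (by fun_prop)) (fun _ hy => Set.mk_mem_prod hy hx)

/-! ### Rules for `dx` -/

section dxrules

theorem Sm.dx_add (hu : Sm s L u) (hv : Sm s L v) (hL : 0 < L) (ht : t ∈ s) (hx : x ∈ Icc 0 L) :
    Crest.Agent.R213.dx L (fun t x => u t x + v t x) t x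
      = Crest.Agent.R213.dx L u t x + Crest.Agent.R213.dx L v t x :=
  dx_eq_of_hasDerivWithinAt hL hx ((hu.hasDx hL ht hx).add (hv.hasDx hL ht hx))

theorem Sm.dx_sub (hu : Sm s L u) (hv : Sm s L v) (hL : 0 < L) (ht : t ∈ s) (hx : x ∈ Icc 0 L) :
    Crest.Agent.R213.dx L (fun t x => u t x - v t x) t x
      = Crest.Agent.R213.dx L u t x - Crest.Agent.R213.dx L v t x :=
  dx_eq_of_hasDerivWithinAt hL hx ((hu.hasDx hL ht hx).sub (hv.hasDx hL ht hx))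

theorem Sm.dx_mul (hu : Sm s L u) (hv : Sm s L v) (hL : 0 < L) (ht : t ∈ s) (hx : x ∈ Icc 0 L) :
    Crest.Agent.R213.dx L (fun t x => u t x * v t x) t x
      = Crest.Agent.R213.dx L u t x * v t x + u t x * Crest.Agent.R213.dx L v t x :=
  dx_eq_of_hasDerivWithinAt hL hx ((hu.hasDx hL ht hx).mul (hv.hasDx hL ht hx))

theorem Sm.dx_neg (hu : Sm s L u) (hL : 0 < L) (ht : t ∈ s) (hx : x ∈ Icc 0 L) :
    Crest.Agent.R213.dx L (fun t x => - u t x) t x = - Crest.Agent.R213.dx L u t x :=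
  dx_eq_of_hasDerivWithinAt hL hx (hu.hasDx hL ht hx).neg

theorem Sm.dx_const_mul (c : ℝ) (hu : Sm s L u) (hL : 0 < L) (ht : t ∈ s) (hx : x ∈ Icc 0 L) :
    Crest.Agent.R213.dx L (fun t x => c * u t x) t x = c * Crest.Agent.R213.dx L u t x :=
  dx_eq_of_hasDerivWithinAt hL hx ((hu.hasDx hL ht hx).const_mul c)

theorem Sm.dx_inv (hu : Sm s L u) (h0 : u t x ≠ 0) (hL : 0 < L) (ht : t ∈ s)
    (hx : x ∈ Icc 0 L) :
    Crest.Agent.R213.dx L (fun t x => (u t x)⁻¹) t x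
      = - Crest.Agent.R213.dx L u t x / (u t x) ^ 2 :=
  dx_eq_of_hasDerivWithinAt hL hx ((hu.hasDx hL ht hx).inv h0)

theorem Sm.dx_div (hu : Sm s L u) (hv : Sm s L v) (h0 : v t x ≠ 0) (hL : 0 < L) (ht : t ∈ s)
    (hx : x ∈ Icc 0 L) :
    Crest.Agent.R213.dx L (fun t x => u t x / v t x) t x
      = (Crest.Agent.R213.dx L u t x * v t x - u t x * Crest.Agent.R213.dx L v t x)
        / (v t x) ^ 2 :=
  dx_eq_of_hasDerivWithinAt hL hx ((hu.hasDx hL ht hx).div (hv.hasDx hL ht hx) h0)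

theorem Sm.dx_pow (hu : Sm s L u) (n : ℕ) (hL : 0 < L) (ht : t ∈ s) (hx : x ∈ Icc 0 L) :
    Crest.Agent.R213.dx L (fun t x => u t x ^ n) t x
      = n * u t x ^ (n - 1) * Crest.Agent.R213.dx L u t x :=
  dx_eq_of_hasDerivWithinAt hL hx ((hu.hasDx hL ht hx).pow n)

theorem dx_const (c : ℝ) (hL : 0 < L) (hx : x ∈ Icc 0 L) : dx L (fun _ _ => c) t x = 0 :=
  dx_eq_of_hasDerivWithinAt hL hx (hasDerivWithinAt_const x _ c)

theorem dx_left (f : ℝ → ℝ) (hL : 0 < L) (hx : x ∈ Icc 0 L) : dx L (fun t _ => f t) t x = 0 :=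
  dx_eq_of_hasDerivWithinAt hL hx (hasDerivWithinAt_const x _ (f t))

theorem dx_snd (hL : 0 < L) (hx : x ∈ Icc 0 L) : dx L (fun _ x => x) t x = 1 :=
  dx_eq_of_hasDerivWithinAt hL hx (hasDerivWithinAt_id x _)

theorem dx_right {f : ℝ → ℝ} {a : ℝ} (hf : HasDerivAt f a x) (hL : 0 < L) (hx : x ∈ Icc 0 L) :
    dx L (fun _ x => f x) t x = a :=
  dx_eq_of_hasDerivWithinAt hL hx hf.hasDerivWithinAt

theorem dx_xpow (n : ℕ) (hL : 0 < L) (hx : x ∈ Icc 0 L) :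
    dx L (fun _ x => x ^ n) t x = n * x ^ (n - 1) :=
  dx_eq_of_hasDerivWithinAt hL hx (hasDerivAt_pow n x).hasDerivWithinAt

/-- chain rule: outer function of one variable -/
theorem Sm.dx_comp_left {f : ℝ → ℝ} {a : ℝ} (hu : Sm s L u) (hf : HasDerivAt f a (u t x))
    (hL : 0 < L) (ht : t ∈ s) (hx : x ∈ Icc 0 L) :
    Crest.Agent.R213.dx L (fun t x => f (u t x)) t x = a * Crest.Agent.R213.dx L u t x :=
  dx_eq_of_hasDerivWithinAt hL hx (hf.comp_hasDerivWithinAt x (hu.hasDx hL ht hx))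

end dxrules

/-! ### Rules for `dt` -/

section dtrules

theorem Sm.dt_add (hu : Sm s L u) (hv : Sm s L v) (hs : IsOpen s) (ht : t ∈ s)
    (hx : x ∈ Icc 0 L) :
    Crest.Agent.R213.dt (fun t x => u t x + v t x) t x
      = Crest.Agent.R213.dt u t x + Crest.Agent.R213.dt v t x :=
  dt_eq_of_hasDerivAt ((hu.hasDt hs ht hx).add (hv.hasDt hs ht hx))

theorem Sm.dt_sub (hu : Sm s L u) (hv : Sm s L v) (hs : IsOpen s) (ht : t ∈ s)
    (hx : x ∈ Icc 0 L) :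
    Crest.Agent.R213.dt (fun t x => u t x - v t x) t x
      = Crest.Agent.R213.dt u t x - Crest.Agent.R213.dt v t x :=
  dt_eq_of_hasDerivAt ((hu.hasDt hs ht hx).sub (hv.hasDt hs ht hx))

theorem Sm.dt_mul (hu : Sm s L u) (hv : Sm s L v) (hs : IsOpen s) (ht : t ∈ s)
    (hx : x ∈ Icc 0 L) :
    Crest.Agent.R213.dt (fun t x => u t x * v t x) t x
      = Crest.Agent.R213.dt u t x * v t x + u t x * Crest.Agent.R213.dt v t x :=
  dt_eq_of_hasDerivAt ((hu.hasDt hs ht hx).mul (hv.hasDt hs ht hx))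

theorem Sm.dt_neg (hu : Sm s L u) (hs : IsOpen s) (ht : t ∈ s) (hx : x ∈ Icc 0 L) :
    Crest.Agent.R213.dt (fun t x => - u t x) t x = - Crest.Agent.R213.dt u t x :=
  dt_eq_of_hasDerivAt (hu.hasDt hs ht hx).neg

theorem Sm.dt_const_mul (c : ℝ) (hu : Sm s L u) (hs : IsOpen s) (ht : t ∈ s)
    (hx : x ∈ Icc 0 L) :
    Crest.Agent.R213.dt (fun t x => c * u t x) t x = c * Crest.Agent.R213.dt u t x :=
  dt_eq_of_hasDerivAt ((hu.hasDt hs ht hx).const_mul c)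

theorem Sm.dt_inv (hu : Sm s L u) (h0 : u t x ≠ 0) (hs : IsOpen s) (ht : t ∈ s)
    (hx : x ∈ Icc 0 L) :
    Crest.Agent.R213.dt (fun t x => (u t x)⁻¹) t x
      = - Crest.Agent.R213.dt u t x / (u t x) ^ 2 :=
  dt_eq_of_hasDerivAt ((hu.hasDt hs ht hx).inv h0)

theorem Sm.dt_div (hu : Sm s L u) (hv : Sm s L v) (h0 : v t x ≠ 0) (hs : IsOpen s) (ht : t ∈ s)
    (hx : x ∈ Icc 0 L) :
    Crest.Agent.R213.dt (fun t x => u t x / v t x) t x
      = (Crest.Agent.R213.dt u t x * v t x - u t x * Crest.Agent.R213.dt v t x)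
        / (v t x) ^ 2 :=
  dt_eq_of_hasDerivAt ((hu.hasDt hs ht hx).div (hv.hasDt hs ht hx) h0)

theorem Sm.dt_pow (hu : Sm s L u) (n : ℕ) (hs : IsOpen s) (ht : t ∈ s) (hx : x ∈ Icc 0 L) :
    Crest.Agent.R213.dt (fun t x => u t x ^ n) t x
      = n * u t x ^ (n - 1) * Crest.Agent.R213.dt u t x :=
  dt_eq_of_hasDerivAt ((hu.hasDt hs ht hx).pow n)

theorem dt_const (c : ℝ) : dt (fun _ _ => c) t x = 0 :=
  dt_eq_of_hasDerivAt (hasDerivAt_const t c)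

theorem dt_right (f : ℝ → ℝ) : dt (fun _ x => f x) t x = 0 :=
  dt_eq_of_hasDerivAt (hasDerivAt_const t (f x))

theorem dt_fst : dt (fun t _ => t) t x = 1 :=
  dt_eq_of_hasDerivAt (hasDerivAt_id t)

theorem dt_left {f : ℝ → ℝ} {a : ℝ} (hf : HasDerivAt f a t) : dt (fun t _ => f t) t x = a :=
  dt_eq_of_hasDerivAt hf

theorem Sm.dt_comp_left {f : ℝ → ℝ} {a : ℝ} (hu : Sm s L u) (hf : HasDerivAt f a (u t x))
    (hs : IsOpen s) (ht : t ∈ s) (hx : x ∈ Icc 0 L) :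
    Crest.Agent.R213.dt (fun t x => f (u t x)) t x = a * Crest.Agent.R213.dt u t x :=
  dt_eq_of_hasDerivAt (hf.comp t (hu.hasDt hs ht hx))

end dtrules

/-! ### Chain rule for a change of both variables, scaling -/

theorem Sm.hasFDeriv (hs : IsOpen s) (hL : 0 < L) (hu : Sm s L u) (ht : t ∈ s)
    (hx : x ∈ Icc 0 L) (p : ℝ × ℝ) :
    fderivWithin ℝ (fun p : ℝ × ℝ => u p.1 p.2) (s ×ˢ Icc 0 L) (t, x) p
      = p.1 * Crest.Agent.R213.dt u t x + p.2 * Crest.Agent.R213.dx L u t x := by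
  have hp : p = p.1 • ((1 : ℝ), (0 : ℝ)) + p.2 • ((0 : ℝ), (1 : ℝ)) := by
    ext <;> simp
  conv_lhs => rw [hp]
  rw [map_add, map_smul, map_smul, ← hu.dt_eq hs ht hx, ← hu.dx_eq hL ht hx]
  simp [smul_eq_mul]

/-- chain rule in the second variable for `u (a y) (b y)` -/
theorem Sm.hasDerivWithinAt_comp2 {a b : ℝ → ℝ} {a' b' y : ℝ} {A : Set ℝ} (hs : IsOpen s)
    (hL : 0 < L) (hu : Sm s L u) (ha : HasDerivWithinAt a a' A y) (hb : HasDerivWithinAt b b' A y)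
    (h1 : ∀ z ∈ A, a z ∈ s) (h2 : ∀ z ∈ A, b z ∈ Icc 0 L) (hy : y ∈ A) :
    HasDerivWithinAt (fun z => u (a z) (b z))
      (a' * Crest.Agent.R213.dt u (a y) (b y) + b' * Crest.Agent.R213.dx L u (a y) (b y)) A y := by
  have h := (hu.differentiableWithinAt (h1 y hy) (h2 y hy)).hasFDerivWithinAt
  have hc := h.comp_hasDerivWithinAt y (ha.prodMk hb)
    (fun z hz => Set.mk_mem_prod (h1 z hz) (h2 z hz))
  rw [hu.hasFDeriv hs hL (h1 y hy) (h2 y hy)] at hc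
  exact hc

/-- affine rescaling: `(t,x) ↦ u (α + β t) (k x)` -/
theorem Sm.scale {α β k : ℝ} (hk : 0 < k) (hu : Sm s (k * L) u)
    (h : ∀ t ∈ s', α + β * t ∈ s) : Sm s' L (fun t x => u (α + β * t) (k * x)) := by
  refine hu.comp2 (a := fun t _ => α + β * t) (b := fun _ x => k * x) ?_ ?_ (fun t ht x _ => h t ht)
    ?_
  · exact ((Sm.const α).add (Sm.fst.const_mul β))
  · exact Sm.snd.const_mul k
  · intro t _ x hx
    exact ⟨mul_nonneg hk.le hx.1, mul_le_mul_of_nonneg_left hx.2 hk.le⟩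

theorem Sm.dx_scale {α β k : ℝ} (hk : 0 < k) (hL : 0 < L) (hu : Sm s (k * L) u)
    (ht : α + β * t ∈ s) (hx : x ∈ Icc 0 L) :
    Crest.Agent.R213.dx L (fun t x => u (α + β * t) (k * x)) t x
      = k * Crest.Agent.R213.dx (k * L) u (α + β * t) (k * x) := by
  have hx' : k * x ∈ Icc 0 (k * L) :=
    ⟨mul_nonneg hk.le hx.1, mul_le_mul_of_nonneg_left hx.2 hk.le⟩
  have h1 : HasDerivWithinAt (fun y : ℝ => k * y) k (Icc 0 L) x := by
    simpa using (hasDerivWithinAt_id x (Icc 0 L)).const_mul k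
  have h := (hu.hasDx (mul_pos hk hL) ht hx').scomp x h1 (fun y hy =>
    (⟨mul_nonneg hk.le hy.1, mul_le_mul_of_nonneg_left hy.2 hk.le⟩ : k * y ∈ Icc 0 (k * L)))
  exact dx_eq_of_hasDerivWithinAt hL hx (by simpa [Function.comp_def, smul_eq_mul] using h)

theorem Sm.dt_scale {α β k : ℝ} (hk : 0 < k) (hs : IsOpen s) (hu : Sm s (k * L) u)
    (ht : α + β * t ∈ s) (hx : x ∈ Icc 0 L) :
    Crest.Agent.R213.dt (fun t x => u (α + β * t) (k * x)) t x
      = β * Crest.Agent.R213.dt u (α + β * t) (k * x) := by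
  have hx' : k * x ∈ Icc 0 (k * L) :=
    ⟨mul_nonneg hk.le hx.1, mul_le_mul_of_nonneg_left hx.2 hk.le⟩
  have h1 : HasDerivAt (fun r : ℝ => α + β * r) β t := by
    simpa using ((hasDerivAt_id t).const_mul β).const_add α
  have h := (hu.hasDt hs ht hx').scomp t h1
  exact dt_eq_of_hasDerivAt (by simpa [Function.comp_def, smul_eq_mul] using h)

end Crest.Agent.R213
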