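import Mathlib

/-!
# Row 213: parametric integrals of smooth functions on convex sets (with boundary)

`PI α β γ δ w G p = ∫ r in 0..1, w r * G (α r + β r * p.1, γ r + δ r * p.2)`.
If `K` is convex with unique differentiability, the affine maps preserve `K`, `|β|,|δ| ≤ 1`, and `G` is
`C^∞` on `K`, then so is `PI ... G`, and the partial derivatives are `PI ... (β w) G_1`,
`PI ... (δ w) G_2`.
-/

set_option autoImplicit false

open Set MeasureTheory Filter Topology intervalIntegral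

noncomputable section

namespace Crest.Agent.R213.ParInt

/-- the parametric integral -/
def PI (α β γ δ w : ℝ → ℝ) (G : ℝ × ℝ → ℝ) (p : ℝ × ℝ) : ℝ :=
  ∫ r in (0 : ℝ)..1, w r * G (α r + β r * p.1, γ r + δ r * p.2)

variable {K : Set (ℝ × ℝ)} {α β γ δ w : ℝ → ℝ} {G : ℝ × ℝ → ℝ}

/-- hypotheses on the family of affine maps -/
structure Fam (K : Set (ℝ × ℝ)) (α β γ δ : ℝ → ℝ) : Prop where
  hα : ContinuousOn α (Icc 0 1)
  hβ : ContinuousOn β (Icc 0 1)
  hγ : ContinuousOn γ (Icc 0 1)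
  hδ : ContinuousOn δ (Icc 0 1)
  β1 : ∀ r ∈ Icc (0 : ℝ) 1, |β r| ≤ 1
  δ1 : ∀ r ∈ Icc (0 : ℝ) 1, |δ r| ≤ 1
  maps : ∀ r ∈ Icc (0 : ℝ) 1, ∀ p ∈ K, (α r + β r * p.1, γ r + δ r * p.2) ∈ K

theorem Fam.cont (h : Fam K α β γ δ) (p : ℝ × ℝ) :
    ContinuousOn (fun r => ((α r + β r * p.1, γ r + δ r * p.2) : ℝ × ℝ)) (Icc 0 1) :=
  (h.hα.add (h.hβ.mul continuousOn_const)).prodMk (h.hγ.add (h.hδ.mul continuousOn_const))

theorem Fam.cont_comp {X : Type*} [TopologicalSpace X] {g : ℝ × ℝ → X} (h : Fam K α β γ δ)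
    (hg : ContinuousOn g K) {p : ℝ × ℝ} (hp : p ∈ K) :
    ContinuousOn (fun r => g (α r + β r * p.1, γ r + δ r * p.2)) (Icc 0 1) :=
  hg.comp (h.cont p) (fun r hr => h.maps r hr p hp)

theorem Fam.integrable (h : Fam K α β γ δ) (hw : ContinuousOn w (Icc 0 1))
    (hG : ContinuousOn G K) {p : ℝ × ℝ} (hp : p ∈ K) :
    IntervalIntegrable (fun r => w r * G (α r + β r * p.1, γ r + δ r * p.2)) volume 0 1 := by
  apply ContinuousOn.intervalIntegrable
  rw [uIcc_of_le zero_le_one]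
  exact hw.mul (h.cont_comp hG hp)

/-- uniform continuity near a compact subset of `K` -/
theorem unif_near_compact {X Y : Type*} [PseudoMetricSpace X] [PseudoMetricSpace Y] {K C : Set X}
    {g : X → Y} (hg : ContinuousOn g K) (hC : IsCompact C) (hCK : C ⊆ K) {ε : ℝ} (hε : 0 < ε) :
    ∃ δ > 0, ∀ x ∈ C, ∀ y ∈ K, dist x y < δ → dist (g x) (g y) < ε := by
  have h1 : Continuous (K.domRestrict g) := continuousOn_iff_continuous_domRestrict.1 hg
  have hC' : IsCompact ((Subtype.val : K → X) ⁻¹' C) := by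
    rw [Subtype.isCompact_iff]
    rw [Subtype.image_preimage_coe, inter_eq_self_of_subset_right hCK]
    exact hC
  have h2 := hC'.uniformContinuousAt_of_continuousAt (f := K.domRestrict g)
    (fun a _ => h1.continuousAt) (Metric.dist_mem_uniformity hε)
  obtain ⟨δ, hδ, h3⟩ := Metric.mem_uniformity_dist.1 h2
  refine ⟨δ, hδ, fun x hx y hy hxy => ?_⟩
  exact h3 (a := ⟨x, hCK hx⟩) (b := ⟨y, hy⟩) hxy hx

/-- derivative of the parametric integral -/
theorem hasFDerivWithinAt_PI (hK : Convex ℝ K) (h : Fam K α β γ δ)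
    (hw : ContinuousOn w (Icc 0 1)) {G' : ℝ × ℝ → (ℝ × ℝ →L[ℝ] ℝ)}
    (hG : ∀ p ∈ K, HasFDerivWithinAt G (G' p) K p) (hG' : ContinuousOn G' K)
    {p : ℝ × ℝ} (hp : p ∈ K) :
    HasFDerivWithinAt (PI α β γ δ w G)
      (PI α β γ δ (fun r => β r * w r) (fun q => G' q (1, 0)) p • ContinuousLinearMap.fst ℝ ℝ ℝ +
        PI α β γ δ (fun r => δ r * w r) (fun q => G' q (0, 1)) p •
          ContinuousLinearMap.snd ℝ ℝ ℝ) K p := by
  have hGc : ContinuousOn G K := fun q hq => (hG q hq).continuousWithinAt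
  -- bound of the weight
  obtain ⟨M, hM⟩ := (isCompact_Icc (a := (0 : ℝ)) (b := 1)).exists_bound_of_continuousOn hw
  have hM0 : 0 ≤ M := (norm_nonneg _).trans (hM 0 (by simp))
  rw [hasFDerivWithinAt_iff_isLittleO, Asymptotics.isLittleO_iff]
  intro ε hε
  have hε' : 0 < ε / (M + 1) := by positivity
  -- the compact segment
  set φ : ℝ → ℝ × ℝ := fun r => (α r + β r * p.1, γ r + δ r * p.2) with hφ
  have hCc : IsCompact (φ '' Icc 0 1) := isCompact_Icc.image_of_continuousOn (h.cont p)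
  have hCK : φ '' Icc 0 1 ⊆ K := by
    rintro _ ⟨r, hr, rfl⟩; exact h.maps r hr p hp
  obtain ⟨η, hη, hunif⟩ := unif_near_compact hG' hCc hCK hε'
  have hev : ∀ᶠ p' in 𝓝[K] p, p' ∈ K ∧ dist p' p < η :=
    (eventually_mem_nhdsWithin).and
      (mem_nhdsWithin_of_mem_nhds (Metric.ball_mem_nhds p hη))
  filter_upwards [hev] with p' hp'
  obtain ⟨hp'K, hdist⟩ := hp'
  -- pointwise estimate
  have key : ∀ r ∈ Icc (0 : ℝ) 1,
      |G (α r + β r * p'.1, γ r + δ r * p'.2) - G (φ r) -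
        (β r * (p'.1 - p.1) * G' (φ r) (1, 0) + δ r * (p'.2 - p.2) * G' (φ r) (0, 1))| ≤
        ε / (M + 1) * ‖p' - p‖ := by
    intro r hr
    set q := φ r with hq
    set q' : ℝ × ℝ := (α r + β r * p'.1, γ r + δ r * p'.2) with hq'
    have hqK : q ∈ K := h.maps r hr p hp
    have hq'K : q' ∈ K := h.maps r hr p' hp'K
    have hsub : q' - q = (β r * (p'.1 - p.1), δ r * (p'.2 - p.2)) := by
      rw [hq', hq, hφ]; ext <;> simp <;> ring
    have hnorm : ‖q' - q‖ ≤ ‖p' - p‖ := by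
      rw [hsub, Prod.norm_def, Prod.norm_def]
      simp only [Prod.fst_sub, Prod.snd_sub, norm_mul]
      refine max_le_max ?_ ?_
      · calc ‖β r‖ * ‖p'.1 - p.1‖ ≤ 1 * ‖p'.1 - p.1‖ :=
              mul_le_mul_of_nonneg_right (h.β1 r hr) (norm_nonneg _)
          _ = _ := one_mul _
      · calc ‖δ r‖ * ‖p'.2 - p.2‖ ≤ 1 * ‖p'.2 - p.2‖ :=
              mul_le_mul_of_nonneg_right (h.δ1 r hr) (norm_nonneg _)
          _ = _ := one_mul _
    have hd : dist q' q < η := by
      rw [dist_eq_norm]; exact hnorm.trans_lt (by rwa [← dist_eq_norm])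
    have hconv : Convex ℝ (K ∩ Metric.ball q η) := hK.inter (convex_ball q η)
    have hmv := Convex.norm_image_sub_le_of_norm_hasFDerivWithin_le' (𝕜 := ℝ) (f := G) (f' := G')
      (φ := G' q) (s := K ∩ Metric.ball q η) (C := ε / (M + 1)) (x := q) (y := q')
      (fun x hx => (hG x hx.1).mono inter_subset_left) (fun x hx => ?_) hconv
      ⟨hqK, Metric.mem_ball_self hη⟩ ⟨hq'K, hd⟩
    · have e1 : G' q (q' - q) =
          β r * (p'.1 - p.1) * G' q (1, 0) + δ r * (p'.2 - p.2) * G' q (0, 1) := by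
        rw [hsub]
        have : ((β r * (p'.1 - p.1), δ r * (p'.2 - p.2)) : ℝ × ℝ) =
            (β r * (p'.1 - p.1)) • ((1, 0) : ℝ × ℝ) + (δ r * (p'.2 - p.2)) • ((0, 1) : ℝ × ℝ) := by
          ext <;> simp
        rw [this, map_add, map_smul, map_smul]
        simp
      rw [← e1, ← Real.norm_eq_abs]
      refine hmv.trans ?_
      exact mul_le_mul_of_nonneg_left hnorm hε'.le
    · have := hunif q ⟨r, hr, rfl⟩ x hx.1 (by rw [dist_comm]; exact hx.2)
      rw [dist_comm, dist_eq_norm] at this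
      exact this.le
  -- integrate
  have hint1 := h.integrable hw hGc hp
  have hint2 := h.integrable hw hGc hp'K
  have hG1 : ContinuousOn (fun q => G' q (1, 0)) K := hG'.clm_apply continuousOn_const
  have hG2 : ContinuousOn (fun q => G' q (0, 1)) K := hG'.clm_apply continuousOn_const
  have hint3 := h.integrable (w := fun r => β r * w r) (h.hβ.mul hw) hG1 hp
  have hint4 := h.integrable (w := fun r => δ r * w r) (h.hδ.mul hw) hG2 hp
  have e : PI α β γ δ w G p' - PI α β γ δ w G p -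
      (PI α β γ δ (fun r => β r * w r) (fun q => G' q (1, 0)) p • ContinuousLinearMap.fst ℝ ℝ ℝ +
        PI α β γ δ (fun r => δ r * w r) (fun q => G' q (0, 1)) p •
          ContinuousLinearMap.snd ℝ ℝ ℝ) (p' - p) =
      ∫ r in (0 : ℝ)..1, w r * (G (α r + β r * p'.1, γ r + δ r * p'.2) - G (φ r) -
        (β r * (p'.1 - p.1) * G' (φ r) (1, 0) + δ r * (p'.2 - p.2) * G' (φ r) (0, 1))) := by
    have e2 : (PI α β γ δ (fun r => β r * w r) (fun q => G' q (1, 0)) p •
        ContinuousLinearMap.fst ℝ ℝ ℝ +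
        PI α β γ δ (fun r => δ r * w r) (fun q => G' q (0, 1)) p •
          ContinuousLinearMap.snd ℝ ℝ ℝ) (p' - p) =
        PI α β γ δ (fun r => β r * w r) (fun q => G' q (1, 0)) p * (p'.1 - p.1) +
        PI α β γ δ (fun r => δ r * w r) (fun q => G' q (0, 1)) p * (p'.2 - p.2) := by
      simp
    rw [e2]
    unfold PI
    rw [← intervalIntegral.integral_sub hint2 hint1, ← intervalIntegral.integral_mul_const,
      ← intervalIntegral.integral_mul_const,
      ← intervalIntegral.integral_add (hint3.mul_const _) (hint4.mul_const _),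
      ← intervalIntegral.integral_sub (hint2.sub hint1)
        ((hint3.mul_const _).add (hint4.mul_const _))]
    refine intervalIntegral.integral_congr (fun r _ => ?_)
    simp only [hφ]
    ring
  rw [e]
  have hb : ∀ r ∈ uIoc (0 : ℝ) 1,
      ‖w r * (G (α r + β r * p'.1, γ r + δ r * p'.2) - G (φ r) -
        (β r * (p'.1 - p.1) * G' (φ r) (1, 0) + δ r * (p'.2 - p.2) * G' (φ r) (0, 1)))‖ ≤
      ε * ‖p' - p‖ := by
    intro r hr
    rw [uIoc_of_le zero_le_one] at hr
    have hr' : r ∈ Icc (0 : ℝ) 1 := ⟨hr.1.le, hr.2⟩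
    rw [norm_mul, Real.norm_eq_abs (_ - _ - _)]
    calc ‖w r‖ * _ ≤ M * (ε / (M + 1) * ‖p' - p‖) :=
          mul_le_mul (hM r hr') (key r hr') (abs_nonneg _) hM0
      _ = (M / (M + 1)) * (ε * ‖p' - p‖) := by ring
      _ ≤ 1 * (ε * ‖p' - p‖) := by
          refine mul_le_mul_of_nonneg_right ?_ (by positivity)
          rw [div_le_one (by positivity)]; linarith
      _ = _ := one_mul _
  have := intervalIntegral.norm_integral_le_of_norm_le_const hb
  simpa using this

/-- **smoothness of parametric integrals** -/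
theorem contDiffOn_PI (hK : Convex ℝ K) (hKu : UniqueDiffOn ℝ K) (h : Fam K α β γ δ) :
    ∀ (n : ℕ) (w : ℝ → ℝ) (G : ℝ × ℝ → ℝ), ContinuousOn w (Icc 0 1) →
      ContDiffOn ℝ (⊤ : ℕ∞) G K → ContDiffOn ℝ n (PI α β γ δ w G) K := by
  have hd : ∀ (w : ℝ → ℝ) (G : ℝ × ℝ → ℝ), ContinuousOn w (Icc 0 1) →
      ContDiffOn ℝ (⊤ : ℕ∞) G K → ∀ p ∈ K, HasFDerivWithinAt (PI α β γ δ w G)
      (PI α β γ δ (fun r => β r * w r) (fun q => fderivWithin ℝ G K q (1, 0)) p •
        ContinuousLinearMap.fst ℝ ℝ ℝ +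
        PI α β γ δ (fun r => δ r * w r) (fun q => fderivWithin ℝ G K q (0, 1)) p •
          ContinuousLinearMap.snd ℝ ℝ ℝ) K p := by
    intro w G hw hG p hp
    refine hasFDerivWithinAt_PI hK h hw (G' := fderivWithin ℝ G K) (fun q hq => ?_) ?_ hp
    · exact (hG.differentiableOn (by simp) q hq).hasFDerivWithinAt
    · exact hG.continuousOn_fderivWithin hKu (by simp)
  intro n
  induction n with
  | zero =>
    intro w G hw hG
    rw [Nat.cast_zero, contDiffOn_zero]
    exact fun p hp => (hd w G hw hG p hp).continuousWithinAt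
  | succ n ih =>
    intro w G hw hG
    rw [Nat.cast_succ, contDiffOn_succ_iff_fderivWithin hKu]
    refine ⟨fun p hp => (hd w G hw hG p hp).differentiableWithinAt, by simp, ?_⟩
    have hG' : ContDiffOn ℝ (⊤ : ℕ∞) (fderivWithin ℝ G K) K :=
      hG.fderivWithin hKu (by simp)
    have h1 := ih (fun r => β r * w r) (fun q => fderivWithin ℝ G K q (1, 0)) (h.hβ.mul hw)
      (hG'.clm_apply contDiffOn_const)
    have h2 := ih (fun r => δ r * w r) (fun q => fderivWithin ℝ G K q (0, 1)) (h.hδ.mul hw)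
      (hG'.clm_apply contDiffOn_const)
    have h3 : ContDiffOn ℝ n (fun p => PI α β γ δ (fun r => β r * w r)
        (fun q => fderivWithin ℝ G K q (1, 0)) p • ContinuousLinearMap.fst ℝ ℝ ℝ +
        PI α β γ δ (fun r => δ r * w r) (fun q => fderivWithin ℝ G K q (0, 1)) p •
          ContinuousLinearMap.snd ℝ ℝ ℝ) K :=
      (h1.smul contDiffOn_const).add (h2.smul contDiffOn_const)
    exact h3.congr fun p hp => (hd w G hw hG p hp).fderivWithin (hKu p hp)

end Crest.Agent.R213.ParInt
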