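import Crest.Agent.R213.Defs
import Crest.Agent.R213.PI310

/-!
# Row 213, J310: integrals depending on parameters, Hadamard division, `Kint`

Everything for functions `u t x` on `s × [0,L]` (`s` convex, `UniqueDiffOn`; in most lemmas open).
Namespace `Crest.Agent.R213.J310`.
-/

set_option autoImplicit false

open Set MeasureTheory Filter Topology

noncomputable section

namespace Crest.Agent.R213.J310

open ParInt

variable {s : Set ℝ} {L : ℝ} {u v F : ℝ → ℝ → ℝ}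

theorem convex_prod (hs : Convex ℝ s) : Convex ℝ (s ×ˢ Icc 0 L) := hs.prod (convex_Icc 0 L)

theorem uniq_prod (hs : UniqueDiffOn ℝ s) (hL : 0 < L) : UniqueDiffOn ℝ (s ×ˢ Icc 0 L) :=
  hs.prod (uniqueDiffOn_Icc hL)

/-! ### slices and partial derivatives -/

theorem sm_continuousOn (hu : Sm s L u) :
    ContinuousOn (fun p : ℝ × ℝ => u p.1 p.2) (s ×ˢ Icc 0 L) := hu.continuousOn

theorem sm_slice_x {t : ℝ} (hu : Sm s L u) (ht : t ∈ s) :
    ContDiffOn ℝ (⊤ : ℕ∞) (fun x => u t x) (Icc 0 L) :=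
  ContDiffOn.comp (g := fun p : ℝ × ℝ => u p.1 p.2) (f := fun x => (t, x)) (t := s ×ˢ Icc 0 L) hu
    (contDiff_const.prodMk contDiff_id).contDiffOn (fun _ hx => ⟨ht, hx⟩)

theorem sm_slice_t {x : ℝ} (hu : Sm s L u) (hx : x ∈ Icc 0 L) :
    ContDiffOn ℝ (⊤ : ℕ∞) (fun t => u t x) s :=
  ContDiffOn.comp (g := fun p : ℝ × ℝ => u p.1 p.2) (f := fun t => (t, x)) (t := s ×ˢ Icc 0 L) hu
    (contDiff_id.prodMk contDiff_const).contDiffOn (fun _ ht => ⟨ht, hx⟩)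

theorem sm_cont_x {t : ℝ} (hu : Sm s L u) (ht : t ∈ s) : ContinuousOn (u t) (Icc 0 L) :=
  (sm_slice_x hu ht).continuousOn

theorem hasFDeriv (hu : Sm s L u) {p : ℝ × ℝ} (hp : p ∈ s ×ˢ Icc 0 L) :
    HasFDerivWithinAt (fun p : ℝ × ℝ => u p.1 p.2)
      (fderivWithin ℝ (fun p : ℝ × ℝ => u p.1 p.2) (s ×ˢ Icc 0 L) p) (s ×ˢ Icc 0 L) p :=
  (hu.differentiableOn (by simp) p hp).hasFDerivWithinAt

theorem hasDeriv_x' (hu : Sm s L u) {t x : ℝ} (ht : t ∈ s) (hx : x ∈ Icc 0 L) :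
    HasDerivWithinAt (u t)
      (fderivWithin ℝ (fun p : ℝ × ℝ => u p.1 p.2) (s ×ˢ Icc 0 L) (t, x) (0, 1)) (Icc 0 L) x := by
  have h1 := hasFDeriv hu (p := (t, x)) ⟨ht, hx⟩
  have h2 : HasDerivWithinAt (fun y : ℝ => ((t, y) : ℝ × ℝ)) (0, 1) (Icc 0 L) x :=
    (hasDerivWithinAt_const _ _ _).prodMk (hasDerivWithinAt_id _ _)
  exact h1.comp_hasDerivWithinAt (t := s ×ˢ Icc 0 L) x h2 (fun y hy => ⟨ht, hy⟩)

theorem hasDeriv_t' (hu : Sm s L u) {t x : ℝ} (ht : t ∈ s) (hx : x ∈ Icc 0 L) :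
    HasDerivWithinAt (fun r => u r x)
      (fderivWithin ℝ (fun p : ℝ × ℝ => u p.1 p.2) (s ×ˢ Icc 0 L) (t, x) (1, 0)) s t := by
  have h1 := hasFDeriv hu (p := (t, x)) ⟨ht, hx⟩
  have h2 : HasDerivWithinAt (fun y : ℝ => ((y, x) : ℝ × ℝ)) (1, 0) s t :=
    (hasDerivWithinAt_id _ _).prodMk (hasDerivWithinAt_const _ _ _)
  exact h1.comp_hasDerivWithinAt (t := s ×ˢ Icc 0 L) t h2 (fun y hy => ⟨hy, hx⟩)

theorem dx_eq (hL : 0 < L) (hu : Sm s L u) {t x : ℝ} (ht : t ∈ s) (hx : x ∈ Icc 0 L) :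
    dx L u t x =
      fderivWithin ℝ (fun p : ℝ × ℝ => u p.1 p.2) (s ×ˢ Icc 0 L) (t, x) (0, 1) :=
  (hasDeriv_x' hu ht hx).derivWithin (uniqueDiffOn_Icc hL x hx)

theorem dt_eq (hs : IsOpen s) (hu : Sm s L u) {t x : ℝ} (ht : t ∈ s) (hx : x ∈ Icc 0 L) :
    dt u t x =
      fderivWithin ℝ (fun p : ℝ × ℝ => u p.1 p.2) (s ×ˢ Icc 0 L) (t, x) (1, 0) :=
  ((hasDeriv_t' hu ht hx).hasDerivAt (hs.mem_nhds ht)).deriv

theorem hasDeriv_x (hL : 0 < L) (hu : Sm s L u) {t x : ℝ} (ht : t ∈ s) (hx : x ∈ Icc 0 L) :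
    HasDerivWithinAt (u t) (dx L u t x) (Icc 0 L) x := by
  rw [dx_eq hL hu ht hx]; exact hasDeriv_x' hu ht hx

theorem hasDeriv_t (hs : IsOpen s) (hu : Sm s L u) {t x : ℝ} (ht : t ∈ s) (hx : x ∈ Icc 0 L) :
    HasDerivAt (fun r => u r x) (dt u t x) t := by
  rw [dt_eq hs hu ht hx]; exact (hasDeriv_t' hu ht hx).hasDerivAt (hs.mem_nhds ht)

theorem sm_dx (hs : UniqueDiffOn ℝ s) (hL : 0 < L) (hu : Sm s L u) : Sm s L (dx L u) := by
  have h1 : ContDiffOn ℝ (⊤ : ℕ∞)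
      (fderivWithin ℝ (fun p : ℝ × ℝ => u p.1 p.2) (s ×ˢ Icc 0 L)) (s ×ˢ Icc 0 L) :=
    hu.fderivWithin (uniq_prod hs hL) (by simp)
  exact (h1.clm_apply contDiffOn_const).congr fun p hp => dx_eq hL hu hp.1 hp.2

theorem sm_dt (hs : IsOpen s) (hL : 0 < L) (hu : Sm s L u) : Sm s L (dt u) := by
  have h1 : ContDiffOn ℝ (⊤ : ℕ∞)
      (fderivWithin ℝ (fun p : ℝ × ℝ => u p.1 p.2) (s ×ˢ Icc 0 L)) (s ×ˢ Icc 0 L) :=
    hu.fderivWithin (uniq_prod hs.uniqueDiffOn hL) (by simp)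
  exact (h1.clm_apply contDiffOn_const).congr fun p hp => dt_eq hs hu hp.1 hp.2

/-- to identify derivatives -/
theorem dx_of_hasDeriv (hL : 0 < L) {t x y : ℝ} (hx : x ∈ Icc 0 L)
    (h : HasDerivWithinAt (u t) y (Icc 0 L) x) : dx L u t x = y :=
  h.derivWithin (uniqueDiffOn_Icc hL x hx)

/-! ### the parametric integral in `x` -/

theorem fam_x : Fam (s ×ˢ Icc 0 L) (fun _ => 0) (fun _ => 1) (fun _ => 0) (fun r => r) where
  hα := continuousOn_const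
  hβ := continuousOn_const
  hγ := continuousOn_const
  hδ := continuousOn_id
  β1 := by intro r _; simp
  δ1 := by intro r hr; rw [abs_of_nonneg hr.1]; exact hr.2
  maps := by
    rintro r hr ⟨t, x⟩ ⟨ht, hx⟩
    refine ⟨by simpa using ht, ?_, ?_⟩
    · simp only [zero_add]; exact mul_nonneg hr.1 hx.1
    · simp only [zero_add]
      calc r * x ≤ 1 * x := mul_le_mul_of_nonneg_right hr.2 hx.1
        _ ≤ L := by rw [one_mul]; exact hx.2

/-- `∫₀¹ w(r) u(t, r x) dr` -/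
def Ix (w : ℝ → ℝ) (u : ℝ → ℝ → ℝ) : ℝ → ℝ → ℝ := fun t x => ∫ r in (0 : ℝ)..1, w r * u t (r * x)

theorem Ix_eq_PI (w : ℝ → ℝ) (u : ℝ → ℝ → ℝ) (p : ℝ × ℝ) :
    Ix w u p.1 p.2 = PI (fun _ => 0) (fun _ => 1) (fun _ => 0) (fun r => r) w
      (fun p => u p.1 p.2) p := by
  simp [Ix, PI]

theorem sm_Ix (hs : Convex ℝ s) (hs' : UniqueDiffOn ℝ s) (hL : 0 < L) {w : ℝ → ℝ}
    (hw : ContinuousOn w (Icc 0 1)) (hu : Sm s L u) : Sm s L (Ix w u) := by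
  have h := contDiffOn_PI (convex_prod (L := L) hs) (uniq_prod hs' hL) fam_x
  have h1 : ContDiffOn ℝ (⊤ : ℕ∞) (PI (fun _ => 0) (fun _ => 1) (fun _ => 0) (fun r => r) w
      (fun p : ℝ × ℝ => u p.1 p.2)) (s ×ˢ Icc 0 L) :=
    contDiffOn_infty.2 fun n => h n w _ hw hu
  exact h1.congr fun p _ => Ix_eq_PI w u p

theorem hasFDeriv_Ix (hs : Convex ℝ s) (hs' : UniqueDiffOn ℝ s) (hL : 0 < L) {w : ℝ → ℝ}
    (hw : ContinuousOn w (Icc 0 1)) (hu : Sm s L u) {p : ℝ × ℝ} (hp : p ∈ s ×ˢ Icc 0 L) :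
    HasFDerivWithinAt (fun p : ℝ × ℝ => Ix w u p.1 p.2)
      (Ix w (fun t x => fderivWithin ℝ (fun p : ℝ × ℝ => u p.1 p.2) (s ×ˢ Icc 0 L) (t, x) (1, 0))
          p.1 p.2 • ContinuousLinearMap.fst ℝ ℝ ℝ +
        Ix (fun r => r * w r) (dx L u) p.1 p.2 • ContinuousLinearMap.snd ℝ ℝ ℝ)
      (s ×ˢ Icc 0 L) p := by
  have h := hasFDerivWithinAt_PI (convex_prod (L := L) hs) fam_x hw
    (G' := fderivWithin ℝ (fun p : ℝ × ℝ => u p.1 p.2) (s ×ˢ Icc 0 L))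
    (fun q hq => hasFDeriv hu hq)
    (hu.continuousOn_fderivWithin (uniq_prod hs' hL) (by simp)) hp
  have e : (fun p : ℝ × ℝ => Ix w u p.1 p.2) =
      PI (fun _ => 0) (fun _ => 1) (fun _ => 0) (fun r => r) w (fun p : ℝ × ℝ => u p.1 p.2) := by
    funext p; exact Ix_eq_PI w u p
  rw [e]
  convert h using 3
  · simp [Ix, PI]
  · unfold Ix PI
    refine intervalIntegral.integral_congr fun r hr => ?_
    rw [uIcc_of_le zero_le_one] at hr
    have := fam_x.maps r hr p hp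
    simp only [zero_add, one_mul] at this ⊢
    rw [dx_eq hL hu this.1 this.2]

theorem dx_Ix (hs : Convex ℝ s) (hs' : UniqueDiffOn ℝ s) (hL : 0 < L) {w : ℝ → ℝ}
    (hw : ContinuousOn w (Icc 0 1)) (hu : Sm s L u) {t x : ℝ} (ht : t ∈ s) (hx : x ∈ Icc 0 L) :
    dx L (Ix w u) t x = Ix (fun r => r * w r) (dx L u) t x := by
  have h := hasFDeriv_Ix hs hs' hL hw hu (p := (t, x)) ⟨ht, hx⟩
  rw [dx_eq hL (sm_Ix hs hs' hL hw hu) ht hx,
    h.fderivWithin (uniq_prod hs' hL (t, x) ⟨ht, hx⟩)]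
  simp

theorem dt_Ix (hs : Convex ℝ s) (hso : IsOpen s) (hL : 0 < L) {w : ℝ → ℝ}
    (hw : ContinuousOn w (Icc 0 1)) (hu : Sm s L u) {t x : ℝ} (ht : t ∈ s) (hx : x ∈ Icc 0 L) :
    dt (Ix w u) t x = Ix w (dt u) t x := by
  have h := hasFDeriv_Ix hs hso.uniqueDiffOn hL hw hu (p := (t, x)) ⟨ht, hx⟩
  rw [dt_eq hso (sm_Ix hs hso.uniqueDiffOn hL hw hu) ht hx,
    h.fderivWithin (uniq_prod hso.uniqueDiffOn hL (t, x) ⟨ht, hx⟩)]
  simp only [add_apply, smul_apply,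
    ContinuousLinearMap.coe_fst', ContinuousLinearMap.coe_snd', smul_eq_mul, mul_one, mul_zero,
    add_zero]
  unfold Ix
  refine intervalIntegral.integral_congr fun r hr => ?_
  rw [uIcc_of_le zero_le_one] at hr
  have := (fam_x (s := s) (L := L)).maps r hr (t, x) ⟨ht, hx⟩
  simp only [zero_add, one_mul] at this ⊢
  rw [dt_eq hso hu this.1 this.2]

/-! ### primitives in `x` -/

/-- `∫₀ˣ f = x ∫₀¹ f(r x) dr` -/
theorem integral_scale (f : ℝ → ℝ) (x : ℝ) :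
    ∫ ξ in (0 : ℝ)..x, f ξ = x * ∫ r in (0 : ℝ)..1, f (r * x) := by
  have := intervalIntegral.mul_integral_comp_mul_right (f := f) (a := 0) (b := 1) x
  rw [this]; simp

/-- fundamental theorem on `[0,L]`, one-sided at the ends -/
theorem hasDerivWithin_integral {f : ℝ → ℝ} (hf : ContinuousOn f (Icc 0 L)) {x : ℝ}
    (hx : x ∈ Icc 0 L) :
    HasDerivWithinAt (fun y => ∫ ξ in (0 : ℝ)..y, f ξ) (f x) (Icc 0 L) x := by
  have : Fact (x ∈ Icc 0 L) := ⟨hx⟩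
  refine intervalIntegral.integral_hasDerivWithinAt_right ?_ ?_ (hf x hx)
  · apply ContinuousOn.intervalIntegrable
    rw [uIcc_of_le hx.1]
    exact hf.mono (Icc_subset_Icc_right hx.2)
  · exact hf.stronglyMeasurableAtFilter_nhdsWithin measurableSet_Icc x

/-- primitive in `x` -/
def Px (u : ℝ → ℝ → ℝ) : ℝ → ℝ → ℝ := fun t x => ∫ ξ in (0 : ℝ)..x, u t ξ

theorem Px_eq (u : ℝ → ℝ → ℝ) (t x : ℝ) : Px u t x = x * Ix (fun _ => 1) u t x := by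
  rw [Px, integral_scale]; simp [Ix]

theorem sm_Px (hs : Convex ℝ s) (hs' : UniqueDiffOn ℝ s) (hL : 0 < L) (hu : Sm s L u) :
    Sm s L (Px u) := by
  have h1 : Sm s L (Ix (fun _ => 1) u) := sm_Ix hs hs' hL continuousOn_const hu
  have h2 : ContDiffOn ℝ (⊤ : ℕ∞) (fun p : ℝ × ℝ => p.2 * Ix (fun _ => 1) u p.1 p.2)
      (s ×ˢ Icc 0 L) := contDiff_snd.contDiffOn.mul h1
  exact h2.congr fun p _ => Px_eq u p.1 p.2

theorem hasDeriv_Px (hu : Sm s L u) {t x : ℝ} (ht : t ∈ s) (hx : x ∈ Icc 0 L) :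
    HasDerivWithinAt (Px u t) (u t x) (Icc 0 L) x :=
  hasDerivWithin_integral (sm_cont_x hu ht) hx

theorem dx_Px (hL : 0 < L) (hu : Sm s L u) {t x : ℝ} (ht : t ∈ s) (hx : x ∈ Icc 0 L) :
    dx L (Px u) t x = u t x :=
  dx_of_hasDeriv hL hx (hasDeriv_Px hu ht hx)

theorem dt_Px (hs : Convex ℝ s) (hso : IsOpen s) (hL : 0 < L) (hu : Sm s L u) {t x : ℝ}
    (ht : t ∈ s) (hx : x ∈ Icc 0 L) : dt (Px u) t x = Px (dt u) t x := by
  have e : (fun r => Px u r x) = fun r => x * Ix (fun _ => 1) u r x := by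
    funext r; exact Px_eq u r x
  rw [Px_eq (dt u), ← dt_Ix hs hso hL continuousOn_const hu ht hx, dt, e]
  exact ((hasDeriv_t hso (sm_Ix hs hso.uniqueDiffOn hL continuousOn_const hu) ht hx).const_mul
    x).deriv

/-! ### Hadamard division -/

/-- `u t 0 = 0`: `u t x = x * v t x` with `v` smooth, `v = ∫₀¹ u_x(t, r x) dr`. -/
theorem hadamard_zero (hs : Convex ℝ s) (hs' : UniqueDiffOn ℝ s) (hL : 0 < L) (hu : Sm s L u)
    (h0 : ∀ t ∈ s, u t 0 = 0) :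
    Sm s L (Ix (fun _ => 1) (dx L u)) ∧
      ∀ t ∈ s, ∀ x ∈ Icc 0 L, u t x = x * Ix (fun _ => 1) (dx L u) t x := by
  refine ⟨sm_Ix hs hs' hL continuousOn_const (sm_dx hs' hL hu), fun t ht x hx => ?_⟩
  have hc : ContinuousOn (dx L u t) (Icc 0 L) := sm_cont_x (sm_dx hs' hL hu) ht
  have h1 : ∫ ξ in (0 : ℝ)..x, dx L u t ξ = u t x - u t 0 := by
    refine intervalIntegral.integral_eq_sub_of_hasDeriv_right_of_le hx.1
      ((sm_cont_x hu ht).mono (Icc_subset_Icc_right hx.2)) (fun y hy => ?_) ?_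
    · have hy' : y ∈ Icc 0 L := ⟨hy.1.le, hy.2.le.trans hx.2⟩
      refine (hasDeriv_x hL hu ht hy').mono_of_mem_nhdsWithin ?_
      refine mem_nhdsWithin_of_mem_nhds (Icc_mem_nhds hy.1 (hy.2.trans_le hx.2))
    · apply ContinuousOn.intervalIntegrable
      rw [uIcc_of_le hx.1]
      exact hc.mono (Icc_subset_Icc_right hx.2)
  rw [h0 t ht, sub_zero] at h1
  rw [← h1, integral_scale]
  simp [Ix]

theorem Ix_one_dx_zero (u : ℝ → ℝ → ℝ) (t : ℝ) :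
    Ix (fun _ => 1) (dx L u) t 0 = dx L u t 0 := by
  simp [Ix]

/-- existence form of `hadamard_zero` -/
theorem exists_div_zero (hs : Convex ℝ s) (hs' : UniqueDiffOn ℝ s) (hL : 0 < L) (hu : Sm s L u)
    (h0 : ∀ t ∈ s, u t 0 = 0) :
    ∃ v : ℝ → ℝ → ℝ, Sm s L v ∧ (∀ t ∈ s, ∀ x ∈ Icc 0 L, u t x = x * v t x) ∧
      ∀ t ∈ s, v t 0 = dx L u t 0 :=
  ⟨_, (hadamard_zero hs hs' hL hu h0).1, (hadamard_zero hs hs' hL hu h0).2,
    fun t _ => Ix_one_dx_zero u t⟩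

/-- reflection `x ↦ L - x` -/
theorem sm_refl (hu : Sm s L u) : Sm s L (fun t x => u t (L - x)) := by
  refine ContDiffOn.comp (g := fun p : ℝ × ℝ => u p.1 p.2) (f := fun p : ℝ × ℝ => (p.1, L - p.2))
    (t := s ×ˢ Icc 0 L) hu
    (contDiff_fst.prodMk (contDiff_const.sub contDiff_snd)).contDiffOn ?_
  rintro p ⟨h1, h2⟩
  exact ⟨h1, by simp only; linarith [h2.2], by simp only; linarith [h2.1]⟩

/-- division by `L - x` -/
theorem exists_div_L (hs : Convex ℝ s) (hs' : UniqueDiffOn ℝ s) (hL : 0 < L) (hu : Sm s L u)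
    (h0 : ∀ t ∈ s, u t L = 0) :
    ∃ v : ℝ → ℝ → ℝ, Sm s L v ∧ ∀ t ∈ s, ∀ x ∈ Icc 0 L, u t x = (L - x) * v t x := by
  obtain ⟨v, hv, h1, -⟩ := exists_div_zero hs hs' hL (sm_refl hu) (by simpa using h0)
  refine ⟨fun t x => v t (L - x), sm_refl hv, fun t ht x hx => ?_⟩
  have := h1 t ht (L - x) ⟨by linarith [hx.2], by linarith [hx.1]⟩
  simpa using this

/-- division by `x (L - x)` -/
theorem exists_div_both (hs : Convex ℝ s) (hs' : UniqueDiffOn ℝ s) (hL : 0 < L) (hu : Sm s L u)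
    (h0 : ∀ t ∈ s, u t 0 = 0) (h1 : ∀ t ∈ s, u t L = 0) :
    ∃ v : ℝ → ℝ → ℝ, Sm s L v ∧ ∀ t ∈ s, ∀ x ∈ Icc 0 L, u t x = x * (L - x) * v t x := by
  obtain ⟨v, hv, h2, -⟩ := exists_div_zero hs hs' hL hu h0
  have h3 : ∀ t ∈ s, v t L = 0 := by
    intro t ht
    have := h2 t ht L ⟨hL.le, le_rfl⟩
    rw [h1 t ht] at this
    rcases mul_eq_zero.1 this.symm with h | h
    · exact absurd h hL.ne'
    · exact h
  obtain ⟨v', hv', h4⟩ := exists_div_L hs hs' hL hv h3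
  refine ⟨v', hv', fun t ht x hx => ?_⟩
  rw [h2 t ht x hx, h4 t ht x hx]; ring

/-! ### `Kint` -/

/-- `∫₀ˣ ξ⁹ F(ξ) dξ`, the derivative of `Kint F` -/
def Kint1 (F : ℝ → ℝ) (x : ℝ) : ℝ := ∫ ξ in (0 : ℝ)..x, ξ ^ 9 * F ξ

theorem Kint_scale (F : ℝ → ℝ) (x : ℝ) :
    Kint F x = x ^ 11 * ∫ r in (0 : ℝ)..1, (1 - r) * r ^ 9 * F (r * x) := by
  rw [Kint, integral_scale, ← intervalIntegral.integral_const_mul,
    ← intervalIntegral.integral_const_mul]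
  refine intervalIntegral.integral_congr fun r _ => ?_
  ring

theorem Kint1_scale (F : ℝ → ℝ) (x : ℝ) :
    Kint1 F x = x ^ 10 * ∫ r in (0 : ℝ)..1, r ^ 9 * F (r * x) := by
  rw [Kint1, integral_scale, ← intervalIntegral.integral_const_mul,
    ← intervalIntegral.integral_const_mul]
  refine intervalIntegral.integral_congr fun r _ => ?_
  ring

@[simp] theorem Kint_zero (F : ℝ → ℝ) : Kint F 0 = 0 := by simp [Kint]
@[simp] theorem Kint1_zero (F : ℝ → ℝ) : Kint1 F 0 = 0 := by simp [Kint1]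

theorem Kint_congr {F F' : ℝ → ℝ} {x : ℝ} (hx : x ∈ Icc 0 L) (h : ∀ y ∈ Icc 0 L, F y = F' y) :
    Kint F x = Kint F' x := by
  refine intervalIntegral.integral_congr fun r hr => ?_
  rw [uIcc_of_le hx.1] at hr
  rw [h r ⟨hr.1, hr.2.trans hx.2⟩]

theorem Kint1_congr {F F' : ℝ → ℝ} {x : ℝ} (hx : x ∈ Icc 0 L) (h : ∀ y ∈ Icc 0 L, F y = F' y) :
    Kint1 F x = Kint1 F' x := by
  refine intervalIntegral.integral_congr fun r hr => ?_
  rw [uIcc_of_le hx.1] at hr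
  rw [h r ⟨hr.1, hr.2.trans hx.2⟩]

theorem Kint_eq_sub {F : ℝ → ℝ} (hF : ContinuousOn F (Icc 0 L)) {x : ℝ} (hx : x ∈ Icc 0 L) :
    Kint F x = x * Kint1 F x - ∫ ξ in (0 : ℝ)..x, ξ * (ξ ^ 9 * F ξ) := by
  have hsub : Icc 0 x ⊆ Icc 0 L := Icc_subset_Icc_right hx.2
  have h1 : IntervalIntegrable (fun ξ => ξ ^ 9 * F ξ) volume 0 x := by
    apply ContinuousOn.intervalIntegrable
    rw [uIcc_of_le hx.1]
    exact ((continuous_pow 9).continuousOn).mul (hF.mono hsub)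
  have h2 : IntervalIntegrable (fun ξ => ξ * (ξ ^ 9 * F ξ)) volume 0 x := by
    apply ContinuousOn.intervalIntegrable
    rw [uIcc_of_le hx.1]
    exact continuousOn_id.mul (((continuous_pow 9).continuousOn).mul (hF.mono hsub))
  rw [Kint, Kint1, ← intervalIntegral.integral_const_mul,
    ← intervalIntegral.integral_sub (h1.const_mul x) h2]
  refine intervalIntegral.integral_congr fun r _ => ?_
  ring

theorem hasDeriv_Kint1 {F : ℝ → ℝ} (hF : ContinuousOn F (Icc 0 L)) {x : ℝ} (hx : x ∈ Icc 0 L) :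
    HasDerivWithinAt (Kint1 F) (x ^ 9 * F x) (Icc 0 L) x :=
  hasDerivWithin_integral (f := fun ξ => ξ ^ 9 * F ξ) ((continuous_pow 9).continuousOn.mul hF) hx

theorem hasDeriv_Kint {F : ℝ → ℝ} (hF : ContinuousOn F (Icc 0 L)) {x : ℝ} (hx : x ∈ Icc 0 L) :
    HasDerivWithinAt (Kint F) (Kint1 F x) (Icc 0 L) x := by
  have h1 : HasDerivWithinAt (fun x => x * Kint1 F x - ∫ ξ in (0 : ℝ)..x, ξ * (ξ ^ 9 * F ξ))
      (1 * Kint1 F x + x * (x ^ 9 * F x) - x * (x ^ 9 * F x)) (Icc 0 L) x := by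
    refine ((hasDerivWithinAt_id x _).mul (hasDeriv_Kint1 hF hx)).sub ?_
    exact hasDerivWithin_integral (f := fun ξ => ξ * (ξ ^ 9 * F ξ))
      (continuousOn_id.mul ((continuous_pow 9).continuousOn.mul hF)) hx
  have h2 : HasDerivWithinAt (Kint F) (1 * Kint1 F x + x * (x ^ 9 * F x) - x * (x ^ 9 * F x))
      (Icc 0 L) x := h1.congr (fun y hy => Kint_eq_sub hF hy) (Kint_eq_sub hF hx)
  rwa [one_mul, _root_.add_sub_cancel_right] at h2

theorem sm_Kint1 (hs : Convex ℝ s) (hs' : UniqueDiffOn ℝ s) (hL : 0 < L) (hu : Sm s L u) :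
    Sm s L (fun t x => Kint1 (u t) x) := by
  have h1 : Sm s L (Ix (fun r => r ^ 9) u) :=
    sm_Ix hs hs' hL (continuous_pow 9).continuousOn hu
  have h2 : ContDiffOn ℝ (⊤ : ℕ∞) (fun p : ℝ × ℝ => p.2 ^ 10 * Ix (fun r => r ^ 9) u p.1 p.2)
      (s ×ˢ Icc 0 L) := (contDiff_snd.pow 10).contDiffOn.mul h1
  exact h2.congr fun p _ => Kint1_scale (u p.1) p.2

theorem Kint_eq_Ix (u : ℝ → ℝ → ℝ) (t x : ℝ) :
    Kint (u t) x = x ^ 11 * Ix (fun r => (1 - r) * r ^ 9) u t x := Kint_scale (u t) x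

theorem cont_wK : ContinuousOn (fun r : ℝ => (1 - r) * r ^ 9) (Icc 0 1) := by fun_prop

theorem sm_Kint (hs : Convex ℝ s) (hs' : UniqueDiffOn ℝ s) (hL : 0 < L) (hu : Sm s L u) :
    Sm s L (fun t x => Kint (u t) x) := by
  have h1 : Sm s L (Ix (fun r => (1 - r) * r ^ 9) u) := sm_Ix hs hs' hL cont_wK hu
  have h2 : ContDiffOn ℝ (⊤ : ℕ∞)
      (fun p : ℝ × ℝ => p.2 ^ 11 * Ix (fun r => (1 - r) * r ^ 9) u p.1 p.2)
      (s ×ˢ Icc 0 L) := (contDiff_snd.pow 11).contDiffOn.mul h1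
  exact h2.congr fun p _ => Kint_eq_Ix u p.1 p.2

/-- `Kint (u t) = x¹¹ v`, `v` smooth -/
theorem exists_Kint_eq (hs : Convex ℝ s) (hs' : UniqueDiffOn ℝ s) (hL : 0 < L) (hu : Sm s L u) :
    ∃ v : ℝ → ℝ → ℝ, Sm s L v ∧ ∀ t x, Kint (u t) x = x ^ 11 * v t x :=
  ⟨_, sm_Ix hs hs' hL cont_wK hu, Kint_eq_Ix u⟩

theorem dx_Kint (hL : 0 < L) (hu : Sm s L u) {t x : ℝ} (ht : t ∈ s) (hx : x ∈ Icc 0 L) :
    dx L (fun t x => Kint (u t) x) t x = Kint1 (u t) x :=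
  dx_of_hasDeriv hL hx (hasDeriv_Kint (sm_cont_x hu ht) hx)

theorem dx_Kint1 (hL : 0 < L) (hu : Sm s L u) {t x : ℝ} (ht : t ∈ s) (hx : x ∈ Icc 0 L) :
    dx L (fun t x => Kint1 (u t) x) t x = x ^ 9 * u t x :=
  dx_of_hasDeriv hL hx (hasDeriv_Kint1 (sm_cont_x hu ht) hx)

theorem dx_dx_Kint (hL : 0 < L) (hu : Sm s L u) {t x : ℝ} (ht : t ∈ s) (hx : x ∈ Icc 0 L) :
    dx L (dx L (fun t x => Kint (u t) x)) t x = x ^ 9 * u t x := by
  rw [← dx_Kint1 hL hu ht hx]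
  exact derivWithin_congr (fun y hy => dx_Kint hL hu ht hy) (dx_Kint hL hu ht hx)

theorem dt_Kint (hs : Convex ℝ s) (hso : IsOpen s) (hL : 0 < L) (hu : Sm s L u) {t x : ℝ}
    (ht : t ∈ s) (hx : x ∈ Icc 0 L) :
    dt (fun t x => Kint (u t) x) t x = Kint (dt u t) x := by
  have e : (fun r => Kint (u r) x) = fun r => x ^ 11 * Ix (fun r => (1 - r) * r ^ 9) u r x := by
    funext r; exact Kint_eq_Ix u r x
  rw [Kint_eq_Ix (dt u), ← dt_Ix hs hso hL cont_wK hu ht hx, dt]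
  rw [e]
  exact ((hasDeriv_t hso (sm_Ix hs hso.uniqueDiffOn hL cont_wK hu) ht hx).const_mul _).deriv

/-- `Kint` is injective on continuous functions -/
theorem Kint_inj {F F' : ℝ → ℝ} (hL : 0 < L) (hF : ContinuousOn F (Icc 0 L))
    (hF' : ContinuousOn F' (Icc 0 L)) (h : ∀ x ∈ Icc 0 L, Kint F x = Kint F' x) :
    ∀ x ∈ Icc 0 L, F x = F' x := by
  have h1 : ∀ x ∈ Icc 0 L, Kint1 F x = Kint1 F' x := by
    intro x hx
    have e1 := (hasDeriv_Kint hF hx).derivWithin (uniqueDiffOn_Icc hL x hx)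
    have e2 := (hasDeriv_Kint hF' hx).derivWithin (uniqueDiffOn_Icc hL x hx)
    rw [← e1, ← e2]
    exact derivWithin_congr h (h x hx)
  have h2 : ∀ x ∈ Icc 0 L, x ^ 9 * F x = x ^ 9 * F' x := by
    intro x hx
    have e1 := (hasDeriv_Kint1 hF hx).derivWithin (uniqueDiffOn_Icc hL x hx)
    have e2 := (hasDeriv_Kint1 hF' hx).derivWithin (uniqueDiffOn_Icc hL x hx)
    rw [← e1, ← e2]
    exact derivWithin_congr h1 (h1 x hx)
  have h3 : ∀ x ∈ Ioc 0 L, F x = F' x := by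
    intro x hx
    exact mul_left_cancel₀ (pow_ne_zero 9 hx.1.ne') (h2 x (Ioc_subset_Icc_self hx))
  have h4 : EqOn F F' (closure (Ioc 0 L) ∩ Icc 0 L) := by
    intro x hx
    rcases eq_or_lt_of_le hx.2.1 with h0 | h0
    · subst h0
      have hne : (𝓝[Ioc 0 L] (0 : ℝ)).NeBot := by
        rw [nhdsWithin_Ioc_eq_nhdsGT hL]; infer_instance
      have t1 : Tendsto F (𝓝[Ioc 0 L] 0) (𝓝 (F 0)) :=
        (hF 0 hx.2).mono_left (nhdsWithin_mono _ Ioc_subset_Icc_self)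
      have t2 : Tendsto F' (𝓝[Ioc 0 L] 0) (𝓝 (F' 0)) :=
        (hF' 0 hx.2).mono_left (nhdsWithin_mono _ Ioc_subset_Icc_self)
      refine tendsto_nhds_unique (t1.congr' ?_) t2
      exact eventually_nhdsWithin_of_forall h3
    · exact h3 x ⟨h0, hx.2.2⟩
  intro x hx
  refine h4 ⟨?_, hx⟩
  rw [closure_Ioc hL.ne]
  exact hx

/-! ### primitives in `t` -/

theorem fam_t {t0 : ℝ} (hs : Convex ℝ s) (h0 : t0 ∈ s) :
    Fam (s ×ˢ Icc 0 L) (fun r => (1 - r) * t0) (fun r => r) (fun _ => 0) (fun _ => 1) where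
  hα := by fun_prop
  hβ := continuousOn_id
  hγ := continuousOn_const
  hδ := continuousOn_const
  β1 := by intro r hr; rw [abs_of_nonneg hr.1]; exact hr.2
  δ1 := by intro r _; simp
  maps := by
    rintro r hr ⟨t, x⟩ ⟨ht, hx⟩
    refine ⟨?_, by simpa using hx⟩
    have := hs h0 ht (sub_nonneg.2 hr.2) hr.1 (by ring)
    simpa using this

/-- `∫_{t0}^t u(τ, x) dτ` -/
def Pt (t0 : ℝ) (u : ℝ → ℝ → ℝ) : ℝ → ℝ → ℝ := fun t x => ∫ τ in t0..t, u τ x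

theorem Pt_eq_PI (t0 : ℝ) (u : ℝ → ℝ → ℝ) (p : ℝ × ℝ) :
    Pt t0 u p.1 p.2 = (p.1 - t0) * PI (fun r => (1 - r) * t0) (fun r => r) (fun _ => 0)
      (fun _ => 1) (fun _ => 1) (fun p => u p.1 p.2) p := by
  have := intervalIntegral.smul_integral_comp_mul_add (a := 0) (b := 1) (fun τ => u τ p.2)
    (p.1 - t0) t0
  rw [Pt, PI]
  simp only [mul_zero, zero_add, mul_one, sub_add_cancel, smul_eq_mul] at this
  rw [← this]
  congr 1
  refine intervalIntegral.integral_congr fun r _ => ?_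
  simp only [one_mul, zero_add]
  congr 1
  ring

theorem sm_Pt {t0 : ℝ} (hs : Convex ℝ s) (hs' : UniqueDiffOn ℝ s) (hL : 0 < L) (h0 : t0 ∈ s)
    (hu : Sm s L u) : Sm s L (Pt t0 u) := by
  have h := contDiffOn_PI (convex_prod (L := L) hs) (uniq_prod hs' hL) (fam_t hs h0)
  have h1 : ContDiffOn ℝ (⊤ : ℕ∞) (PI (fun r => (1 - r) * t0) (fun r => r) (fun _ => 0)
      (fun _ => 1) (fun _ => 1) (fun p : ℝ × ℝ => u p.1 p.2)) (s ×ˢ Icc 0 L) :=
    contDiffOn_infty.2 fun n => h n _ _ continuousOn_const hu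
  have h2 : ContDiffOn ℝ (⊤ : ℕ∞) (fun p : ℝ × ℝ => (p.1 - t0) * PI (fun r => (1 - r) * t0)
      (fun r => r) (fun _ => 0) (fun _ => 1) (fun _ => 1) (fun p : ℝ × ℝ => u p.1 p.2) p)
      (s ×ˢ Icc 0 L) := (contDiff_fst.sub contDiff_const).contDiffOn.mul h1
  exact h2.congr fun p _ => Pt_eq_PI t0 u p

theorem dt_Pt {t0 : ℝ} (hs : Convex ℝ s) (hso : IsOpen s) (h0 : t0 ∈ s)
    (hu : Sm s L u) {t x : ℝ} (ht : t ∈ s) (hx : x ∈ Icc 0 L) : dt (Pt t0 u) t x = u t x := by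
  have hc : ContinuousOn (fun τ => u τ x) s := (sm_slice_t hu hx).continuousOn
  have hsub : uIcc t0 t ⊆ s := by
    have := hs.ordConnected.uIcc_subset h0 ht
    exact this
  refine (intervalIntegral.integral_hasDerivAt_right ?_ ?_ ?_).deriv
  · exact (hc.mono hsub).intervalIntegrable
  · exact hc.stronglyMeasurableAtFilter hso t ht
  · exact hc.continuousAt (hso.mem_nhds ht)

theorem dx_Pt {t0 : ℝ} (hs : Convex ℝ s) (hs' : UniqueDiffOn ℝ s) (hL : 0 < L) (h0 : t0 ∈ s)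
    (hu : Sm s L u) {t x : ℝ} (ht : t ∈ s) (hx : x ∈ Icc 0 L) :
    dx L (Pt t0 u) t x = Pt t0 (dx L u) t x := by
  have h := hasFDerivWithinAt_PI (convex_prod (L := L) hs) (fam_t hs h0)
    (w := fun _ => 1) continuousOn_const
    (G' := fderivWithin ℝ (fun p : ℝ × ℝ => u p.1 p.2) (s ×ˢ Icc 0 L))
    (fun q hq => hasFDeriv hu hq)
    (hu.continuousOn_fderivWithin (uniq_prod hs' hL) (by simp)) (p := (t, x)) ⟨ht, hx⟩
  have h2 : HasDerivWithinAt (fun y : ℝ => ((t, y) : ℝ × ℝ)) (0, 1) (Icc 0 L) x :=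
    (hasDerivWithinAt_const _ _ _).prodMk (hasDerivWithinAt_id _ _)
  have h3 := (h.comp_hasDerivWithinAt (t := s ×ˢ Icc 0 L) x h2 (fun y hy => ⟨ht, hy⟩)).const_mul
    (t - t0)
  have h4 : HasDerivWithinAt (Pt t0 u t) _ (Icc 0 L) x :=
    h3.congr (fun y _ => Pt_eq_PI t0 u (t, y)) (Pt_eq_PI t0 u (t, x))
  rw [dx_of_hasDeriv hL hx h4, Pt_eq_PI t0 (dx L u) (t, x)]
  simp only [add_apply, smul_apply,
    ContinuousLinearMap.coe_fst', ContinuousLinearMap.coe_snd', smul_eq_mul, mul_one, mul_zero,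
    zero_add]
  congr 1
  unfold PI
  refine intervalIntegral.integral_congr fun r hr => ?_
  rw [uIcc_of_le zero_le_one] at hr
  have := (fam_t (s := s) (L := L) hs h0).maps r hr (t, x) ⟨ht, hx⟩
  simp only [zero_add, one_mul] at this ⊢
  rw [dx_eq hL hu this.1 this.2]

end Crest.Agent.R213.J310
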