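import Crest.Agent.R213.Defs

/-!
# Row 213: calculus library, part 2 (helper826)

Joint smoothness from mixed partial derivatives.
-/

set_option autoImplicit false

open Set MeasureTheory Filter Topology

noncomputable section

namespace Crest.Agent.R213.J1

section partials

variable {F : Type*} [NormedAddCommGroup F] [NormedSpace ℝ F]

/-- A function on a product of convex sets of reals with continuous partial derivatives is
differentiable (within). -/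
theorem hasFDerivWithinAt_of_partials {K1 K2 : Set ℝ} (h1 : Convex ℝ K1) (h2 : Convex ℝ K2)
    {f ft fx : ℝ → ℝ → F} {t x : ℝ} (ht : t ∈ K1) (hx : x ∈ K2)
    (ct : ContinuousWithinAt (fun p : ℝ × ℝ => ft p.1 p.2) (K1 ×ˢ K2) (t, x))
    (cx : ContinuousWithinAt (fun p : ℝ × ℝ => fx p.1 p.2) (K1 ×ˢ K2) (t, x))
    (dt : ∀ r ∈ K1, ∀ y ∈ K2, HasDerivWithinAt (fun q => f q y) (ft r y) K1 r)
    (dx : ∀ r ∈ K1, ∀ y ∈ K2, HasDerivWithinAt (fun z => f r z) (fx r y) K2 y) :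
    HasFDerivWithinAt (fun p : ℝ × ℝ => f p.1 p.2)
      ((ContinuousLinearMap.fst ℝ ℝ ℝ).smulRight (ft t x) +
        (ContinuousLinearMap.snd ℝ ℝ ℝ).smulRight (fx t x)) (K1 ×ˢ K2) (t, x) := by
  rw [hasFDerivWithinAt_iff_isLittleO, Asymptotics.isLittleO_iff]
  intro ε hε
  have e2 : 0 < ε / 2 := by positivity
  rw [Metric.continuousWithinAt_iff] at ct cx
  obtain ⟨δ1, hδ1, H1⟩ := ct (ε / 2) e2
  obtain ⟨δ2, hδ2, H2⟩ := cx (ε / 2) e2
  set δ := min δ1 δ2 with hδ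
  have hδ0 : 0 < δ := lt_min hδ1 hδ2
  have hev : ∀ᶠ p in 𝓝[K1 ×ˢ K2] ((t, x) : ℝ × ℝ), p ∈ K1 ×ˢ K2 ∧ dist p (t, x) < δ := by
    refine (eventually_mem_nhdsWithin).and ?_
    exact nhdsWithin_le_nhds (Metric.ball_mem_nhds _ hδ0)
  filter_upwards [hev] with p hp
  obtain ⟨⟨hp1, hp2⟩, hpd⟩ := hp
  obtain ⟨r, y⟩ := p
  simp only at hp1 hp2
  have hdr : |r - t| < δ := by
    have := (Prod.dist_eq (x := ((r, y) : ℝ × ℝ)) (y := (t, x)))
    rw [this] at hpd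
    exact lt_of_le_of_lt (le_max_left _ _) hpd
  have hdy : |y - x| < δ := by
    have := (Prod.dist_eq (x := ((r, y) : ℝ × ℝ)) (y := (t, x)))
    rw [this] at hpd
    exact lt_of_le_of_lt (le_max_right _ _) hpd
  -- first step: move in `x`
  have s1 : ‖(f r y - f r x) - (y - x) • fx t x‖ ≤ ε / 2 * |y - x| := by
    have hconv : Convex ℝ (K2 ∩ Metric.ball x δ) := h2.inter (convex_ball x δ)
    have hd : ∀ z ∈ K2 ∩ Metric.ball x δ,
        HasDerivWithinAt (fun z => f r z - z • fx t x) (fx r z - (1 : ℝ) • fx t x)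
          (K2 ∩ Metric.ball x δ) z := by
      intro z hz
      exact ((dx r hp1 z hz.1).mono inter_subset_left).sub
        ((hasDerivWithinAt_id z _).smul_const (fx t x))
    have hb : ∀ z ∈ K2 ∩ Metric.ball x δ, ‖fx r z - (1 : ℝ) • fx t x‖ ≤ ε / 2 := by
      intro z hz
      have hz2 : dist ((r, z) : ℝ × ℝ) (t, x) < δ2 := by
        rw [Prod.dist_eq, max_lt_iff]
        exact ⟨lt_of_lt_of_le hdr (min_le_right _ _),
          lt_of_lt_of_le (Metric.mem_ball.1 hz.2) (min_le_right _ _)⟩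
      have := H2 (mk_mem_prod hp1 hz.1) hz2
      rw [dist_eq_norm] at this
      rw [one_smul]
      exact this.le
    have hxm : x ∈ K2 ∩ Metric.ball x δ := ⟨hx, Metric.mem_ball_self hδ0⟩
    have hym : y ∈ K2 ∩ Metric.ball x δ := ⟨hp2, by rw [Metric.mem_ball, Real.dist_eq]; exact hdy⟩
    have := hconv.norm_image_sub_le_of_norm_hasDerivWithin_le hd hb hxm hym
    have e : f r y - y • fx t x - (f r x - x • fx t x) =
        (f r y - f r x) - (y - x) • fx t x := by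
      rw [sub_smul]; abel
    rw [e] at this
    simpa [Real.norm_eq_abs] using this
  -- second step: move in `t`
  have s2 : ‖(f r x - f t x) - (r - t) • ft t x‖ ≤ ε / 2 * |r - t| := by
    have hconv : Convex ℝ (K1 ∩ Metric.ball t δ) := h1.inter (convex_ball t δ)
    have hd : ∀ z ∈ K1 ∩ Metric.ball t δ,
        HasDerivWithinAt (fun z => f z x - z • ft t x) (ft z x - (1 : ℝ) • ft t x)
          (K1 ∩ Metric.ball t δ) z := by
      intro z hz
      exact ((dt z hz.1 x hx).mono inter_subset_left).sub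
        ((hasDerivWithinAt_id z _).smul_const (ft t x))
    have hb : ∀ z ∈ K1 ∩ Metric.ball t δ, ‖ft z x - (1 : ℝ) • ft t x‖ ≤ ε / 2 := by
      intro z hz
      have hz2 : dist ((z, x) : ℝ × ℝ) (t, x) < δ1 := by
        rw [Prod.dist_eq, max_lt_iff]
        exact ⟨lt_of_lt_of_le (Metric.mem_ball.1 hz.2) (min_le_left _ _),
          by rw [dist_self]; exact hδ1⟩
      have := H1 (mk_mem_prod hz.1 hx) hz2
      rw [dist_eq_norm] at this
      rw [one_smul]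
      exact this.le
    have hxm : t ∈ K1 ∩ Metric.ball t δ := ⟨ht, Metric.mem_ball_self hδ0⟩
    have hym : r ∈ K1 ∩ Metric.ball t δ := ⟨hp1, by rw [Metric.mem_ball, Real.dist_eq]; exact hdr⟩
    have := hconv.norm_image_sub_le_of_norm_hasDerivWithin_le hd hb hxm hym
    have e : f r x - r • ft t x - (f t x - t • ft t x) =
        (f r x - f t x) - (r - t) • ft t x := by
      rw [sub_smul]; abel
    rw [e] at this
    simpa [Real.norm_eq_abs] using this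
  have hn1 : |r - t| ≤ ‖((r, y) : ℝ × ℝ) - (t, x)‖ := by
    rw [Prod.mk_sub_mk]; exact norm_fst_le (r - t, y - x)
  have hn2 : |y - x| ≤ ‖((r, y) : ℝ × ℝ) - (t, x)‖ := by
    rw [Prod.mk_sub_mk]; exact norm_snd_le (r - t, y - x)
  have e : f r y - f t x - ((ContinuousLinearMap.fst ℝ ℝ ℝ).smulRight (ft t x) +
        (ContinuousLinearMap.snd ℝ ℝ ℝ).smulRight (fx t x)) (((r, y) : ℝ × ℝ) - (t, x)) =
      ((f r y - f r x) - (y - x) • fx t x) + ((f r x - f t x) - (r - t) • ft t x) := by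
    have e1 : (ContinuousLinearMap.fst ℝ ℝ ℝ) (((r, y) : ℝ × ℝ) - (t, x)) = r - t := rfl
    have e2 : (ContinuousLinearMap.snd ℝ ℝ ℝ) (((r, y) : ℝ × ℝ) - (t, x)) = y - x := rfl
    simp only [_root_.add_apply, ContinuousLinearMap.smulRight_apply, e1, e2]
    abel
  show ‖f r y - f t x - _‖ ≤ _
  rw [e]
  calc _ ≤ ε / 2 * |y - x| + ε / 2 * |r - t| := (norm_add_le _ _).trans (add_le_add s1 s2)
    _ ≤ ε / 2 * ‖((r, y) : ℝ × ℝ) - (t, x)‖ + ε / 2 * ‖((r, y) : ℝ × ℝ) - (t, x)‖ := by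
        gcongr
    _ = ε * ‖((r, y) : ℝ × ℝ) - (t, x)‖ := by ring

/-- Joint smoothness of finite order from all mixed partials (doubly indexed family). -/
theorem contDiffOn_nat_of_mixed {K1 K2 : Set ℝ} (h1 : Convex ℝ K1) (h2 : Convex ℝ K2)
    (u1 : UniqueDiffOn ℝ K1) (u2 : UniqueDiffOn ℝ K2) (G : ℕ → ℕ → ℝ → ℝ → F)
    (hc : ∀ i j, ContinuousOn (fun p : ℝ × ℝ => G i j p.1 p.2) (K1 ×ˢ K2))
    (ht : ∀ i j, ∀ t ∈ K1, ∀ x ∈ K2, HasDerivWithinAt (fun r => G i j r x) (G (i + 1) j t x) K1 t)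
    (hx : ∀ i j, ∀ t ∈ K1, ∀ x ∈ K2, HasDerivWithinAt (fun y => G i j t y) (G i (j + 1) t x) K2 x)
    (n : ℕ) (i j : ℕ) : ContDiffOn ℝ n (fun p : ℝ × ℝ => G i j p.1 p.2) (K1 ×ˢ K2) := by
  induction n generalizing i j with
  | zero => simpa [contDiffOn_zero] using hc i j
  | succ n ih =>
    have hud : UniqueDiffOn ℝ (K1 ×ˢ K2) := u1.prod u2
    have key := (contDiffOn_succ_iff_hasFDerivWithinAt_of_uniqueDiffOn (𝕜 := ℝ) (n := (n : WithTop ℕ∞))
      (f := fun p : ℝ × ℝ => G i j p.1 p.2) hud).2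
    have goal : ContDiffOn ℝ ((n : WithTop ℕ∞) + 1) (fun p : ℝ × ℝ => G i j p.1 p.2) (K1 ×ˢ K2) := by
      apply key
      refine ⟨fun h => by simp at h, fun p =>
        (ContinuousLinearMap.fst ℝ ℝ ℝ).smulRight (G (i + 1) j p.1 p.2) +
          (ContinuousLinearMap.snd ℝ ℝ ℝ).smulRight (G i (j + 1) p.1 p.2), ?_, ?_⟩
      · have a1 : ContDiffOn ℝ n (fun p : ℝ × ℝ =>
            (ContinuousLinearMap.fst ℝ ℝ ℝ).smulRight (G (i + 1) j p.1 p.2)) (K1 ×ˢ K2) :=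
          (ContinuousLinearMap.smulRightL ℝ (ℝ × ℝ) F
            (ContinuousLinearMap.fst ℝ ℝ ℝ)).contDiff.comp_contDiffOn (ih (i + 1) j)
        have a2 : ContDiffOn ℝ n (fun p : ℝ × ℝ =>
            (ContinuousLinearMap.snd ℝ ℝ ℝ).smulRight (G i (j + 1) p.1 p.2)) (K1 ×ˢ K2) :=
          (ContinuousLinearMap.smulRightL ℝ (ℝ × ℝ) F
            (ContinuousLinearMap.snd ℝ ℝ ℝ)).contDiff.comp_contDiffOn (ih i (j + 1))
        exact a1.add a2
      · rintro ⟨t, x⟩ ⟨htt, hxx⟩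
        exact hasFDerivWithinAt_of_partials h1 h2 htt hxx (hc (i + 1) j (t, x) ⟨htt, hxx⟩)
          (hc i (j + 1) (t, x) ⟨htt, hxx⟩) (ht i j) (hx i j)
    exact_mod_cast goal

theorem contDiffOn_of_mixed {K1 K2 : Set ℝ} (h1 : Convex ℝ K1) (h2 : Convex ℝ K2)
    (u1 : UniqueDiffOn ℝ K1) (u2 : UniqueDiffOn ℝ K2) (G : ℕ → ℕ → ℝ → ℝ → F)
    (hc : ∀ i j, ContinuousOn (fun p : ℝ × ℝ => G i j p.1 p.2) (K1 ×ˢ K2))
    (ht : ∀ i j, ∀ t ∈ K1, ∀ x ∈ K2, HasDerivWithinAt (fun r => G i j r x) (G (i + 1) j t x) K1 t)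
    (hx : ∀ i j, ∀ t ∈ K1, ∀ x ∈ K2, HasDerivWithinAt (fun y => G i j t y) (G i (j + 1) t x) K2 x) :
    ContDiffOn ℝ (⊤ : ℕ∞) (fun p : ℝ × ℝ => G 0 0 p.1 p.2) (K1 ×ˢ K2) :=
  contDiffOn_infty.2 fun n => contDiffOn_nat_of_mixed h1 h2 u1 u2 G hc ht hx n 0 0

end partials

/-- `Sm` from mixed partials. -/
theorem sm_of_mixed {a b L : ℝ} (hL : 0 < L) (G : ℕ → ℕ → ℝ → ℝ → ℝ)
    (hc : ∀ i j, ContinuousOn (fun p : ℝ × ℝ => G i j p.1 p.2) (Ioo a b ×ˢ Icc 0 L))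
    (ht : ∀ i j, ∀ t ∈ Ioo a b, ∀ x ∈ Icc 0 L, HasDerivAt (fun r => G i j r x) (G (i + 1) j t x) t)
    (hx : ∀ i j, ∀ t ∈ Ioo a b, ∀ x ∈ Icc 0 L,
      HasDerivWithinAt (fun y => G i j t y) (G i (j + 1) t x) (Icc 0 L) x) :
    Sm (Ioo a b) L (G 0 0) :=
  contDiffOn_of_mixed (convex_Ioo a b) (convex_Icc 0 L) isOpen_Ioo.uniqueDiffOn
    (uniqueDiffOn_Icc hL) G hc (fun i j t htt x hxx => (ht i j t htt x hxx).hasDerivWithinAt) hx

end Crest.Agent.R213.J1
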