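import Crest.Agent.R213.Defs

/-!
# Row 213, J0b: parametric integrals on convex sets (helper35)

`contDiffOn_pint`: if `H` is `C^n` on `[a,b] × K`, `K` convex with unique differentiability
(closed or half open sets are allowed), then `q ↦ ∫ r in a..b, H (r,q)` is `C^n` on `K`.
-/

set_option autoImplicit false
set_option linter.unusedSectionVars false

open Set MeasureTheory Filter Topology
open scoped ContDiff Interval

noncomputable section

namespace Crest.Agent.R213

universe v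

section gen
variable {E : Type v} [NormedAddCommGroup E] [NormedSpace ℝ E] {K : Set E} {a b : ℝ}

/-- uniform continuity at `p`, uniformly in `r ∈ [a,b]` -/
lemma tube_pint {G : Type*} [NormedAddCommGroup G] {H : ℝ × E → G}
    (hH : ContinuousOn H (Icc a b ×ˢ K)) {p : E} (hp : p ∈ K) {ε : ℝ} (hε : 0 < ε) :
    ∃ δ > 0, ∀ q ∈ K ∩ Metric.ball p δ, ∀ r ∈ Icc a b, ‖H (r, q) - H (r, p)‖ ≤ ε := by
  have key : ∀ᶠ q in 𝓝 p, ∀ r ∈ Icc a b, r ∈ Icc a b → q ∈ K → ‖H (r, q) - H (r, p)‖ ≤ ε := by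
    refine IsCompact.eventually_forall_of_forall_eventually isCompact_Icc (fun r hr => ?_)
    have hc := hH (r, p) ⟨hr, hp⟩
    have h1 : ∀ᶠ z in 𝓝[Icc a b ×ˢ K] (r, p), ‖H z - H (r, p)‖ < ε / 2 :=
      (tendsto_iff_norm_sub_tendsto_zero.1 hc).eventually (gt_mem_nhds (half_pos hε))
    rw [eventually_nhdsWithin_iff, nhds_prod_eq] at h1
    obtain ⟨U, hU, V, hV, hUV⟩ := mem_prod_iff.1 h1
    rw [nhds_prod_eq]
    refine mem_of_superset (prod_mem_prod hV hU) ?_
    rintro ⟨q, r'⟩ ⟨hq, hr'⟩ hI hqK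
    have e1 : ‖H (r', q) - H (r, p)‖ < ε / 2 :=
      hUV (show (r', q) ∈ U ×ˢ V from ⟨hr', hq⟩) ⟨hI, hqK⟩
    have e2 : ‖H (r', p) - H (r, p)‖ < ε / 2 :=
      hUV (show (r', p) ∈ U ×ˢ V from ⟨hr', mem_of_mem_nhds hV⟩) ⟨hI, hp⟩
    calc ‖H (r', q) - H (r', p)‖ = ‖(H (r', q) - H (r, p)) - (H (r', p) - H (r, p))‖ := by
          congr 1; abel
      _ ≤ ‖H (r', q) - H (r, p)‖ + ‖H (r', p) - H (r, p)‖ := norm_sub_le _ _
      _ ≤ ε := by linarith
  obtain ⟨δ, hδ, hb⟩ := Metric.eventually_nhds_iff_ball.1 key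
  exact ⟨δ, hδ, fun q hq r hr => hb q hq.2 r hr hr hq.1⟩

variable {F : Type*} [NormedAddCommGroup F] [NormedSpace ℝ F]

lemma intervalIntegrable_slice (hab : a ≤ b) {H : ℝ × E → F}
    (hH : ContinuousOn H (Icc a b ×ˢ K)) {p : E} (hp : p ∈ K) :
    IntervalIntegrable (fun r => H (r, p)) volume a b := by
  refine ContinuousOn.intervalIntegrable_of_Icc hab ?_
  exact hH.comp (by fun_prop) (fun r hr => ⟨hr, hp⟩)

/-- continuity of parametric integrals -/
theorem continuousOn_pint (hab : a ≤ b) {H : ℝ × E → F}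
    (hH : ContinuousOn H (Icc a b ×ˢ K)) :
    ContinuousOn (fun q => ∫ r in a..b, H (r, q)) K := by
  intro p hp
  rw [ContinuousWithinAt, tendsto_iff_norm_sub_tendsto_zero, Metric.tendsto_nhdsWithin_nhds]
  intro ε hε
  have hba : 0 < b - a + 1 := by linarith
  obtain ⟨δ, hδ, hb⟩ := tube_pint hH hp (show 0 < ε / (2 * (b - a + 1)) by positivity)
  refine ⟨δ, hδ, fun q hq hd => ?_⟩
  have h1 : (∫ r in a..b, H (r, q)) - ∫ r in a..b, H (r, p) =
      ∫ r in a..b, (H (r, q) - H (r, p)) :=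
    (intervalIntegral.integral_sub (intervalIntegrable_slice hab hH hq)
      (intervalIntegrable_slice hab hH hp)).symm
  rw [h1, dist_zero_right, norm_norm]
  have h2 : ‖∫ r in a..b, (H (r, q) - H (r, p))‖ ≤ ε / (2 * (b - a + 1)) * |b - a| := by
    refine intervalIntegral.norm_integral_le_of_norm_le_const (fun r hr => ?_)
    rw [uIoc_of_le hab] at hr
    exact hb q ⟨hq, hd⟩ r ⟨hr.1.le, hr.2⟩
  rw [abs_of_nonneg (by linarith)] at h2
  have h3 : ε / (2 * (b - a + 1)) * (b - a) ≤ ε / (2 * (b - a + 1)) * (b - a + 1) :=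
    mul_le_mul_of_nonneg_left (by linarith) (by positivity)
  have h4 : ε / (2 * (b - a + 1)) * (b - a + 1) = ε / 2 := by field_simp
  linarith

/-- derivative of parametric integrals, within a convex set -/
theorem hasFDerivWithinAt_pint (hab : a ≤ b) (hK : Convex ℝ K) {H : ℝ × E → F}
    {H' : ℝ × E → E →L[ℝ] F}
    (hH : ContinuousOn H (Icc a b ×ˢ K)) (hH' : ContinuousOn H' (Icc a b ×ˢ K))
    (hd : ∀ r ∈ Icc a b, ∀ q ∈ K, HasFDerivWithinAt (fun q => H (r, q)) (H' (r, q)) K q)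
    {p : E} (hp : p ∈ K) :
    HasFDerivWithinAt (fun q => ∫ r in a..b, H (r, q)) (∫ r in a..b, H' (r, p)) K p := by
  rw [hasFDerivWithinAt_iff_isLittleO, Asymptotics.isLittleO_iff]
  intro ε hε
  have hba : 0 < b - a + 1 := by linarith
  obtain ⟨δ, hδ, hb⟩ := tube_pint hH' hp (show 0 < ε / (b - a + 1) by positivity)
  have hmem : K ∩ Metric.ball p δ ∈ 𝓝[K] p := by
    refine inter_mem self_mem_nhdsWithin (mem_nhdsWithin_of_mem_nhds (Metric.ball_mem_nhds p hδ))
  filter_upwards [hmem] with q hq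
  have i1 := intervalIntegrable_slice hab hH hq.1
  have i2 := intervalIntegrable_slice hab hH hp
  have i3 := intervalIntegrable_slice hab hH' hp
  have i4 : IntervalIntegrable (fun r => H' (r, p) (q - p)) volume a b := by
    refine ContinuousOn.intervalIntegrable_of_Icc hab ?_
    have : ContinuousOn (fun r => H' (r, p)) (Icc a b) :=
      hH'.comp (by fun_prop) (fun r hr => ⟨hr, hp⟩)
    exact this.clm_apply continuousOn_const
  have e0 : (∫ r in a..b, H' (r, p)) (q - p) = ∫ r in a..b, H' (r, p) (q - p) :=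
    ContinuousLinearMap.intervalIntegral_apply i3 _
  have e1 : (∫ r in a..b, H (r, q)) - (∫ r in a..b, H (r, p)) - (∫ r in a..b, H' (r, p)) (q - p) =
      ∫ r in a..b, (H (r, q) - H (r, p) - H' (r, p) (q - p)) := by
    rw [e0, ← intervalIntegral.integral_sub i1 i2, ← intervalIntegral.integral_sub (i1.sub i2) i4]
  rw [e1]
  have h2 : ‖∫ r in a..b, (H (r, q) - H (r, p) - H' (r, p) (q - p))‖ ≤
      (ε / (b - a + 1) * ‖q - p‖) * |b - a| := by
    refine intervalIntegral.norm_integral_le_of_norm_le_const (fun r hr => ?_)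
    rw [uIoc_of_le hab] at hr
    have hr' : r ∈ Icc a b := ⟨hr.1.le, hr.2⟩
    have hc : Convex ℝ (K ∩ Metric.ball p δ) := hK.inter (convex_ball p δ)
    refine hc.norm_image_sub_le_of_norm_hasFDerivWithin_le' (f := fun q => H (r, q))
      (f' := fun q => H' (r, q)) (φ := H' (r, p)) (fun x hx => ?_) (fun x hx => ?_)
      ⟨hp, Metric.mem_ball_self hδ⟩ hq
    · exact (hd r hr' x hx.1).mono inter_subset_left
    · exact hb x hx r hr'
  rw [abs_of_nonneg (by linarith)] at h2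
  refine h2.trans ?_
  have h3 : (ε / (b - a + 1) * ‖q - p‖) * (b - a) ≤ (ε / (b - a + 1) * ‖q - p‖) * (b - a + 1) :=
    mul_le_mul_of_nonneg_left (by linarith) (by positivity)
  have h4 : (ε / (b - a + 1) * ‖q - p‖) * (b - a + 1) = ε * ‖q - p‖ := by field_simp
  linarith

end gen

section gen2
variable {E : Type v} [NormedAddCommGroup E] [NormedSpace ℝ E] {K : Set E} {a b : ℝ}

/-- the partial derivative of a function on `[a,b] × K` -/
def pdK (a b : ℝ) (K : Set E) {F : Type*} [NormedAddCommGroup F] [NormedSpace ℝ F]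
    (H : ℝ × E → F) : ℝ × E → E →L[ℝ] F :=
  fun z => (fderivWithin ℝ H (Icc a b ×ˢ K) z).comp (ContinuousLinearMap.inr ℝ ℝ E)

lemma hasFDerivWithinAt_pdK {F : Type*} [NormedAddCommGroup F] [NormedSpace ℝ F]
    {H : ℝ × E → F} (hH : DifferentiableOn ℝ H (Icc a b ×ˢ K)) {r : ℝ} (hr : r ∈ Icc a b)
    {q : E} (hq : q ∈ K) :
    HasFDerivWithinAt (fun q => H (r, q)) (pdK a b K H (r, q)) K q := by
  have h1 := (hH (r, q) ⟨hr, hq⟩).hasFDerivWithinAt
  have h2 : HasFDerivWithinAt (fun q : E => ((r, q) : ℝ × E)) (ContinuousLinearMap.inr ℝ ℝ E) K q :=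
    (hasFDerivWithinAt_const r q K).prodMk (hasFDerivWithinAt_id q K)
  exact HasFDerivWithinAt.comp (g := H) (t := Icc a b ×ˢ K) q h1 h2 (fun x hx => ⟨hr, hx⟩)

/-- **parametric integrals are `C^n`** (finite `n`) -/
theorem contDiffOn_pint_nat (hab : a < b) (hK : Convex ℝ K) (hU : UniqueDiffOn ℝ K) (n : ℕ) :
    ∀ {F : Type v} [NormedAddCommGroup F] [NormedSpace ℝ F] {H : ℝ × E → F},
      ContDiffOn ℝ n H (Icc a b ×ˢ K) → ContDiffOn ℝ n (fun q => ∫ r in a..b, H (r, q)) K := by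
  have hU2 : UniqueDiffOn ℝ (Icc a b ×ˢ K) := (uniqueDiffOn_Icc hab).prod hU
  induction n with
  | zero =>
    intro F _ _ H hH
    exact contDiffOn_zero.2 (continuousOn_pint hab.le hH.continuousOn)
  | succ n ih =>
    intro F _ _ H hH
    have hH' : ContDiffOn ℝ n (pdK a b K H) (Icc a b ×ˢ K) :=
      (hH.fderivWithin hU2 (by norm_cast)).clm_comp contDiffOn_const
    have e : ((n + 1 : ℕ) : WithTop ℕ∞) = (n : WithTop ℕ∞) + 1 := by norm_cast
    rw [e, contDiffOn_succ_iff_hasFDerivWithinAt_of_uniqueDiffOn hU]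
    refine ⟨fun h => by simp at h, fun q => ∫ r in a..b, pdK a b K H (r, q), ih hH', ?_⟩
    intro p hp
    exact hasFDerivWithinAt_pint hab.le hK hH.continuousOn hH'.continuousOn
      (fun r hr q hq => hasFDerivWithinAt_pdK (hH.differentiableOn (by simp)) hr hq) hp

/-- **parametric integrals are smooth** -/
theorem contDiffOn_pint (hab : a < b) (hK : Convex ℝ K) (hU : UniqueDiffOn ℝ K)
    {F : Type v} [NormedAddCommGroup F] [NormedSpace ℝ F] {H : ℝ × E → F}
    (hH : ContDiffOn ℝ ∞ H (Icc a b ×ˢ K)) :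
    ContDiffOn ℝ ∞ (fun q => ∫ r in a..b, H (r, q)) K :=
  contDiffOn_infty.2 fun n => contDiffOn_pint_nat hab hK hU n (contDiffOn_infty.1 hH n)

end gen2

end Crest.Agent.R213
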