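import Crest.Agent.R213.J0
import Crest.Agent.R213.J1
import Crest.Agent.R213.J0bGen
import Crest.Agent.R213.J310

/-!
# Row 213: bootstrap of the regularity in `x` (helper283)

`RT n s L u`: all derivatives `∂_t^j u` exist and are `C^n` on `s × [0,L]`.
-/

set_option autoImplicit false

open Set MeasureTheory Filter Topology intervalIntegral

noncomputable section

namespace Crest.Agent.R213

variable {n : ℕ} {s : Set ℝ} {L : ℝ} {u v w : ℝ → ℝ → ℝ} {J : ℕ}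

/-- `u` and its first `J` derivatives in `t` exist and are `C^n` on `s × [0,L]` -/
def RJ (n : ℕ) (s : Set ℝ) (L : ℝ) : ℕ → (ℝ → ℝ → ℝ) → Prop
  | 0, u => ContDiffOn ℝ n (fun p : ℝ × ℝ => u p.1 p.2) (s ×ˢ Icc 0 L)
  | J + 1, u => ContDiffOn ℝ n (fun p : ℝ × ℝ => u p.1 p.2) (s ×ˢ Icc 0 L) ∧
      ∃ u' : ℝ → ℝ → ℝ, (∀ t ∈ s, ∀ x ∈ Icc 0 L, HasDerivAt (fun r => u r x) (u' t x) t) ∧
        RJ n s L J u'

theorem RJ.cd (h : RJ n s L J u) :
    ContDiffOn ℝ n (fun p : ℝ × ℝ => u p.1 p.2) (s ×ˢ Icc 0 L) := by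
  cases J with
  | zero => exact h
  | succ J => exact h.1

theorem RJ.pred (h : RJ n s L (J + 1) u) : RJ n s L J u := by
  induction J generalizing u with
  | zero => exact h.1
  | succ J ih =>
    obtain ⟨h1, u', h2, h3⟩ := h
    exact ⟨h1, u', h2, ih h3⟩

theorem RJ.congr (hs : IsOpen s) (h : RJ n s L J u)
    (e : ∀ t ∈ s, ∀ x ∈ Icc 0 L, v t x = u t x) : RJ n s L J v := by
  cases J with
  | zero => exact ContDiffOn.congr h fun p hp => e p.1 hp.1 p.2 hp.2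
  | succ J =>
    obtain ⟨h1, u', h2, h3⟩ := h
    refine ⟨h1.congr fun p hp => e p.1 hp.1 p.2 hp.2, u', fun t ht x hx => ?_, h3⟩
    exact (h2 t ht x hx).congr_of_eventuallyEq
      (Filter.eventuallyEq_of_mem (hs.mem_nhds ht) fun r hr => e r hr x hx)

theorem RJ.add (h : RJ n s L J u) (h' : RJ n s L J v) : RJ n s L J (fun t x => u t x + v t x) := by
  induction J generalizing u v with
  | zero => exact ContDiffOn.add h h'
  | succ J ih =>
    obtain ⟨h1, u', h2, h3⟩ := h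
    obtain ⟨h1', v', h2', h3'⟩ := h'
    exact ⟨h1.add h1', fun t x => u' t x + v' t x,
      fun t ht x hx => (h2 t ht x hx).add (h2' t ht x hx), ih h3 h3'⟩

theorem RJ.mul (h : RJ n s L J u) (h' : RJ n s L J v) : RJ n s L J (fun t x => u t x * v t x) := by
  induction J generalizing u v with
  | zero => exact ContDiffOn.mul h h'
  | succ J ih =>
    have hp := h.pred
    have hp' := h'.pred
    obtain ⟨h1, u', h2, h3⟩ := h
    obtain ⟨h1', v', h2', h3'⟩ := h'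
    exact ⟨h1.mul h1', fun t x => u' t x * v t x + u t x * v' t x,
      fun t ht x hx => (h2 t ht x hx).mul (h2' t ht x hx), (ih h3 hp').add (ih hp h3')⟩

theorem RJ.of_right {f : ℝ → ℝ} (hf : ContDiffOn ℝ n f (Icc 0 L)) :
    RJ n s L J (fun _ x => f x) := by
  have h0 : ContDiffOn ℝ n (fun p : ℝ × ℝ => f p.2) (s ×ˢ Icc 0 L) :=
    hf.comp contDiff_snd.contDiffOn fun p hp => hp.2
  have z : ∀ J, RJ n s L J (fun _ _ => (0 : ℝ)) := by
    intro J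
    induction J with
    | zero => exact contDiffOn_const
    | succ J ih => exact ⟨contDiffOn_const, fun _ _ => 0, fun t _ x _ => hasDerivAt_const _ _, ih⟩
  cases J with
  | zero => exact h0
  | succ J => exact ⟨h0, fun _ _ => 0, fun t _ x _ => hasDerivAt_const _ _, z J⟩

theorem RJ.const (c : ℝ) : RJ n s L J (fun _ _ => c) :=
  RJ.of_right (f := fun _ => c) contDiffOn_const

theorem RJ.inv (h : RJ n s L J u) (h0 : ∀ t ∈ s, ∀ x ∈ Icc 0 L, u t x ≠ 0) :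
    RJ n s L J (fun t x => (u t x)⁻¹) := by
  induction J with
  | zero => exact ContDiffOn.inv h fun p hp => h0 p.1 hp.1 p.2 hp.2
  | succ J ih =>
    have hp := h.pred
    obtain ⟨h1, u', h2, h3⟩ := h
    refine ⟨h1.inv fun p hp => h0 p.1 hp.1 p.2 hp.2,
      fun t x => (-1) * u' t x * ((u t x)⁻¹ * (u t x)⁻¹), fun t ht x hx => ?_, ?_⟩
    · have := (h2 t ht x hx).inv (h0 t ht x hx)
      refine this.congr_deriv ?_
      simp only [div_eq_mul_inv, pow_two, mul_inv]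
      ring
    · exact ((RJ.const (-1)).mul h3).mul ((ih hp).mul (ih hp))

theorem RJ.of_sm (hs : IsOpen s) (hL : 0 < L) (h : Sm s L u) : RJ n s L J u := by
  induction J generalizing u with
  | zero => exact ContDiffOn.of_le h (by exact_mod_cast le_top)
  | succ J ih =>
    exact ⟨ContDiffOn.of_le h (by exact_mod_cast le_top), Crest.Agent.R213.dt u,
      fun t ht x hx => h.hasDt hs ht hx, ih (h.dt hs hL)⟩

/-- all derivatives `∂_t^j u` exist and are `C^n` on `s × [0,L]` -/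
def RT (n : ℕ) (s : Set ℝ) (L : ℝ) (u : ℝ → ℝ → ℝ) : Prop := ∀ J, RJ n s L J u

theorem RT.cd (h : RT n s L u) :
    ContDiffOn ℝ n (fun p : ℝ × ℝ => u p.1 p.2) (s ×ˢ Icc 0 L) := (h 0).cd

theorem RT.congr (hs : IsOpen s) (h : RT n s L u)
    (e : ∀ t ∈ s, ∀ x ∈ Icc 0 L, v t x = u t x) : RT n s L v := fun J => (h J).congr hs e

theorem RT.add (h : RT n s L u) (h' : RT n s L v) : RT n s L (fun t x => u t x + v t x) :=
  fun J => (h J).add (h' J)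

theorem RT.mul (h : RT n s L u) (h' : RT n s L v) : RT n s L (fun t x => u t x * v t x) :=
  fun J => (h J).mul (h' J)

theorem RT.of_right {f : ℝ → ℝ} (hf : ContDiffOn ℝ n f (Icc 0 L)) : RT n s L (fun _ x => f x) :=
  fun _ => RJ.of_right hf

theorem RT.const (c : ℝ) : RT n s L (fun _ _ => c) := fun _ => RJ.const c

theorem RT.const_mul (c : ℝ) (h : RT n s L u) : RT n s L (fun t x => c * u t x) :=
  (RT.const c).mul h

theorem RT.neg (h : RT n s L u) : RT n s L (fun t x => - u t x) := by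
  simpa using h.const_mul (-1)

theorem RT.sub (h : RT n s L u) (h' : RT n s L v) : RT n s L (fun t x => u t x - v t x) := by
  simpa [sub_eq_add_neg] using h.add h'.neg

theorem RT.inv (h : RT n s L u) (h0 : ∀ t ∈ s, ∀ x ∈ Icc 0 L, u t x ≠ 0) :
    RT n s L (fun t x => (u t x)⁻¹) := fun J => (h J).inv h0

theorem RT.div (h : RT n s L u) (h' : RT n s L v) (h0 : ∀ t ∈ s, ∀ x ∈ Icc 0 L, v t x ≠ 0) :
    RT n s L (fun t x => u t x / v t x) := by
  simpa [div_eq_mul_inv] using h.mul (h'.inv h0)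

theorem RT.pow (h : RT n s L u) (k : ℕ) : RT n s L (fun t x => u t x ^ k) := by
  induction k with
  | zero => simpa using RT.const (n := n) (s := s) (L := L) 1
  | succ k ih => simpa [pow_succ] using ih.mul h

theorem RT.of_sm (hs : IsOpen s) (hL : 0 < L) (h : Sm s L u) : RT n s L u :=
  fun _ => RJ.of_sm hs hL h

theorem RT.hd (h : RT n s L u) {t x : ℝ} (ht : t ∈ s) (hx : x ∈ Icc 0 L) :
    HasDerivAt (fun r => u r x) (Crest.Agent.R213.dt u t x) t := by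
  obtain ⟨-, u', h2, -⟩ := h 1
  have := h2 t ht x hx
  rwa [dt_eq_of_hasDerivAt this]

theorem RT.dt (hs : IsOpen s) (h : RT n s L u) : RT n s L (Crest.Agent.R213.dt u) := by
  intro J
  obtain ⟨-, u', h2, h3⟩ := h (J + 1)
  exact h3.congr hs fun t ht x hx => dt_eq_of_hasDerivAt (h2 t ht x hx)

theorem RT.of_seq {D : ℕ → ℝ → ℝ → ℝ}
    (hc : ∀ j, ContDiffOn ℝ n (fun p : ℝ × ℝ => D j p.1 p.2) (s ×ˢ Icc 0 L))
    (hd : ∀ j, ∀ t ∈ s, ∀ x ∈ Icc 0 L, HasDerivAt (fun r => D j r x) (D (j + 1) t x) t) :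
    RT n s L (D 0) := by
  intro J
  have : ∀ J j, RJ n s L J (D j) := by
    intro J
    induction J with
    | zero => exact fun j => hc j
    | succ J ih => exact fun j => ⟨hc j, D (j + 1), hd j, ih (j + 1)⟩
  exact this J 0

theorem RT.iter_dt (hs : IsOpen s) (h : RT n s L u) (j : ℕ) :
    RT n s L (Crest.Agent.R213.dt^[j] u) := by
  induction j with
  | zero => exact h
  | succ j ih =>
    rw [Function.iterate_succ_apply']
    exact ih.dt hs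

theorem RT.contOn (h : RT n s L u) :
    ContinuousOn (fun p : ℝ × ℝ => u p.1 p.2) (s ×ˢ Icc 0 L) := h.cd.continuousOn

theorem RT.cont_right (h : RT n s L u) {t : ℝ} (ht : t ∈ s) : ContinuousOn (u t) (Icc 0 L) :=
  h.contOn.comp (f := fun x => ((t, x) : ℝ × ℝ)) (by fun_prop) fun _ hx => ⟨ht, hx⟩

theorem RJ.mono {m : ℕ} (hm : m ≤ n) (h : RJ n s L J u) : RJ m s L J u := by
  induction J generalizing u with
  | zero => exact ContDiffOn.of_le h (by exact_mod_cast hm)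
  | succ J ih =>
    obtain ⟨h1, u', h2, h3⟩ := h
    exact ⟨h1.of_le (by exact_mod_cast hm), u', h2, ih h3⟩

theorem RT.mono {m : ℕ} (hm : m ≤ n) (h : RT n s L u) : RT m s L u := fun J => (h J).mono hm

/-! ### parametric integrals -/

/-- derivative in `t` of `∫₀¹ a(r,x) v(t, γ(r,x)) dr` -/
theorem hasDerivAt_pint (hs : Convex ℝ s) (hso : IsOpen s) {a γ v v' : ℝ → ℝ → ℝ}
    (ha : Continuous (fun p : ℝ × ℝ => a p.1 p.2))
    (hγ : Continuous (fun p : ℝ × ℝ => γ p.1 p.2))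
    (hm : ∀ r ∈ Icc (0 : ℝ) 1, ∀ x ∈ Icc 0 L, γ r x ∈ Icc 0 L)
    (hc : ContinuousOn (fun p : ℝ × ℝ => v p.1 p.2) (s ×ˢ Icc 0 L))
    (hc' : ContinuousOn (fun p : ℝ × ℝ => v' p.1 p.2) (s ×ˢ Icc 0 L))
    (hd : ∀ t ∈ s, ∀ x ∈ Icc 0 L, HasDerivAt (fun r => v r x) (v' t x) t)
    {t x : ℝ} (ht : t ∈ s) (hx : x ∈ Icc 0 L) :
    HasDerivAt (fun q => ∫ r in (0 : ℝ)..1, a r x * v q (γ r x))
      (∫ r in (0 : ℝ)..1, a r x * v' t (γ r x)) t := by
  have k0 : ∀ w : ℝ → ℝ → ℝ, ContinuousOn (fun p : ℝ × ℝ => w p.1 p.2) (s ×ˢ Icc 0 L) →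
      ContinuousOn (fun z : ℝ × ℝ => a z.1 x * w z.2 (γ z.1 x)) (Icc 0 1 ×ˢ s) := by
    intro w hw
    have a1 : Continuous (fun z : ℝ × ℝ => a z.1 x) :=
      ha.comp (f := fun z : ℝ × ℝ => ((z.1, x) : ℝ × ℝ)) (by fun_prop)
    have a2 : Continuous (fun z : ℝ × ℝ => γ z.1 x) :=
      hγ.comp (f := fun z : ℝ × ℝ => ((z.1, x) : ℝ × ℝ)) (by fun_prop)
    refine a1.continuousOn.mul (hw.comp (f := fun z : ℝ × ℝ => ((z.2, γ z.1 x) : ℝ × ℝ))
      (continuous_snd.prodMk a2).continuousOn fun z hz => ⟨hz.2, hm _ hz.1 _ hx⟩)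
  have k1 := k0 v hc
  have k2 := k0 v' hc'
  have k3 : ContinuousOn (fun z : ℝ × ℝ => (ContinuousLinearMap.toSpanSingleton ℝ
      (a z.1 x * v' z.2 (γ z.1 x)) : ℝ →L[ℝ] ℝ)) (Icc 0 1 ×ˢ s) :=
    (ContinuousLinearMap.toSpanSingletonLE ℝ ℝ
      ℝ).toLinearMap.continuous_of_finiteDimensional.comp_continuousOn k2
  have := hasFDerivWithinAt_pint (a := 0) (b := 1) zero_le_one hs (E := ℝ) (F := ℝ)
    (H := fun z : ℝ × ℝ => a z.1 x * v z.2 (γ z.1 x))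
    (H' := fun z : ℝ × ℝ => (ContinuousLinearMap.toSpanSingleton ℝ
      (a z.1 x * v' z.2 (γ z.1 x)) : ℝ →L[ℝ] ℝ)) k1 k3
    (fun r hr q hq => by
      have := (hd q hq _ (hm r hr x hx)).const_mul (a r x)
      exact this.hasFDerivAt.hasFDerivWithinAt) ht
  have h5 := (this.hasFDerivAt (hso.mem_nhds ht)).hasDerivAt
  have i3 : IntervalIntegrable (fun r => (ContinuousLinearMap.toSpanSingleton ℝ
      (a r x * v' t (γ r x)) : ℝ →L[ℝ] ℝ)) volume 0 1 := by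
    refine ContinuousOn.intervalIntegrable_of_Icc zero_le_one ?_
    exact k3.comp (f := fun r : ℝ => ((r, t) : ℝ × ℝ)) (by fun_prop) fun r hr => ⟨hr, ht⟩
  have h6 : (∫ r in (0 : ℝ)..1, (ContinuousLinearMap.toSpanSingleton ℝ
      (a r x * v' t (γ r x)) : ℝ →L[ℝ] ℝ)) (1 : ℝ) = ∫ r in (0 : ℝ)..1, a r x * v' t (γ r x) := by
    rw [ContinuousLinearMap.intervalIntegral_apply i3]
    simp
  rw [← h6]
  exact h5

/-- `∫₀¹ a(r,x) u(t, γ(r,x)) dr` is `C^n` when `u` is -/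
theorem contDiffOn_pint2 (hs : Convex ℝ s) (hso : IsOpen s) (hL : 0 < L) {a γ : ℝ → ℝ → ℝ}
    (ha : ContDiff ℝ (⊤ : ℕ∞) (fun p : ℝ × ℝ => a p.1 p.2))
    (hγ : ContDiff ℝ (⊤ : ℕ∞) (fun p : ℝ × ℝ => γ p.1 p.2))
    (hm : ∀ r ∈ Icc (0 : ℝ) 1, ∀ x ∈ Icc 0 L, γ r x ∈ Icc 0 L)
    (hv : ContDiffOn ℝ n (fun p : ℝ × ℝ => v p.1 p.2) (s ×ˢ Icc 0 L)) :
    ContDiffOn ℝ n (fun p : ℝ × ℝ => ∫ r in (0 : ℝ)..1, a r p.2 * v p.1 (γ r p.2))
      (s ×ˢ Icc 0 L) := by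
  have hconv : Convex ℝ (s ×ˢ Icc 0 L) := hs.prod (convex_Icc 0 L)
  have hU : UniqueDiffOn ℝ (s ×ˢ Icc 0 L) := uniqueDiffOn_dom hso hL
  have hk : (n : WithTop ℕ∞) ≤ ((⊤ : ℕ∞) : WithTop ℕ∞) := by exact_mod_cast le_top
  have b1 : ContDiff ℝ n (fun z : ℝ × (ℝ × ℝ) => a z.1 z.2.2) :=
    (ha.of_le hk).comp (f := fun z : ℝ × (ℝ × ℝ) => ((z.1, z.2.2) : ℝ × ℝ)) (by fun_prop)
  have b2 : ContDiff ℝ n (fun z : ℝ × (ℝ × ℝ) => γ z.1 z.2.2) :=
    (hγ.of_le hk).comp (f := fun z : ℝ × (ℝ × ℝ) => ((z.1, z.2.2) : ℝ × ℝ)) (by fun_prop)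
  have b3 : ContDiffOn ℝ n (fun z : ℝ × (ℝ × ℝ) => ((z.2.1, γ z.1 z.2.2) : ℝ × ℝ))
      (Icc 0 1 ×ˢ (s ×ˢ Icc 0 L)) :=
    ((by fun_prop : ContDiff ℝ n (fun z : ℝ × (ℝ × ℝ) => z.2.1)).prodMk b2).contDiffOn
  refine contDiffOn_pint_nat one_pos hconv hU n
    (H := fun z : ℝ × (ℝ × ℝ) => a z.1 z.2.2 * v z.2.1 (γ z.1 z.2.2)) ?_
  refine b1.contDiffOn.mul (hv.comp (f := fun z : ℝ × (ℝ × ℝ) => ((z.2.1, γ z.1 z.2.2) : ℝ × ℝ))
    b3 ?_)
  rintro ⟨r, t, x⟩ ⟨hr, ht, hx⟩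
  exact ⟨ht, hm r hr x hx⟩

/-- `∫₀¹ a(r,x) u(t, γ(r,x)) dr` is in `RJ` when `u` is. -/
theorem RJ.pint (hs : Convex ℝ s) (hso : IsOpen s) (hL : 0 < L) {a γ : ℝ → ℝ → ℝ}
    (ha : ContDiff ℝ (⊤ : ℕ∞) (fun p : ℝ × ℝ => a p.1 p.2))
    (hγ : ContDiff ℝ (⊤ : ℕ∞) (fun p : ℝ × ℝ => γ p.1 p.2))
    (hm : ∀ r ∈ Icc (0 : ℝ) 1, ∀ x ∈ Icc 0 L, γ r x ∈ Icc 0 L)
    (h : RJ n s L J u) :
    RJ n s L J (fun t x => ∫ r in (0 : ℝ)..1, a r x * u t (γ r x)) := by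
  induction J generalizing u with
  | zero => exact contDiffOn_pint2 hs hso hL ha hγ hm h
  | succ J ih =>
    obtain ⟨h1, u', h2, h3⟩ := h
    exact ⟨contDiffOn_pint2 hs hso hL ha hγ hm h1,
      fun t x => ∫ r in (0 : ℝ)..1, a r x * u' t (γ r x), fun t ht x hx =>
      hasDerivAt_pint hs hso ha.continuous hγ.continuous hm h1.continuousOn h3.cd.continuousOn
        h2 ht hx, ih h3⟩

theorem RT.pint (hs : Convex ℝ s) (hso : IsOpen s) (hL : 0 < L) {a γ : ℝ → ℝ → ℝ}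
    (ha : ContDiff ℝ (⊤ : ℕ∞) (fun p : ℝ × ℝ => a p.1 p.2))
    (hγ : ContDiff ℝ (⊤ : ℕ∞) (fun p : ℝ × ℝ => γ p.1 p.2))
    (hm : ∀ r ∈ Icc (0 : ℝ) 1, ∀ x ∈ Icc 0 L, γ r x ∈ Icc 0 L)
    (h : RT n s L u) :
    RT n s L (fun t x => ∫ r in (0 : ℝ)..1, a r x * u t (γ r x)) :=
  fun J => (h J).pint hs hso hL ha hγ hm

theorem RJ.eval {x0 : ℝ} (hx0 : x0 ∈ Icc 0 L) (h : RJ n s L J u) :
    RJ n s L J (fun t _ => u t x0) := by
  have e1 : ∀ (v : ℝ → ℝ → ℝ), ContDiffOn ℝ n (fun p : ℝ × ℝ => v p.1 p.2) (s ×ˢ Icc 0 L) →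
      ContDiffOn ℝ n (fun p : ℝ × ℝ => v p.1 x0) (s ×ˢ Icc 0 L) := fun v hv =>
    hv.comp (f := fun p : ℝ × ℝ => ((p.1, x0) : ℝ × ℝ)) (by fun_prop) fun p hp => ⟨hp.1, hx0⟩
  induction J generalizing u with
  | zero => exact e1 u h
  | succ J ih =>
    obtain ⟨h1, u', h2, h3⟩ := h
    exact ⟨e1 u h1, fun t _ => u' t x0, fun t ht x _ => h2 t ht x0 hx0, ih h3⟩

theorem RT.eval {x0 : ℝ} (hx0 : x0 ∈ Icc 0 L) (h : RT n s L u) : RT n s L (fun t _ => u t x0) :=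
  fun J => (h J).eval hx0

theorem RT.dt_pint (hs : Convex ℝ s) (hso : IsOpen s) {a γ : ℝ → ℝ → ℝ}
    (ha : Continuous (fun p : ℝ × ℝ => a p.1 p.2))
    (hγ : Continuous (fun p : ℝ × ℝ => γ p.1 p.2))
    (hm : ∀ r ∈ Icc (0 : ℝ) 1, ∀ x ∈ Icc 0 L, γ r x ∈ Icc 0 L)
    (h : RT n s L u) {t x : ℝ} (ht : t ∈ s) (hx : x ∈ Icc 0 L) :
    HasDerivAt (fun q => ∫ r in (0 : ℝ)..1, a r x * u q (γ r x))
      (∫ r in (0 : ℝ)..1, a r x * Crest.Agent.R213.dt u t (γ r x)) t :=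
  hasDerivAt_pint hs hso ha hγ hm h.contOn (h.dt hso).contOn (fun _ ht _ hx => h.hd ht hx) ht hx

/-! ### double primitive and the bootstrap -/

/-- `∫₀ˣ (x-ξ) f(ξ) dξ` -/
def Dint (f : ℝ → ℝ) (x : ℝ) : ℝ := x ^ 2 * ∫ r in (0 : ℝ)..1, (1 - r) * f (r * x)

theorem Dint_eq (f : ℝ → ℝ) (x : ℝ) : Dint f x = ∫ ξ in (0 : ℝ)..x, (x - ξ) * f ξ := by
  rw [Dint, J310.integral_scale (fun ξ => (x - ξ) * f ξ), ← intervalIntegral.integral_const_mul,
    ← intervalIntegral.integral_const_mul]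
  refine intervalIntegral.integral_congr fun r _ => ?_
  ring

theorem hasDeriv_Dint {f : ℝ → ℝ} (hf : ContinuousOn f (Icc 0 L)) {x : ℝ} (hx : x ∈ Icc 0 L) :
    HasDerivWithinAt (Dint f) (∫ ξ in (0 : ℝ)..x, f ξ) (Icc 0 L) x := by
  have e : ∀ y ∈ Icc 0 L, Dint f y = y * (∫ ξ in (0 : ℝ)..y, f ξ) - ∫ ξ in (0 : ℝ)..y, ξ * f ξ := by
    intro y hy
    have i1 : IntervalIntegrable f volume 0 y :=
      (hf.mono (Icc_subset_Icc_right hy.2)).intervalIntegrable_of_Icc hy.1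
    have i2 : IntervalIntegrable (fun ξ => ξ * f ξ) volume 0 y :=
      (continuousOn_id.mul (hf.mono (Icc_subset_Icc_right hy.2))).intervalIntegrable_of_Icc hy.1
    rw [Dint_eq, ← intervalIntegral.integral_const_mul, ← intervalIntegral.integral_sub
      (i1.const_mul y) i2]
    refine intervalIntegral.integral_congr fun r _ => ?_
    ring
  have h1 : HasDerivWithinAt (fun y => y * (∫ ξ in (0 : ℝ)..y, f ξ) - ∫ ξ in (0 : ℝ)..y, ξ * f ξ)
      (1 * (∫ ξ in (0 : ℝ)..x, f ξ) + x * f x - x * f x) (Icc 0 L) x :=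
    ((hasDerivWithinAt_id x _).mul (J310.hasDerivWithin_integral hf hx)).sub
      (J310.hasDerivWithin_integral (f := fun ξ => ξ * f ξ) (continuousOn_id.mul hf) hx)
  have h2 := h1.congr e (e x hx)
  rwa [one_mul, _root_.add_sub_cancel_right] at h2

/-- one step of the bootstrap -/
theorem RJ.succ_of (hs : Convex ℝ s) (hso : IsOpen s) (hL : 0 < L) {p : ℝ → ℝ}
    (hu : RT n s L u) (hv : RT n s L v) (hp : RT n s L (fun t _ => p t))
    (h : ∀ t ∈ s, ∀ x ∈ Icc 0 L, u t x = u t 0 + x * p t + Dint (v t) x) :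
    RJ (n + 1) s L J u := by
  have hγ : ContDiff ℝ (⊤ : ℕ∞) (fun p : ℝ × ℝ => p.1 * p.2) := by fun_prop
  have hm : ∀ r ∈ Icc (0 : ℝ) 1, ∀ x ∈ Icc 0 L, r * x ∈ Icc 0 L := fun r hr x hx =>
    ⟨mul_nonneg hr.1 hx.1, (mul_le_of_le_one_left hx.1 hr.2).trans hx.2⟩
  -- the function is `C^(n+1)`
  have key : ∀ {u v : ℝ → ℝ → ℝ} {p : ℝ → ℝ}, RT n s L u → RT n s L v →
      RT n s L (fun t _ => p t) →
      (∀ t ∈ s, ∀ x ∈ Icc 0 L, u t x = u t 0 + x * p t + Dint (v t) x) →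
      ContDiffOn ℝ (n + 1 : ℕ) (fun p : ℝ × ℝ => u p.1 p.2) (s ×ˢ Icc 0 L) := by
    intro u v p hu hv hp h
    set ux : ℝ → ℝ → ℝ := fun t x => p t + x * ∫ r in (0 : ℝ)..1, (1 : ℝ) * v t (r * x) with hux
    have hux_cd : ContDiffOn ℝ n (fun p : ℝ × ℝ => ux p.1 p.2) (s ×ˢ Icc 0 L) :=
      (hp.add ((RT.of_right (f := fun x => x) contDiffOn_id).mul
        (hv.pint hs hso hL (a := fun _ _ => 1) (γ := fun r x => r * x) contDiff_const hγ hm))).cd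
    have hut_cd : ContDiffOn ℝ n (fun p : ℝ × ℝ => Crest.Agent.R213.dt u p.1 p.2)
        (s ×ˢ Icc 0 L) := (hu.dt hso).cd
    have hdx : ∀ t ∈ s, ∀ x ∈ Icc 0 L,
        HasDerivWithinAt (fun y => u t y) (ux t x) (Icc 0 L) x := by
      intro t ht x hx
      have h1 : HasDerivWithinAt (fun y => u t 0 + y * p t + Dint (v t) y)
          (0 + 1 * p t + ∫ ξ in (0 : ℝ)..x, v t ξ) (Icc 0 L) x :=
        ((hasDerivWithinAt_const _ _ _).add ((hasDerivWithinAt_id x _).mul_const (p t))).add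
          (hasDeriv_Dint (hv.cont_right ht) hx)
      have h2 := h1.congr (h t ht) (h t ht x hx)
      refine h2.congr_deriv ?_
      rw [J310.integral_scale]
      simp [hux]
    have e : ((n + 1 : ℕ) : WithTop ℕ∞) = (n : WithTop ℕ∞) + 1 := by norm_cast
    rw [e, contDiffOn_succ_iff_hasFDerivWithinAt_of_uniqueDiffOn (uniqueDiffOn_dom hso hL)]
    refine ⟨fun h => by simp at h, fun p =>
        (ContinuousLinearMap.fst ℝ ℝ ℝ).smulRight (Crest.Agent.R213.dt u p.1 p.2) +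
          (ContinuousLinearMap.snd ℝ ℝ ℝ).smulRight (ux p.1 p.2), ?_, ?_⟩
    · have a1 : ContDiffOn ℝ n (fun p : ℝ × ℝ =>
          (ContinuousLinearMap.fst ℝ ℝ ℝ).smulRight (Crest.Agent.R213.dt u p.1 p.2))
          (s ×ˢ Icc 0 L) :=
        (ContinuousLinearMap.smulRightL ℝ (ℝ × ℝ) ℝ
          (ContinuousLinearMap.fst ℝ ℝ ℝ)).contDiff.comp_contDiffOn hut_cd
      have a2 : ContDiffOn ℝ n (fun p : ℝ × ℝ =>
          (ContinuousLinearMap.snd ℝ ℝ ℝ).smulRight (ux p.1 p.2)) (s ×ˢ Icc 0 L) :=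
        (ContinuousLinearMap.smulRightL ℝ (ℝ × ℝ) ℝ
          (ContinuousLinearMap.snd ℝ ℝ ℝ)).contDiff.comp_contDiffOn hux_cd
      exact a1.add a2
    · rintro ⟨t, x⟩ ⟨ht, hx⟩
      exact J1.hasFDerivWithinAt_of_partials hs (convex_Icc 0 L) ht hx
        (hut_cd.continuousOn (t, x) ⟨ht, hx⟩) (hux_cd.continuousOn (t, x) ⟨ht, hx⟩)
        (fun r hr y hy => (hu.hd hr hy).hasDerivWithinAt) hdx
  induction J generalizing u v p with
  | zero => exact key hu hv hp h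
  | succ J ih =>
    refine ⟨key hu hv hp h, Crest.Agent.R213.dt u, fun t ht x hx => hu.hd ht hx, ?_⟩
    have z0 : (0 : ℝ) ∈ Icc 0 L := ⟨le_rfl, hL.le⟩
    refine ih (v := Crest.Agent.R213.dt v)
      (p := fun t => Crest.Agent.R213.dt (fun t _ => p t) t 0) (hu.dt hso) (hv.dt hso)
      ?_ ?_
    · exact (hp.dt hso).congr hso fun t ht x hx => rfl
    · intro t ht x hx
      have h1 := hu.hd ht hx
      have h2 := hu.hd ht z0
      have h3 : HasDerivAt (fun r => p r) (Crest.Agent.R213.dt (fun t _ => p t) t 0) t :=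
        hp.hd ht z0
      have h4 := (hv.dt_pint hs hso (a := fun r _ => 1 - r) (γ := fun r x => r * x)
        (by fun_prop) (by fun_prop) hm ht hx).const_mul (x ^ 2)
      have h5 := (h2.add (h3.const_mul x)).add h4
      have h6 : HasDerivAt (fun r => u r x) _ t :=
        h5.congr_of_eventuallyEq (Filter.eventuallyEq_of_mem (hso.mem_nhds ht)
          fun r hr => h r hr x hx)
      rw [h1.unique h6]
      rfl

/-- **bootstrap**: if every step `C^n` produces a `C^n` second derivative `v` (with all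
`t`-derivatives), then `u` is smooth up to the boundary. -/
theorem boot (hs : Convex ℝ s) (hso : IsOpen s) (hL : 0 < L) (h0 : RT 0 s L u)
    (hg : ∀ n, RT n s L u → ∃ (v : ℝ → ℝ → ℝ) (p : ℝ → ℝ), RT n s L v ∧
      ∀ t ∈ s, ∀ x ∈ Icc 0 L, u t x = u t 0 + x * p t + Dint (v t) x) :
    (∀ n, RT n s L u) ∧ Sm s L u := by
  have hm : ∀ r ∈ Icc (0 : ℝ) 1, ∀ x ∈ Icc 0 L, r * x ∈ Icc 0 L := fun r hr x hx =>
    ⟨mul_nonneg hr.1 hx.1, (mul_le_of_le_one_left hx.1 hr.2).trans hx.2⟩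
  have hall : ∀ n, RT n s L u := by
    intro n
    induction n with
    | zero => exact h0
    | succ n ih =>
      obtain ⟨v, p, hv, h⟩ := hg n ih
      have z0 : (0 : ℝ) ∈ Icc 0 L := ⟨le_rfl, hL.le⟩
      have z1 : L ∈ Icc 0 L := ⟨hL.le, le_rfl⟩
      have hp : RT n s L (fun t _ => p t) := by
        have h1 : RT n s L (fun t x => L⁻¹ * (u t L - u t 0 - L ^ 2 *
            ∫ r in (0 : ℝ)..1, (1 - r) * v t (r * L))) :=
          (((ih.eval z1).sub (ih.eval z0)).sub (((hv.pint hs hso hL (a := fun r _ => 1 - r)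
            (γ := fun r x => r * x) (by fun_prop) (by fun_prop) hm).eval z1).const_mul
              (L ^ 2))).const_mul L⁻¹
        refine h1.congr hso fun t ht x hx => ?_
        have := h t ht L z1
        rw [Dint] at this
        have e : u t L - u t 0 - L ^ 2 * (∫ r in (0 : ℝ)..1, (1 - r) * v t (r * L)) = L * p t := by
          rw [this]; ring
        rw [e]
        field_simp
      exact fun J => RJ.succ_of hs hso hL ih hv hp h
  exact ⟨hall, contDiffOn_infty.2 fun n => (hall n).cd⟩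

/-! ### the quotient `Kint F / (x^11 (1-x/L)^2)` -/

/-- `∫₀¹ (1-r) r⁹ F(r x) dr`: `Kint F x = x^11 * Q0 F x` -/
def Q0 (F : ℝ → ℝ) (x : ℝ) : ℝ := ∫ r in (0 : ℝ)..1, ((1 - r) * r ^ 9) * F (r * x)

/-- `∫₀¹ r (x+r(L-x))⁹ F(x+r(L-x)) dr`: `Kint F x = (L-x)^2 * QL L F x` if both moments vanish -/
def QL (L : ℝ) (F : ℝ → ℝ) (x : ℝ) : ℝ :=
  ∫ r in (0 : ℝ)..1, (r * (x + r * (L - x)) ^ 9) * F (x + r * (L - x))

/-- `Kint F / (x^11 (1-x/L)^2)`, regular at both ends -/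
def qq (L : ℝ) (F : ℝ → ℝ) (x : ℝ) : ℝ :=
  (∑ k ∈ Finset.range 11, ((k : ℝ) + 1) * (x / L) ^ k) * Q0 F x +
    (12 - 11 * (x / L)) * (L⁻¹) ^ 9 * QL L F x

theorem Kint_eq_Q0 (F : ℝ → ℝ) (x : ℝ) : Kint F x = x ^ 11 * Q0 F x := J310.Kint_scale F x

theorem Kint_eq_QL (hL : 0 < L) {F : ℝ → ℝ} (hF : ContinuousOn F (Icc 0 L)) (h0 : Kint F L = 0)
    (h1 : J310.Kint1 F L = 0) {x : ℝ} (hx : x ∈ Icc 0 L) :
    Kint F x = (L - x) ^ 2 * QL L F x := by
  have hG : ContinuousOn (fun ξ => ξ ^ 9 * F ξ) (Icc 0 L) := by fun_prop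
  have iG : ∀ a ∈ Icc 0 L, ∀ b ∈ Icc 0 L, ∀ c : ℝ,
      IntervalIntegrable (fun ξ => (c - ξ) * ξ ^ 9 * F ξ) volume a b := by
    intro a ha b hb c
    refine ContinuousOn.intervalIntegrable ?_
    have : ContinuousOn (fun ξ => (c - ξ) * ξ ^ 9 * F ξ) (Icc 0 L) := by fun_prop
    exact this.mono (uIcc_subset_Icc ha hb)
  have z0 : (0 : ℝ) ∈ Icc 0 L := ⟨le_rfl, hL.le⟩
  have z1 : L ∈ Icc 0 L := ⟨hL.le, le_rfl⟩
  have iG1 : IntervalIntegrable (fun ξ => ξ ^ 9 * F ξ) volume 0 L :=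
    hG.intervalIntegrable_of_Icc hL.le
  -- the full moment vanishes
  have e1 : ∫ ξ in (0 : ℝ)..L, (x - ξ) * ξ ^ 9 * F ξ = 0 := by
    have : ∫ ξ in (0 : ℝ)..L, (x - ξ) * ξ ^ 9 * F ξ =
        (∫ ξ in (0 : ℝ)..L, (L - ξ) * ξ ^ 9 * F ξ) -
          (L - x) * ∫ ξ in (0 : ℝ)..L, ξ ^ 9 * F ξ := by
      rw [← intervalIntegral.integral_const_mul, ← intervalIntegral.integral_sub
        (iG 0 z0 L z1 L) (iG1.const_mul _)]
      refine intervalIntegral.integral_congr fun r _ => ?_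
      ring
    rw [this]
    have h0' : ∫ ξ in (0 : ℝ)..L, (L - ξ) * ξ ^ 9 * F ξ = 0 := h0
    have h1' : ∫ ξ in (0 : ℝ)..L, ξ ^ 9 * F ξ = 0 := h1
    rw [h0', h1']; ring
  have e2 := intervalIntegral.integral_add_adjacent_intervals (iG 0 z0 x hx x) (iG x hx L z1 x)
  rw [e1] at e2
  have e3 : Kint F x = - ∫ ξ in x..L, (x - ξ) * ξ ^ 9 * F ξ := by
    rw [Kint]; linarith
  -- substitution
  have e4 : ∫ ξ in x..L, (x - ξ) * ξ ^ 9 * F ξ = (L - x) *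
      ∫ r in (0 : ℝ)..1, (x - (r * (L - x) + x)) * (r * (L - x) + x) ^ 9 * F (r * (L - x) + x) := by
    have := intervalIntegral.mul_integral_comp_mul_add
      (f := fun ξ => (x - ξ) * ξ ^ 9 * F ξ) (a := 0) (b := 1) (L - x) x
    simp only [mul_zero, zero_add, mul_one, sub_add_cancel] at this
    rw [← this]
    congr 1
    refine intervalIntegral.integral_congr fun r _ => ?_
    simp only [mul_comm]
  rw [e3, e4, QL, ← intervalIntegral.integral_const_mul, ← intervalIntegral.integral_neg,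
    ← intervalIntegral.integral_const_mul]
  refine intervalIntegral.integral_congr fun r _ => ?_
  have : r * (L - x) + x = x + r * (L - x) := by ring
  simp only [this]
  ring

theorem qq_eq (hL : 0 < L) {F : ℝ → ℝ} (hF : ContinuousOn F (Icc 0 L)) (h0 : Kint F L = 0)
    (h1 : J310.Kint1 F L = 0) {x : ℝ} (hx : x ∈ Icc 0 L) :
    x ^ 9 * (x * (1 - x / L)) ^ 2 * qq L F x = Kint F x := by
  have k1 := Kint_eq_Q0 F x
  have k2 := Kint_eq_QL hL hF h0 h1 hx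
  have hL' : L ≠ 0 := hL.ne'
  obtain ⟨y, hy⟩ : ∃ y, y = x / L := ⟨_, rfl⟩
  have hxy : x = y * L := by rw [hy]; field_simp
  rw [qq, ← hy]
  have hp : (∑ k ∈ Finset.range 11, ((k : ℝ) + 1) * y ^ k) * (1 - y) ^ 2 +
      (12 - 11 * y) * y ^ 11 = 1 := by
    simp only [Finset.sum_range_succ, Finset.sum_range_zero]
    push_cast
    ring
  have e1 : x ^ 9 * (x * (1 - y)) ^ 2 * ((∑ k ∈ Finset.range 11, ((k : ℝ) + 1) * y ^ k) * Q0 F x) =
      (∑ k ∈ Finset.range 11, ((k : ℝ) + 1) * y ^ k) * (1 - y) ^ 2 * Kint F x := by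
    rw [k1]; ring
  have e2 : x ^ 9 * (x * (1 - y)) ^ 2 * ((12 - 11 * y) * (L⁻¹) ^ 9 * QL L F x) =
      (12 - 11 * y) * y ^ 11 * Kint F x := by
    rw [k2, hxy]
    field_simp
  rw [mul_add, e1, e2, ← add_mul, hp, one_mul]

theorem RT.Q0 (hs : Convex ℝ s) (hso : IsOpen s) (hL : 0 < L) (h : RT n s L u) :
    RT n s L (fun t x => Crest.Agent.R213.Q0 (u t) x) := by
  have hm : ∀ r ∈ Icc (0 : ℝ) 1, ∀ x ∈ Icc 0 L, r * x ∈ Icc 0 L := fun r hr x hx =>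
    ⟨mul_nonneg hr.1 hx.1, (mul_le_of_le_one_left hx.1 hr.2).trans hx.2⟩
  exact h.pint hs hso hL (a := fun r _ => (1 - r) * r ^ 9) (γ := fun r x => r * x)
    (by fun_prop) (by fun_prop) hm

theorem RT.QL (hs : Convex ℝ s) (hso : IsOpen s) (hL : 0 < L) (h : RT n s L u) :
    RT n s L (fun t x => Crest.Agent.R213.QL L (u t) x) := by
  have hm : ∀ r ∈ Icc (0 : ℝ) 1, ∀ x ∈ Icc 0 L, x + r * (L - x) ∈ Icc 0 L := by
    intro r hr x hx
    have h1 : 0 ≤ r * (L - x) := mul_nonneg hr.1 (by linarith [hx.2])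
    have h2 : r * (L - x) ≤ L - x := mul_le_of_le_one_left (by linarith [hx.2]) hr.2
    exact ⟨by linarith [hx.1], by linarith⟩
  exact h.pint hs hso hL (a := fun r x => r * (x + r * (L - x)) ^ 9)
    (γ := fun r x => x + r * (L - x)) (by fun_prop) (by fun_prop) hm

theorem RT.qq (hs : Convex ℝ s) (hso : IsOpen s) (hL : 0 < L) (h : RT n s L u) :
    RT n s L (fun t x => Crest.Agent.R213.qq L (u t) x) := by
  have a1 : RT n s L (fun _ x => ∑ k ∈ Finset.range 11, ((k : ℝ) + 1) * (x / L) ^ k) :=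
    RT.of_right (by fun_prop)
  have a2 : RT n s L (fun _ x => (12 - 11 * (x / L)) * (L⁻¹) ^ 9) :=
    RT.of_right (by fun_prop)
  exact (a1.mul (h.Q0 hs hso hL)).add (a2.mul (h.QL hs hso hL))

end Crest.Agent.R213
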