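import Crest.Agent.R213.J0bH

/-!
# Row 213, J0b: the operator `Kint` (helper35)
-/

set_option autoImplicit false
set_option linter.unusedVariables false

open Set MeasureTheory Filter Topology
open scoped ContDiff Interval

noncomputable section

namespace Crest.Agent.R213

open J0b

variable {s : Set ℝ} {L : ℝ} {u v : ℝ → ℝ → ℝ} {F G : ℝ → ℝ}

/-- `∫₀¹ (1-r) r⁹ F(r x) dr` : `Kint F x = x¹¹ * Kq F x` -/
def Kq (F : ℝ → ℝ) (x : ℝ) : ℝ := ∫ r in (0 : ℝ)..1, (1 - r) * r ^ 9 * F (r * x)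

/-- `∫₀¹ r⁹ F(r x) dr` : `∫₀ˣ ξ⁹ F = x¹⁰ * Kq1 F x` -/
def Kq1 (F : ℝ → ℝ) (x : ℝ) : ℝ := ∫ r in (0 : ℝ)..1, r ^ 9 * F (r * x)

/-- `∫₀ˣ ξ⁹ F(ξ) dξ` -/
def K1 (F : ℝ → ℝ) (x : ℝ) : ℝ := ∫ ξ in (0 : ℝ)..x, ξ ^ 9 * F ξ

theorem Kint_eq (F : ℝ → ℝ) (x : ℝ) : Kint F x = x ^ 11 * Kq F x := by
  have h := intervalIntegral.mul_integral_comp_mul_right (a := 0) (b := 1)
    (f := fun ξ => (x - ξ) * ξ ^ 9 * F ξ) x
  rw [zero_mul, one_mul] at h
  unfold Kint Kq
  rw [← h, ← intervalIntegral.integral_const_mul, ← intervalIntegral.integral_const_mul]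
  refine intervalIntegral.integral_congr (fun r _ => ?_)
  ring

theorem K1_eq (F : ℝ → ℝ) (x : ℝ) : K1 F x = x ^ 10 * Kq1 F x := by
  have h := intervalIntegral.mul_integral_comp_mul_right (a := 0) (b := 1)
    (f := fun ξ => ξ ^ 9 * F ξ) x
  rw [zero_mul, one_mul] at h
  unfold K1 Kq1
  rw [← h, ← intervalIntegral.integral_const_mul, ← intervalIntegral.integral_const_mul]
  refine intervalIntegral.integral_congr (fun r _ => ?_)
  ring

@[simp] lemma Kint_zero_right (F : ℝ → ℝ) : Kint F 0 = 0 := by simp [Kint]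
@[simp] lemma K1_zero_right (F : ℝ → ℝ) : K1 F 0 = 0 := by simp [K1]

theorem Sm.Kq (hs : IsOpen s) (hL : 0 < L) (hu : Sm s L u) : Sm s L (fun t x => Kq (u t) x) :=
  Sm.pintx hs hL (w := fun r => (1 - r) * r ^ 9) (by fun_prop) hu

theorem Sm.Kq1 (hs : IsOpen s) (hL : 0 < L) (hu : Sm s L u) : Sm s L (fun t x => Kq1 (u t) x) :=
  Sm.pintx hs hL (w := fun r => r ^ 9) (by fun_prop) hu

theorem Sm.Kint (hs : IsOpen s) (hL : 0 < L) (hu : Sm s L u) :
    Sm s L (fun t x => Kint (u t) x) := by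
  have h1 : ContDiffOn ℝ ∞ (fun p : ℝ × ℝ => p.2 ^ 11 * R213.Kq (u p.1) p.2) (s ×ˢ Icc 0 L) :=
    ContDiffOn.mul (by fun_prop) (hu.Kq hs hL)
  exact h1.congr (fun p _ => Kint_eq _ _)

theorem Sm.K1 (hs : IsOpen s) (hL : 0 < L) (hu : Sm s L u) :
    Sm s L (fun t x => K1 (u t) x) := by
  have h1 : ContDiffOn ℝ ∞ (fun p : ℝ × ℝ => p.2 ^ 10 * R213.Kq1 (u p.1) p.2) (s ×ˢ Icc 0 L) :=
    ContDiffOn.mul (by fun_prop) (hu.Kq1 hs hL)
  exact h1.congr (fun p _ => K1_eq _ _)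

/-! ### one variable calculus -/

/-- fundamental theorem of calculus on `[0,L]`, one-sided at the ends -/
lemma ftc_Icc (hF : ContinuousOn F (Icc 0 L)) {x : ℝ} (hx : x ∈ Icc 0 L) :
    HasDerivWithinAt (fun y => ∫ ξ in (0:ℝ)..y, F ξ) (F x) (Icc 0 L) x := by
  have : Fact (x ∈ Icc 0 L) := ⟨hx⟩
  refine intervalIntegral.integral_hasDerivWithinAt_right ?_ ?_ (hF x hx)
  · exact (hF.mono (Icc_subset_Icc le_rfl hx.2)).intervalIntegrable_of_Icc hx.1
  · exact hF.stronglyMeasurableAtFilter_nhdsWithin measurableSet_Icc x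

lemma K1_hasDeriv (hF : ContinuousOn F (Icc 0 L)) {x : ℝ} (hx : x ∈ Icc 0 L) :
    HasDerivWithinAt (K1 F) (x ^ 9 * F x) (Icc 0 L) x :=
  ftc_Icc (F := fun ξ => ξ ^ 9 * F ξ) (by fun_prop) hx

lemma Kint_split (hF : ContinuousOn F (Icc 0 L)) {x : ℝ} (hx : x ∈ Icc 0 L) :
    Kint F x = x * K1 F x - ∫ ξ in (0:ℝ)..x, ξ ^ 10 * F ξ := by
  have hF' : ContinuousOn F (Icc 0 x) := hF.mono (Icc_subset_Icc le_rfl hx.2)
  have i1 : IntervalIntegrable (fun ξ => x * (ξ ^ 9 * F ξ)) volume 0 x :=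
    ContinuousOn.intervalIntegrable_of_Icc hx.1 (by fun_prop)
  have i2 : IntervalIntegrable (fun ξ => ξ ^ 10 * F ξ) volume 0 x :=
    ContinuousOn.intervalIntegrable_of_Icc hx.1 (by fun_prop)
  unfold Kint K1
  rw [← intervalIntegral.integral_const_mul, ← intervalIntegral.integral_sub i1 i2]
  refine intervalIntegral.integral_congr (fun r _ => ?_)
  ring

lemma Kint_hasDeriv (hF : ContinuousOn F (Icc 0 L)) {x : ℝ} (hx : x ∈ Icc 0 L) :
    HasDerivWithinAt (Kint F) (K1 F x) (Icc 0 L) x := by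
  have h1 : HasDerivWithinAt (fun y => y * K1 F y - ∫ ξ in (0:ℝ)..y, ξ ^ 10 * F ξ)
      (K1 F x) (Icc 0 L) x := by
    have h2 := ((hasDerivWithinAt_id x (Icc 0 L)).mul (K1_hasDeriv hF hx)).sub
      (ftc_Icc (F := fun ξ => ξ ^ 10 * F ξ) (by fun_prop) hx)
    refine h2.congr_deriv ?_
    simp only [id]
    ring
  exact h1.congr (fun y hy => Kint_split hF hy) (Kint_split hF hx)

/-- `Kint` is injective on continuous functions -/
theorem Kint_inj (hL : 0 < L) (hF : ContinuousOn F (Icc 0 L)) (hG : ContinuousOn G (Icc 0 L))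
    (h : ∀ x ∈ Icc 0 L, Kint F x = Kint G x) : ∀ x ∈ Icc 0 L, F x = G x := by
  have hU := uniqueDiffOn_Icc hL
  have h1 : ∀ x ∈ Icc 0 L, K1 F x = K1 G x := by
    intro x hx
    have e1 := (Kint_hasDeriv hF hx).derivWithin (hU x hx)
    have e2 := (Kint_hasDeriv hG hx).derivWithin (hU x hx)
    rw [← e1, ← e2]
    exact derivWithin_congr h (h x hx)
  have h2 : ∀ x ∈ Icc 0 L, x ^ 9 * F x = x ^ 9 * G x := by
    intro x hx
    have e1 := (K1_hasDeriv hF hx).derivWithin (hU x hx)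
    have e2 := (K1_hasDeriv hG hx).derivWithin (hU x hx)
    rw [← e1, ← e2]
    exact derivWithin_congr h1 (h1 x hx)
  have h3 : EqOn F G (Ioc 0 L) := fun x hx => by
    have := h2 x ⟨hx.1.le, hx.2⟩
    exact mul_left_cancel₀ (pow_ne_zero 9 hx.1.ne') this
  have h4 : closure (Ioc 0 L) = Icc 0 L := closure_Ioc hL.ne
  intro x hx
  have h5 : Icc 0 L ⊆ closure (Ioc 0 L) := h4.symm.subset
  exact h3.of_subset_closure hF hG Ioc_subset_Icc_self h5 hx

/-- characterisation of `Kint` by its second derivative -/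
theorem eq_Kint_of_deriv (hL : 0 < L) (hF : ContinuousOn F (Icc 0 L)) {P P' : ℝ → ℝ}
    (h0 : P 0 = 0) (h0' : P' 0 = 0)
    (h1 : ∀ x ∈ Icc 0 L, HasDerivWithinAt P (P' x) (Icc 0 L) x)
    (h2 : ∀ x ∈ Icc 0 L, HasDerivWithinAt P' (x ^ 9 * F x) (Icc 0 L) x) :
    ∀ x ∈ Icc 0 L, P x = Kint F x := by
  have key : ∀ (A B : ℝ → ℝ) (C : ℝ → ℝ), A 0 = B 0 →
      (∀ x ∈ Icc 0 L, HasDerivWithinAt A (C x) (Icc 0 L) x) →
      (∀ x ∈ Icc 0 L, HasDerivWithinAt B (C x) (Icc 0 L) x) → ∀ x ∈ Icc 0 L, A x = B x := by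
    intro A B C hAB hA hB x hx
    have hd : ∀ y ∈ Icc 0 L, HasDerivWithinAt (fun z => A z - B z) 0 (Icc 0 L) y := by
      intro y hy
      simpa using (hA y hy).fun_sub (hB y hy)
    have := (convex_Icc 0 L).norm_image_sub_le_of_norm_hasDerivWithin_le (C := 0)
      (f := fun z => A z - B z) (fun y hy => hd y hy) (fun y _ => by simp)
      (left_mem_Icc.2 hL.le) hx
    simp only [zero_mul, norm_le_zero_iff] at this
    linarith
  have e1 := key P' (K1 F) (fun x => x ^ 9 * F x) (by rw [h0']; simp) h2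
    (fun x hx => K1_hasDeriv hF hx)
  exact key P (Kint F) (K1 F) (by rw [h0]; simp)
    (fun x hx => (h1 x hx).congr_deriv (e1 x hx)) (fun x hx => Kint_hasDeriv hF hx)

/-! ### `Kint` and the derivatives `dx`, `dt` -/

theorem dx_Kint (hL : 0 < L) (hu : Sm s L u) {t x : ℝ} (ht : t ∈ s) (hx : x ∈ Icc 0 L) :
    dx L (fun t x => Kint (u t) x) t x = K1 (u t) x :=
  (Kint_hasDeriv (continuousOn_slice hu ht) hx).derivWithin (uniqueDiffOn_Icc hL x hx)

theorem dx_K1 (hL : 0 < L) (hu : Sm s L u) {t x : ℝ} (ht : t ∈ s) (hx : x ∈ Icc 0 L) :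
    dx L (fun t x => K1 (u t) x) t x = x ^ 9 * u t x :=
  (K1_hasDeriv (continuousOn_slice hu ht) hx).derivWithin (uniqueDiffOn_Icc hL x hx)

theorem dx_dx_Kint (hL : 0 < L) (hu : Sm s L u) {t x : ℝ} (ht : t ∈ s) (hx : x ∈ Icc 0 L) :
    dx L (dx L (fun t x => Kint (u t) x)) t x = x ^ 9 * u t x := by
  rw [← dx_K1 hL hu ht hx]
  exact derivWithin_congr (fun y hy => dx_Kint hL hu ht hy) (dx_Kint hL hu ht hx)

theorem dt_Kint (hs : IsOpen s) (hL : 0 < L) (hu : Sm s L u) {t x : ℝ} (ht : t ∈ s)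
    (hx : x ∈ Icc 0 L) : dt (fun t x => Kint (u t) x) t x = Kint (dt u t) x := by
  have h1 := (pintx_deriv hs hL (w := fun r => (1 - r) * r ^ 9) (by fun_prop) hu ht hx).2
  have e : (fun t x => Kint (u t) x) = fun t x => x ^ 11 * pintx (fun r => (1 - r) * r ^ 9) u t x := by
    funext t x; exact Kint_eq _ _
  rw [e]
  unfold dt at h1 ⊢
  rw [deriv_const_mul_field, h1, Kint_eq]
  rfl

/-! ### algebra -/

lemma Kint_add (hF : ContinuousOn F (Icc 0 L)) (hG : ContinuousOn G (Icc 0 L)) {x : ℝ}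
    (hx : x ∈ Icc 0 L) : Kint (fun ξ => F ξ + G ξ) x = Kint F x + Kint G x := by
  have hF' : ContinuousOn F (Icc 0 x) := hF.mono (Icc_subset_Icc le_rfl hx.2)
  have hG' : ContinuousOn G (Icc 0 x) := hG.mono (Icc_subset_Icc le_rfl hx.2)
  unfold Kint
  rw [← intervalIntegral.integral_add (ContinuousOn.intervalIntegrable_of_Icc hx.1 (by fun_prop))
    (ContinuousOn.intervalIntegrable_of_Icc hx.1 (by fun_prop))]
  refine intervalIntegral.integral_congr (fun r _ => ?_)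
  simp only
  ring

lemma Kint_sub (hF : ContinuousOn F (Icc 0 L)) (hG : ContinuousOn G (Icc 0 L)) {x : ℝ}
    (hx : x ∈ Icc 0 L) : Kint (fun ξ => F ξ - G ξ) x = Kint F x - Kint G x := by
  have hF' : ContinuousOn F (Icc 0 x) := hF.mono (Icc_subset_Icc le_rfl hx.2)
  have hG' : ContinuousOn G (Icc 0 x) := hG.mono (Icc_subset_Icc le_rfl hx.2)
  unfold Kint
  rw [← intervalIntegral.integral_sub (ContinuousOn.intervalIntegrable_of_Icc hx.1 (by fun_prop))
    (ContinuousOn.intervalIntegrable_of_Icc hx.1 (by fun_prop))]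
  refine intervalIntegral.integral_congr (fun r _ => ?_)
  simp only
  ring

lemma Kint_const_mul (c : ℝ) (F : ℝ → ℝ) (x : ℝ) :
    Kint (fun ξ => c * F ξ) x = c * Kint F x := by
  unfold Kint
  rw [← intervalIntegral.integral_const_mul]
  refine intervalIntegral.integral_congr (fun r _ => ?_)
  simp only
  ring

lemma Kint_congr {x : ℝ} (hx : x ∈ Icc 0 L) (h : ∀ y ∈ Icc 0 L, F y = G y) :
    Kint F x = Kint G x := by
  unfold Kint
  refine intervalIntegral.integral_congr (fun r hr => ?_)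
  rw [uIcc_of_le hx.1] at hr
  simp only [h r ⟨hr.1, hr.2.trans hx.2⟩]

lemma Kint_const (c x : ℝ) : Kint (fun _ => c) x = c * x ^ 11 / 110 := by
  rw [Kint_eq]
  have : Kq (fun _ => c) x = c / 110 := by
    unfold Kq
    have e : ∀ r : ℝ, (1 - r) * r ^ 9 * c = c * (r ^ 9 - r ^ 10) := fun r => by ring
    simp only [e]
    rw [intervalIntegral.integral_const_mul, intervalIntegral.integral_sub
      (Continuous.intervalIntegrable (by fun_prop) _ _)
      (Continuous.intervalIntegrable (by fun_prop) _ _)]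
    simp only [integral_pow]
    norm_num
    ring
  rw [this]; ring

end Crest.Agent.R213
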