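import Crest.Agent.R213.Defs
import Crest.Agent.R213.J0
import Crest.Agent.R213.J1

/-!
# Row 213: class calculus `CK`

`CK s y0 k f`: all `τ`-derivatives of all `x`-derivatives of order `≤ k` of `f` exist and are
continuous up to the boundary of `s × [0,y0]`.  Realised by smooth curves `s → C([0,y0],ℝ)`.
-/

set_option autoImplicit false

open Set MeasureTheory Filter Topology
open scoped ContDiff BoundedContinuousFunction

noncomputable section

namespace Crest.Agent.R213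

/-- a tower of derivatives gives smoothness -/
theorem contDiffOn_of_tower {F : Type*} [NormedAddCommGroup F] [NormedSpace ℝ F] {s : Set ℝ}
    (hs : IsOpen s) {g : ℕ → ℝ → F} (hg : ∀ j, ∀ τ ∈ s, HasDerivAt (g j) (g (j + 1) τ) τ) (j : ℕ) :
    ContDiffOn ℝ ∞ (g j) s := by
  refine contDiffOn_infty.2 fun n => ?_
  induction n generalizing j with
  | zero =>
    rw [Nat.cast_zero, contDiffOn_zero]
    exact fun τ hτ => (hg j τ hτ).continuousAt.continuousWithinAt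
  | succ n ih =>
    rw [Nat.cast_add, Nat.cast_one, contDiffOn_succ_iff_deriv_of_isOpen hs]
    refine ⟨fun τ hτ => (hg j τ hτ).differentiableAt.differentiableWithinAt, by simp, ?_⟩
    exact (ih (j + 1)).congr fun τ hτ => (hg j τ hτ).deriv

/-- smooth curves: derivative is a smooth curve -/
theorem smoothCurve_deriv {F : Type*} [NormedAddCommGroup F] [NormedSpace ℝ F] {s : Set ℝ}
    (hs : IsOpen s) {g : ℝ → F} (hg : ContDiffOn ℝ ∞ g s) : ContDiffOn ℝ ∞ (deriv g) s :=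
  ((contDiffOn_infty_iff_deriv_of_isOpen hs).1 hg).2

theorem smoothCurve_hasDerivAt {F : Type*} [NormedAddCommGroup F] [NormedSpace ℝ F] {s : Set ℝ}
    (hs : IsOpen s) {g : ℝ → F} (hg : ContDiffOn ℝ ∞ g s) {τ : ℝ} (hτ : τ ∈ s) :
    HasDerivAt g (deriv g τ) τ :=
  (((contDiffOn_infty_iff_deriv_of_isOpen hs).1 hg).1 τ hτ).differentiableAt
    (hs.mem_nhds hτ) |>.hasDerivAt

/-! ### the class `C0` -/

/-- smooth curves with values in `C([0,y0],ℝ)` -/
def C0 (s : Set ℝ) (y0 : ℝ) (f : ℝ → ℝ → ℝ) : Prop :=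
  ∃ g : ℝ → C(Icc (0 : ℝ) y0, ℝ), ContDiffOn ℝ ∞ g s ∧
    ∀ τ ∈ s, ∀ y : Icc (0 : ℝ) y0, f τ y = g τ y

variable {s : Set ℝ} {y0 : ℝ} {f g : ℝ → ℝ → ℝ}

theorem C0.congr (hf : C0 s y0 f) (h : ∀ τ ∈ s, ∀ y ∈ Icc 0 y0, g τ y = f τ y) : C0 s y0 g := by
  obtain ⟨G, hG, hfG⟩ := hf
  exact ⟨G, hG, fun τ hτ y => by rw [h τ hτ y y.2, hfG τ hτ y]⟩

/-- construction from a family of `τ`-derivatives -/
theorem C0.of_family (hs : IsOpen s) {U : ℕ → ℝ → ℝ → ℝ}
    (hc : ∀ j, ContinuousOn (fun p : ℝ × ℝ => U j p.1 p.2) (s ×ˢ Icc 0 y0))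
    (ht : ∀ j, ∀ τ ∈ s, ∀ y ∈ Icc 0 y0, HasDerivAt (fun r => U j r y) (U (j + 1) τ y) τ) :
    C0 s y0 (U 0) := by
  classical
  have hcx : ∀ j, ∀ τ ∈ s, Continuous (fun y : Icc (0 : ℝ) y0 => U j τ y) := by
    intro j τ hτ
    have := (hc j).comp (f := fun y : ℝ => (τ, y)) (s := Icc 0 y0)
      (by fun_prop) (fun y hy => ⟨hτ, hy⟩)
    exact this.domRestrict
  let G : ℕ → ℝ → C(Icc (0 : ℝ) y0, ℝ) := fun j τ =>
    if h : τ ∈ s then ⟨fun y => U j τ y, hcx j τ h⟩ else 0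
  have hG : ∀ j, ∀ τ ∈ s, ∀ y : Icc (0 : ℝ) y0, G j τ y = U j τ y := by
    intro j τ hτ y
    simp [G, hτ]
  have hGc : ∀ j, ContinuousOn (G j) s := by
    intro j
    rw [continuousOn_iff_continuous_domRestrict]
    have h1 : Continuous (fun p : s × Icc (0 : ℝ) y0 => U j p.1 p.2) := by
      have := (hc j).comp_continuous (f := fun p : s × Icc (0 : ℝ) y0 => ((p.1 : ℝ), (p.2 : ℝ)))
        (by fun_prop) (fun p => ⟨p.1.2, p.2.2⟩)
      exact this
    have h2 : s.domRestrict (G j) = fun τ => ContinuousMap.curry ⟨_, h1⟩ τ := by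
      funext τ
      ext y
      simp only [Set.domRestrict_apply]
      rw [hG j τ τ.2 y]
      rfl
    rw [h2]
    exact (ContinuousMap.curry ⟨_, h1⟩).continuous
  have hD : ∀ j, ∀ τ ∈ s, HasDerivAt (G j) (G (j + 1) τ) τ := by
    intro j τ hτ
    obtain ⟨ε, hε, hball⟩ := Metric.isOpen_iff.1 hs τ hτ
    have hsub : ∀ σ ∈ Metric.ball τ ε, uIcc τ σ ⊆ s := by
      intro σ hσ
      refine (Convex.ordConnected (convex_ball τ ε) |>.uIcc_subset
        (Metric.mem_ball_self hε) hσ).trans hball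
    have hint : ∀ σ ∈ Metric.ball τ ε, IntervalIntegrable (G (j + 1)) volume τ σ := fun σ hσ =>
      ((hGc (j + 1)).mono (hsub σ hσ)).intervalIntegrable
    have key : ∀ σ ∈ Metric.ball τ ε, G j σ = G j τ + ∫ r in τ..σ, G (j + 1) r := by
      intro σ hσ
      ext y
      have e1 : (∫ r in τ..σ, G (j + 1) r) y = ∫ r in τ..σ, (G (j + 1) r) y := by
        have := (ContinuousMap.evalCLM ℝ y).intervalIntegral_comp_comm (hint σ hσ)
        simpa using this.symm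
      have e2 : ∫ r in τ..σ, (G (j + 1) r) y = ∫ r in τ..σ, U (j + 1) r y :=
        intervalIntegral.integral_congr fun r hr => hG (j + 1) r (hsub σ hσ hr) y
      have e3 : ∫ r in τ..σ, U (j + 1) r y = U j σ y - U j τ y := by
        refine intervalIntegral.integral_eq_sub_of_hasDerivAt
          (fun r hr => ht j r (hsub σ hσ hr) y y.2) ?_
        refine ContinuousOn.intervalIntegrable ?_
        refine ((hc (j + 1)).comp (f := fun r : ℝ => (r, (y : ℝ))) (s := s)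
          (by fun_prop) (fun r hr => ⟨hr, y.2⟩)).mono (hsub σ hσ)
      rw [ContinuousMap.add_apply, e1, e2, e3, hG j σ (hball hσ) y, hG j τ hτ y]
      ring
    have h3 : HasDerivAt (fun σ => G j τ + ∫ r in τ..σ, G (j + 1) r) (G (j + 1) τ) τ := by
      refine HasDerivAt.const_add _ ?_
      refine intervalIntegral.integral_hasDerivAt_right (by simp) ?_
        ((hGc (j + 1)).continuousAt (hs.mem_nhds hτ))
      exact (hGc (j + 1)).stronglyMeasurableAtFilter hs τ hτ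
    exact h3.congr_of_eventuallyEq
      (Filter.eventually_of_mem (Metric.ball_mem_nhds τ hε) key)
  exact ⟨G 0, contDiffOn_of_tower hs hD 0, fun τ hτ y => (hG 0 τ hτ y).symm⟩

theorem C0.hasDerivAt (hs : IsOpen s) (hf : C0 s y0 f) {τ : ℝ} (hτ : τ ∈ s) {y : ℝ}
    (hy : y ∈ Icc 0 y0) : HasDerivAt (fun r => f r y) (dt f τ y) τ := by
  obtain ⟨G, hG, hfG⟩ := hf
  have h1 := (ContinuousMap.evalCLM ℝ (⟨y, hy⟩ : Icc (0 : ℝ) y0)).hasFDerivAt.comp_hasDerivAt τ
    (smoothCurve_hasDerivAt hs hG hτ)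
  have h2 : HasDerivAt (fun r => f r y) (deriv G τ ⟨y, hy⟩) τ := by
    refine h1.congr_of_eventuallyEq ?_
    filter_upwards [hs.mem_nhds hτ] with r hr
    rw [hfG r hr ⟨y, hy⟩]
    rfl
  have h3 : dt f τ y = deriv G τ ⟨y, hy⟩ := h2.deriv
  rwa [h3]

theorem C0.dt_eq (hs : IsOpen s) {G : ℝ → C(Icc (0 : ℝ) y0, ℝ)} (hG : ContDiffOn ℝ ∞ G s)
    (hfG : ∀ τ ∈ s, ∀ y : Icc (0 : ℝ) y0, f τ y = G τ y) {τ : ℝ} (hτ : τ ∈ s)
    (y : Icc (0 : ℝ) y0) : dt f τ y = deriv G τ y := by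
  have h1 := (ContinuousMap.evalCLM ℝ y).hasFDerivAt.comp_hasDerivAt τ
    (smoothCurve_hasDerivAt hs hG hτ)
  have h2 : HasDerivAt (fun r => f r y) (deriv G τ y) τ := by
    refine h1.congr_of_eventuallyEq ?_
    filter_upwards [hs.mem_nhds hτ] with r hr
    rw [hfG r hr y]
    rfl
  exact h2.deriv

theorem C0.dt (hs : IsOpen s) (hf : C0 s y0 f) : C0 s y0 (dt f) := by
  obtain ⟨G, hG, hfG⟩ := hf
  exact ⟨deriv G, smoothCurve_deriv hs hG, fun τ hτ y => C0.dt_eq hs hG hfG hτ y⟩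

theorem C0.continuousOn (hf : C0 s y0 f) :
    ContinuousOn (fun p : ℝ × ℝ => f p.1 p.2) (s ×ˢ Icc 0 y0) := by
  obtain ⟨G, hG, hfG⟩ := hf
  rw [continuousOn_iff_continuous_domRestrict]
  have h1 : Continuous (fun p : ↥(s ×ˢ Icc (0 : ℝ) y0) => G p.1.1 ⟨p.1.2, p.2.2⟩) := by
    have h2 : Continuous (fun p : ↥(s ×ˢ Icc (0 : ℝ) y0) => G p.1.1) := by
      have := continuousOn_iff_continuous_domRestrict.1 hG.continuousOn
      exact this.comp (f := fun p : ↥(s ×ˢ Icc (0 : ℝ) y0) => (⟨p.1.1, p.2.1⟩ : s)) (by fun_prop)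
    have h3 : Continuous (fun p : ↥(s ×ˢ Icc (0 : ℝ) y0) =>
        (⟨p.1.2, p.2.2⟩ : Icc (0 : ℝ) y0)) := by fun_prop
    exact continuous_eval.comp (h2.prodMk h3)
  refine h1.congr fun p => ?_
  exact (hfG p.1.1 p.2.1 ⟨p.1.2, p.2.2⟩).symm

theorem C0.continuousOn_right (hf : C0 s y0 f) {τ : ℝ} (hτ : τ ∈ s) :
    ContinuousOn (f τ) (Icc 0 y0) :=
  (hf.continuousOn.comp (f := fun y : ℝ => (τ, y)) (s := Icc 0 y0)
      (by fun_prop) (fun y hy => ⟨hτ, hy⟩))

theorem C0.add (hf : C0 s y0 f) (hg : C0 s y0 g) : C0 s y0 (fun τ y => f τ y + g τ y) := by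
  obtain ⟨F, hF, hfF⟩ := hf
  obtain ⟨G, hG, hgG⟩ := hg
  exact ⟨fun τ => F τ + G τ, hF.add hG, fun τ hτ y => by simp [hfF τ hτ y, hgG τ hτ y]⟩

theorem C0.mul (hf : C0 s y0 f) (hg : C0 s y0 g) : C0 s y0 (fun τ y => f τ y * g τ y) := by
  obtain ⟨F, hF, hfF⟩ := hf
  obtain ⟨G, hG, hgG⟩ := hg
  exact ⟨fun τ => F τ * G τ, hF.mul hG, fun τ hτ y => by simp [hfF τ hτ y, hgG τ hτ y]⟩

theorem C0.of_left {c : ℝ → ℝ} (hc : ContDiffOn ℝ ∞ c s) : C0 s y0 (fun τ _ => c τ) := by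
  refine ⟨fun τ => algebraMap ℝ C(Icc (0 : ℝ) y0, ℝ) (c τ), ?_, fun τ _ y => by simp⟩
  exact (Algebra.linearMap ℝ C(Icc (0 : ℝ) y0, ℝ)).toContinuousLinearMap.contDiff.comp_contDiffOn hc

theorem C0.of_right {c : ℝ → ℝ} (hc : ContinuousOn c (Icc 0 y0)) : C0 s y0 (fun _ y => c y) :=
  ⟨fun _ => ⟨fun y => c y, hc.domRestrict⟩, contDiffOn_const, fun _ _ _ => rfl⟩

theorem C0.const (c : ℝ) : C0 s y0 (fun _ _ => c) := C0.of_left contDiffOn_const

theorem C0.neg (hf : C0 s y0 f) : C0 s y0 (fun τ y => - f τ y) :=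
  ((C0.const (-1)).mul hf).congr fun τ _ y _ => by ring

theorem C0.sub (hf : C0 s y0 f) (hg : C0 s y0 g) : C0 s y0 (fun τ y => f τ y - g τ y) :=
  (hf.add hg.neg).congr fun τ _ y _ => by ring

theorem C0.inv (hf : C0 s y0 f) (h0 : ∀ τ ∈ s, ∀ y ∈ Icc 0 y0, f τ y ≠ 0) :
    C0 s y0 (fun τ y => (f τ y)⁻¹) := by
  obtain ⟨F, hF, hfF⟩ := hf
  have hu : ∀ τ ∈ s, IsUnit (F τ) := by
    intro τ hτ
    rw [ContinuousMap.isUnit_iff_forall_ne_zero]
    intro y
    rw [← hfF τ hτ y]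
    exact h0 τ hτ y y.2
  refine ⟨fun τ => Ring.inverse (F τ), ?_, fun τ hτ y => ?_⟩
  · intro τ hτ
    obtain ⟨u, hu'⟩ := hu τ hτ
    have h1 : ContDiffAt ℝ ∞ Ring.inverse (F τ) := by
      rw [← hu']
      exact contDiffAt_ringInverse ℝ u
    exact h1.comp_contDiffWithinAt τ (hF τ hτ)
  · have h1 : Ring.inverse (F τ) * F τ = 1 := Ring.inverse_mul_cancel _ (hu τ hτ)
    have h2 : Ring.inverse (F τ) y * F τ y = 1 := by
      have := congrArg (fun k : C(Icc (0 : ℝ) y0, ℝ) => k y) h1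
      simpa using this
    change (f τ y)⁻¹ = Ring.inverse (F τ) y
    rw [hfF τ hτ y]
    exact (eq_inv_of_mul_eq_one_left h2).symm

/-! ### extension of elements of `C([0,y0],ℝ)` and integral operators -/

/-- continuous extension to `ℝ` -/
def extC (h0 : 0 ≤ y0) (g : C(Icc (0 : ℝ) y0, ℝ)) : ℝ → ℝ := IccExtend h0 g

theorem continuous_extC (h0 : 0 ≤ y0) (g : C(Icc (0 : ℝ) y0, ℝ)) : Continuous (extC h0 g) :=
  g.continuous.Icc_extend'

theorem extC_of_mem (h0 : 0 ≤ y0) (g : C(Icc (0 : ℝ) y0, ℝ)) {y : ℝ} (hy : y ∈ Icc 0 y0) :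
    extC h0 g y = g ⟨y, hy⟩ := IccExtend_of_mem h0 g hy

theorem extC_coe (h0 : 0 ≤ y0) (g : C(Icc (0 : ℝ) y0, ℝ)) (y : Icc (0 : ℝ) y0) :
    extC h0 g y = g y := extC_of_mem h0 g y.2

theorem abs_extC_le (h0 : 0 ≤ y0) (g : C(Icc (0 : ℝ) y0, ℝ)) (y : ℝ) : |extC h0 g y| ≤ ‖g‖ :=
  g.norm_coe_le_norm _

theorem extC_add (h0 : 0 ≤ y0) (g k : C(Icc (0 : ℝ) y0, ℝ)) (y : ℝ) :
    extC h0 (g + k) y = extC h0 g y + extC h0 k y := rfl

theorem extC_smul (h0 : 0 ≤ y0) (c : ℝ) (g : C(Icc (0 : ℝ) y0, ℝ)) (y : ℝ) :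
    extC h0 (c • g) y = c * extC h0 g y := rfl

/-- operators on `C([0,y0],ℝ)` -/
def mkOp (h0 : 0 ≤ y0) (T : (ℝ → ℝ) → ℝ → ℝ) (C : ℝ)
    (hcont : ∀ g, Continuous g → Continuous (T g))
    (hadd : ∀ g k, Continuous g → Continuous k → ∀ y, T (fun t => g t + k t) y = T g y + T k y)
    (hsmul : ∀ (c : ℝ) g, Continuous g → ∀ y, T (fun t => c * g t) y = c * T g y)
    (hbd : ∀ g, Continuous g → ∀ B : ℝ, 0 ≤ B → (∀ t, |g t| ≤ B) →
      ∀ y ∈ Icc 0 y0, |T g y| ≤ C * B) (hC : 0 ≤ C) :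
    C(Icc (0 : ℝ) y0, ℝ) →L[ℝ] C(Icc (0 : ℝ) y0, ℝ) :=
  LinearMap.mkContinuous
    { toFun := fun g => ⟨fun y => T (extC h0 g) y, (hcont _ (continuous_extC h0 g)).comp
        continuous_subtype_val⟩
      map_add' := fun g k => by
        ext y
        exact hadd _ _ (continuous_extC h0 g) (continuous_extC h0 k) y
      map_smul' := fun c g => by
        ext y
        exact hsmul c _ (continuous_extC h0 g) y } C
    (fun g => by
      rw [ContinuousMap.norm_le _ (mul_nonneg hC (norm_nonneg g))]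
      intro y
      exact hbd _ (continuous_extC h0 g) ‖g‖ (norm_nonneg g) (abs_extC_le h0 g) y y.2)

theorem C0.of_op (h0 : 0 ≤ y0) (T : (ℝ → ℝ) → ℝ → ℝ) (C : ℝ)
    (hcont : ∀ g, Continuous g → Continuous (T g))
    (hadd : ∀ g k, Continuous g → Continuous k → ∀ y, T (fun t => g t + k t) y = T g y + T k y)
    (hsmul : ∀ (c : ℝ) g, Continuous g → ∀ y, T (fun t => c * g t) y = c * T g y)
    (hbd : ∀ g, Continuous g → ∀ B : ℝ, 0 ≤ B → (∀ t, |g t| ≤ B) →
      ∀ y ∈ Icc 0 y0, |T g y| ≤ C * B) (hC : 0 ≤ C)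
    (hT : ∀ g k : ℝ → ℝ, (∀ y ∈ Icc 0 y0, g y = k y) → ∀ y ∈ Icc 0 y0, T g y = T k y)
    (hf : C0 s y0 f) : C0 s y0 (fun τ y => T (f τ) y) := by
  obtain ⟨F, hF, hfF⟩ := hf
  refine ⟨fun τ => mkOp h0 T C hcont hadd hsmul hbd hC (F τ),
    (mkOp h0 T C hcont hadd hsmul hbd hC).contDiff.comp_contDiffOn hF, fun τ hτ y => ?_⟩
  refine hT _ _ (fun z hz => ?_) y y.2
  rw [extC_of_mem h0 _ hz, ← hfF τ hτ ⟨z, hz⟩]

/-- primitive from `y1` -/
theorem C0.prim (h0 : 0 ≤ y0) {y1 : ℝ} (hy1 : y1 ∈ Icc 0 y0) (hf : C0 s y0 f) :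
    C0 s y0 (fun τ y => ∫ t in y1..y, f τ t) := by
  refine C0.of_op h0 (fun g y => ∫ t in y1..y, g t) y0 ?_ ?_ ?_ ?_ h0 ?_ hf
  · intro g hg
    exact intervalIntegral.continuous_primitive (fun a b => hg.intervalIntegrable a b) y1
  · intro g k hg hk y
    exact intervalIntegral.integral_add (hg.intervalIntegrable _ _) (hk.intervalIntegrable _ _)
  · intro c g hg y
    exact intervalIntegral.integral_const_mul c g
  · intro g hg B hB hgB y hy
    have := intervalIntegral.norm_integral_le_of_norm_le_const (a := y1) (b := y) (f := g) (C := B)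
      (fun t _ => hgB t)
    have h2 : |y - y1| ≤ y0 := by
      rw [abs_le]; constructor <;> linarith [hy.1, hy.2, hy1.1, hy1.2]
    calc |∫ t in y1..y, g t| ≤ B * |y - y1| := this
      _ ≤ B * y0 := mul_le_mul_of_nonneg_left h2 hB
      _ = y0 * B := mul_comm _ _
  · intro g k hgk y hy
    refine intervalIntegral.integral_congr fun t ht => hgk t ?_
    exact (Set.uIcc_subset_Icc hy1 hy) ht

/-- `M_N f (y) = ∫₀¹ (1-r) r^N f(r y) dr` -/
def MN (N : ℕ) (f : ℝ → ℝ) (y : ℝ) : ℝ := ∫ r in (0 : ℝ)..1, (1 - r) * r ^ N * f (r * y)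

theorem C0.MN (h0 : 0 ≤ y0) (N : ℕ) (hf : C0 s y0 f) :
    C0 s y0 (fun τ y => MN N (f τ) y) := by
  refine C0.of_op h0 (fun g y => R213.MN N g y) 1 ?_ ?_ ?_ ?_ zero_le_one ?_ hf
  · intro g hg
    unfold R213.MN
    refine intervalIntegral.continuous_parametric_intervalIntegral_of_continuous' ?_ 0 1
    fun_prop
  · intro g k hg hk y
    unfold R213.MN
    rw [← intervalIntegral.integral_add]
    · refine intervalIntegral.integral_congr fun r _ => ?_
      ring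
    · exact Continuous.intervalIntegrable (by fun_prop) _ _
    · exact Continuous.intervalIntegrable (by fun_prop) _ _
  · intro c g hg y
    unfold R213.MN
    rw [← intervalIntegral.integral_const_mul]
    refine intervalIntegral.integral_congr fun r _ => ?_
    ring
  · intro g hg B hB hgB y hy
    unfold R213.MN
    have := intervalIntegral.norm_integral_le_of_norm_le_const (a := (0 : ℝ)) (b := 1)
      (f := fun r => (1 - r) * r ^ N * g (r * y)) (C := B) (fun r hr => ?_)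
    · simpa using this
    · rw [uIoc_of_le zero_le_one] at hr
      rw [Real.norm_eq_abs, abs_mul, abs_mul, abs_of_nonneg (by linarith [hr.2] : 0 ≤ 1 - r),
        abs_of_nonneg (pow_nonneg hr.1.le N)]
      have h1 : (1 - r) * r ^ N ≤ 1 := by
        have := pow_le_one₀ (n := N) hr.1.le hr.2
        nlinarith [pow_nonneg hr.1.le N, hr.1, hr.2]
      have h2 : 0 ≤ (1 - r) * r ^ N := mul_nonneg (by linarith [hr.2]) (pow_nonneg hr.1.le N)
      calc (1 - r) * r ^ N * |g (r * y)| ≤ 1 * B := mul_le_mul h1 (hgB _) (abs_nonneg _) zero_le_one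
        _ = B := one_mul B
  · intro g k hgk y hy
    unfold R213.MN
    refine intervalIntegral.integral_congr fun r hr => ?_
    rw [uIcc_of_le zero_le_one] at hr
    rw [hgk (r * y) ⟨mul_nonneg hr.1 hy.1, ?_⟩]
    nlinarith [hr.1, hr.2, hy.1, hy.2]

/-! ### fundamental theorem on `[0,y0]` -/

theorem hasDerivWithinAt_prim {h : ℝ → ℝ} {y1 y : ℝ} (hh : ContinuousOn h (Icc 0 y0))
    (hy1 : y1 ∈ Icc 0 y0) (hy : y ∈ Icc 0 y0) :
    HasDerivWithinAt (fun z => ∫ t in y1..z, h t) (h y) (Icc 0 y0) y := by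
  have : Fact (y ∈ Icc 0 y0) := ⟨hy⟩
  refine intervalIntegral.integral_hasDerivWithinAt_right ?_ ?_ (hh y hy)
  · exact (hh.mono (Set.uIcc_subset_Icc hy1 hy)).intervalIntegrable
  · exact hh.stronglyMeasurableAtFilter_nhdsWithin measurableSet_Icc y

theorem eq_add_prim {h h1 : ℝ → ℝ} {y1 y : ℝ} (hh1 : ContinuousOn h1 (Icc 0 y0))
    (hd : ∀ z ∈ Icc 0 y0, HasDerivWithinAt h (h1 z) (Icc 0 y0) z)
    (hy1 : y1 ∈ Icc 0 y0) (hy : y ∈ Icc 0 y0) : h y = h y1 + ∫ t in y1..y, h1 t := by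
  have hsub := Set.uIcc_subset_Icc hy1 hy
  have h2 : ∫ t in y1..y, h1 t = h y - h y1 := by
    refine intervalIntegral.integral_eq_sub_of_hasDeriv_right ?_ ?_ ?_
    · exact fun z hz => ((hd z (hsub hz)).continuousWithinAt).mono hsub
    · intro z hz
      have hz' : z ∈ Ioo (min y1 y) (max y1 y) := hz
      have hz2 : z ∈ Ioo (0 : ℝ) y0 := by
        constructor
        · exact lt_of_le_of_lt (le_min hy1.1 hy.1) hz'.1
        · exact lt_of_lt_of_le hz'.2 (max_le hy1.2 hy.2)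
      have := (hd z (Ioo_subset_Icc_self hz2)).hasDerivAt (Icc_mem_nhds hz2.1 hz2.2)
      exact this.hasDerivWithinAt
    · exact (hh1.mono hsub).intervalIntegrable
  rw [h2]; ring

/-! ### pairs (function, `x`-derivative) -/

/-- `g1` is the `x`-derivative of `g`, both of class `C0` -/
structure CPair (s : Set ℝ) (y0 : ℝ) (g g1 : ℝ → ℝ → ℝ) : Prop where
  c0 : C0 s y0 g
  c1 : C0 s y0 g1
  d : ∀ τ ∈ s, ∀ y ∈ Icc 0 y0, HasDerivWithinAt (g τ) (g1 τ y) (Icc 0 y0) y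

/-- the primitive operator on `C([0,y0],ℝ)` -/
def primOp (h0 : 0 ≤ y0) : C(Icc (0 : ℝ) y0, ℝ) →L[ℝ] C(Icc (0 : ℝ) y0, ℝ) :=
  mkOp h0 (fun g y => ∫ t in (0 : ℝ)..y, g t) y0
    (fun _ hg => intervalIntegral.continuous_primitive (fun a b => hg.intervalIntegrable a b) 0)
    (fun _ _ hg hk _ =>
      intervalIntegral.integral_add (hg.intervalIntegrable _ _) (hk.intervalIntegrable _ _))
    (fun c g _ _ => intervalIntegral.integral_const_mul c g)
    (fun g _ B hB hgB y hy => by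
      have := intervalIntegral.norm_integral_le_of_norm_le_const (a := (0 : ℝ)) (b := y) (f := g)
        (C := B) (fun t _ => hgB t)
      have h2 : |y - 0| ≤ y0 := by
        rw [sub_zero, abs_of_nonneg hy.1]; exact hy.2
      calc |∫ t in (0 : ℝ)..y, g t| ≤ B * |y - 0| := this
        _ ≤ B * y0 := mul_le_mul_of_nonneg_left h2 hB
        _ = y0 * B := mul_comm _ _) h0

theorem primOp_apply (h0 : 0 ≤ y0) (g : C(Icc (0 : ℝ) y0, ℝ)) (y : Icc (0 : ℝ) y0) :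
    primOp h0 g y = ∫ t in (0 : ℝ)..y, extC h0 g t := rfl

theorem CPair.dt (hs : IsOpen s) (h0 : 0 ≤ y0) {g g1 : ℝ → ℝ → ℝ} (h : CPair s y0 g g1) :
    CPair s y0 (dt g) (dt g1) := by
  refine ⟨h.c0.dt hs, h.c1.dt hs, fun τ hτ y hy => ?_⟩
  obtain ⟨G, hG, hgG⟩ := h.c0
  obtain ⟨G1, hG1, hgG1⟩ := h.c1
  have m0 : (0 : ℝ) ∈ Icc 0 y0 := ⟨le_rfl, h0⟩
  have rel : ∀ r ∈ s, G r = algebraMap ℝ C(Icc (0 : ℝ) y0, ℝ) (G r ⟨0, m0⟩) + primOp h0 (G1 r) := by
    intro r hr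
    ext z
    rw [ContinuousMap.add_apply, primOp_apply, ← hgG r hr z]
    have h2 := eq_add_prim (h.c1.continuousOn_right hr) (h.d r hr) m0 z.2
    have h3 : ∫ t in (0 : ℝ)..z, g1 r t = ∫ t in (0 : ℝ)..z, extC h0 (G1 r) t := by
      refine intervalIntegral.integral_congr fun t ht => ?_
      have ht' := Set.uIcc_subset_Icc m0 z.2 ht
      rw [extC_of_mem h0 _ ht', ← hgG1 r hr ⟨t, ht'⟩]
    rw [h2, h3, ← hgG r hr ⟨0, m0⟩]
    simp
  have d1 := smoothCurve_hasDerivAt hs hG hτ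
  have d2 := smoothCurve_hasDerivAt hs hG1 hτ
  have d3 : HasDerivAt (fun r => algebraMap ℝ C(Icc (0 : ℝ) y0, ℝ) (G r ⟨0, m0⟩) +
      primOp h0 (G1 r))
      (algebraMap ℝ C(Icc (0 : ℝ) y0, ℝ) (deriv G τ ⟨0, m0⟩) + primOp h0 (deriv G1 τ)) τ := by
    refine HasDerivAt.add ?_ ?_
    · have e1 := (ContinuousMap.evalCLM ℝ (⟨0, m0⟩ : Icc (0 : ℝ) y0)).hasFDerivAt.comp_hasDerivAt τ d1
      exact (Algebra.linearMap ℝ C(Icc (0 : ℝ) y0, ℝ)).toContinuousLinearMap.hasFDerivAt.comp_hasDerivAt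
        τ e1
    · exact (primOp h0).hasFDerivAt.comp_hasDerivAt τ d2
  have rel' : deriv G τ = algebraMap ℝ C(Icc (0 : ℝ) y0, ℝ) (deriv G τ ⟨0, m0⟩) +
      primOp h0 (deriv G1 τ) := by
    have h4 : HasDerivAt G (algebraMap ℝ C(Icc (0 : ℝ) y0, ℝ) (deriv G τ ⟨0, m0⟩) +
      primOp h0 (deriv G1 τ)) τ := by
      refine d3.congr_of_eventuallyEq ?_
      filter_upwards [hs.mem_nhds hτ] with r hr using rel r hr
    exact h4.deriv
  have e0 : ∀ z ∈ Icc 0 y0, R213.dt g τ z = deriv G τ ⟨0, m0⟩ +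
      ∫ t in (0 : ℝ)..z, extC h0 (deriv G1 τ) t := by
    intro z hz
    have h5 := C0.dt_eq hs hG hgG hτ ⟨z, hz⟩
    have h6 := congrArg (fun k : C(Icc (0 : ℝ) y0, ℝ) => k ⟨z, hz⟩) rel'
    simp only [ContinuousMap.add_apply, primOp_apply] at h6
    rw [show R213.dt g τ z = deriv G τ ⟨z, hz⟩ from h5, h6]
    simp
  have e1 : R213.dt g1 τ y = extC h0 (deriv G1 τ) y := by
    rw [extC_of_mem h0 _ hy]
    exact C0.dt_eq hs hG1 hgG1 hτ ⟨y, hy⟩
  rw [e1]
  have h7 := (hasDerivWithinAt_prim (continuous_extC h0 (deriv G1 τ)).continuousOn m0 hy).const_add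
    (deriv G τ ⟨0, m0⟩)
  exact h7.congr e0 (e0 y hy)

/-! ### the classes `CK` -/

/-- all `τ`-derivatives of all `x`-derivatives of order `≤ k` are continuous up to the boundary -/
def CK (s : Set ℝ) (y0 : ℝ) : ℕ → (ℝ → ℝ → ℝ) → Prop
  | 0, f => C0 s y0 f
  | (k + 1), f => C0 s y0 f ∧ ∃ f1, CK s y0 k f1 ∧
      ∀ τ ∈ s, ∀ y ∈ Icc 0 y0, HasDerivWithinAt (f τ) (f1 τ y) (Icc 0 y0) y

theorem CK.c0 {k : ℕ} (h : CK s y0 k f) : C0 s y0 f := by
  cases k with
  | zero => exact h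
  | succ k => exact h.1

theorem CK.congr {k : ℕ} (hf : CK s y0 k f) (h : ∀ τ ∈ s, ∀ y ∈ Icc 0 y0, g τ y = f τ y) :
    CK s y0 k g := by
  cases k with
  | zero => exact C0.congr hf h
  | succ k =>
    obtain ⟨h1, f1, h2, h3⟩ := hf
    exact ⟨h1.congr h, f1, h2, fun τ hτ y hy => (h3 τ hτ y hy).congr (h τ hτ) (h τ hτ y hy)⟩

theorem CK.pred {k : ℕ} (hf : CK s y0 (k + 1) f) : CK s y0 k f := by
  induction k generalizing f with
  | zero => exact hf.1
  | succ k ih =>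
    obtain ⟨h1, f1, h2, h3⟩ := hf
    exact ⟨h1, f1, ih h2, h3⟩

theorem CK.mono {k l : ℕ} (hkl : l ≤ k) (hf : CK s y0 k f) : CK s y0 l f := by
  induction k, hkl using Nat.le_induction with
  | base => exact hf
  | succ k _ ih => exact ih hf.pred

theorem CK.add {k : ℕ} (hf : CK s y0 k f) (hg : CK s y0 k g) :
    CK s y0 k (fun τ y => f τ y + g τ y) := by
  induction k generalizing f g with
  | zero => exact C0.add hf hg
  | succ k ih =>
    obtain ⟨a1, f1, a2, a3⟩ := hf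
    obtain ⟨b1, g1, b2, b3⟩ := hg
    exact ⟨a1.add b1, _, ih a2 b2, fun τ hτ y hy => (a3 τ hτ y hy).add (b3 τ hτ y hy)⟩

theorem CK.mul {k : ℕ} (hf : CK s y0 k f) (hg : CK s y0 k g) :
    CK s y0 k (fun τ y => f τ y * g τ y) := by
  induction k generalizing f g with
  | zero => exact C0.mul hf hg
  | succ k ih =>
    have hf' := hf.pred
    have hg' := hg.pred
    obtain ⟨a1, f1, a2, a3⟩ := hf
    obtain ⟨b1, g1, b2, b3⟩ := hg
    exact ⟨a1.mul b1, _, (ih a2 hg').add (ih hf' b2),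
      fun τ hτ y hy => (a3 τ hτ y hy).mul (b3 τ hτ y hy)⟩

theorem CK.of_left {c : ℝ → ℝ} (hc : ContDiffOn ℝ ∞ c s) (k : ℕ) :
    CK s y0 k (fun τ _ => c τ) := by
  induction k generalizing c with
  | zero => exact C0.of_left hc
  | succ k ih =>
    exact ⟨C0.of_left hc, fun _ _ => 0, ih contDiffOn_const,
      fun _ _ _ _ => hasDerivWithinAt_const _ _ _⟩

theorem CK.const (c : ℝ) (k : ℕ) : CK s y0 k (fun _ _ => c) := CK.of_left contDiffOn_const k

theorem CK.neg {k : ℕ} (hf : CK s y0 k f) : CK s y0 k (fun τ y => - f τ y) :=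
  ((CK.const (-1) k).mul hf).congr fun τ _ y _ => by ring

theorem CK.sub {k : ℕ} (hf : CK s y0 k f) (hg : CK s y0 k g) :
    CK s y0 k (fun τ y => f τ y - g τ y) :=
  (hf.add hg.neg).congr fun τ _ y _ => by ring

theorem CK.inv {k : ℕ} (hf : CK s y0 k f) (h0 : ∀ τ ∈ s, ∀ y ∈ Icc 0 y0, f τ y ≠ 0) :
    CK s y0 k (fun τ y => (f τ y)⁻¹) := by
  induction k generalizing f with
  | zero => exact C0.inv hf h0
  | succ k ih =>
    have hf' := ih hf.pred h0
    obtain ⟨a1, f1, a2, a3⟩ := hf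
    refine ⟨a1.inv h0, _, a2.neg.mul (hf'.mul hf'), fun τ hτ y hy => ?_⟩
    have := (a3 τ hτ y hy).fun_inv (h0 τ hτ y hy)
    have e : -f1 τ y / f τ y ^ 2 = -f1 τ y * ((f τ y)⁻¹ * (f τ y)⁻¹) := by
      rw [div_eq_mul_inv, sq, mul_inv]
    rw [e] at this
    exact this

theorem CK.of_sm (hs : IsOpen s) (h0 : 0 < y0) (hf : Sm s y0 f) (k : ℕ) : CK s y0 k f := by
  have key : ∀ f, Sm s y0 f → C0 s y0 f := by
    intro f hf
    have h1 := C0.of_family hs (U := fun j => R213.dt^[j] f)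
      (fun j => (hf.dt_iter hs h0 j).continuousOn) (fun j τ hτ y hy => ?_)
    · exact h1
    · rw [Function.iterate_succ_apply']
      exact (hf.dt_iter hs h0 j).hasDt hs hτ hy
  induction k generalizing f with
  | zero => exact key f hf
  | succ k ih =>
    exact ⟨key f hf, R213.dx y0 f, ih (hf.dx hs h0), fun τ hτ y hy => hf.hasDx h0 hτ hy⟩

theorem CK.dt {k : ℕ} (hs : IsOpen s) (h0 : 0 ≤ y0) (hf : CK s y0 k f) : CK s y0 k (dt f) := by
  induction k generalizing f with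
  | zero => exact C0.dt hs hf
  | succ k ih =>
    obtain ⟨a1, f1, a2, a3⟩ := hf
    have hp : CPair s y0 f f1 := ⟨a1, a2.c0, a3⟩
    exact ⟨a1.dt hs, _, ih a2, (hp.dt hs h0).d⟩

theorem CK.dx {k : ℕ} (h0 : 0 < y0) (hf : CK s y0 (k + 1) f) : CK s y0 k (dx y0 f) := by
  obtain ⟨a1, f1, a2, a3⟩ := hf
  exact a2.congr fun τ hτ y hy => (a3 τ hτ y hy).derivWithin (uniqueDiffOn_Icc h0 y hy)

theorem CK.hasDx {k : ℕ} (h0 : 0 < y0) (hf : CK s y0 (k + 1) f) {τ y : ℝ} (hτ : τ ∈ s)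
    (hy : y ∈ Icc 0 y0) : HasDerivWithinAt (f τ) (R213.dx y0 f τ y) (Icc 0 y0) y := by
  obtain ⟨a1, f1, a2, a3⟩ := hf
  have := a3 τ hτ y hy
  rwa [← (a3 τ hτ y hy).derivWithin (uniqueDiffOn_Icc h0 y hy)] at this

theorem sm_of_CK {a b : ℝ} (h0 : 0 < y0) (hf : ∀ k, CK (Ioo a b) y0 k f) : Sm (Ioo a b) y0 f := by
  have hs : IsOpen (Ioo a b) := isOpen_Ioo
  have hj : ∀ j k, CK (Ioo a b) y0 k ((dx y0)^[j] f) := by
    intro j
    induction j with
    | zero => exact hf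
    | succ j ih =>
      intro k
      rw [Function.iterate_succ_apply']
      exact CK.dx h0 (ih (k + 1))
  have hp : ∀ i j, CPair (Ioo a b) y0 (R213.dt^[i] ((dx y0)^[j] f))
      (R213.dt^[i] ((dx y0)^[j + 1] f)) := by
    intro i j
    induction i with
    | zero =>
      refine ⟨(hj j 0).c0, (hj (j + 1) 0).c0, fun τ hτ y hy => ?_⟩
      simp only [Function.iterate_zero, id]
      rw [Function.iterate_succ_apply']
      exact CK.hasDx h0 (hj j 1) hτ hy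
    | succ i ih =>
      rw [Function.iterate_succ_apply', Function.iterate_succ_apply']
      exact ih.dt hs h0.le
  refine J1.sm_of_mixed h0 (fun i j => R213.dt^[i] ((dx y0)^[j] f))
    (fun i j => (hp i j).c0.continuousOn) (fun i j t ht x hx => ?_) (fun i j t ht x hx => ?_)
  · rw [Function.iterate_succ_apply']
    exact (hp i j).c0.hasDerivAt hs ht hx
  · exact (hp i j).d t ht x hx

theorem CK.prim {k : ℕ} (h0 : 0 ≤ y0) {y1 : ℝ} (hy1 : y1 ∈ Icc 0 y0) {c : ℝ → ℝ}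
    (hc : ContDiffOn ℝ ∞ c s) (hf : CK s y0 k f) :
    CK s y0 (k + 1) (fun τ y => c τ + ∫ t in y1..y, f τ t) :=
  ⟨(C0.of_left hc).add (hf.c0.prim h0 hy1), f, hf, fun _ hτ _ hy =>
    (hasDerivWithinAt_prim (hf.c0.continuousOn_right hτ) hy1 hy).const_add _⟩

theorem CK.of_right {c : ℝ → ℝ} (hc : ContDiff ℝ ∞ c) (k : ℕ) :
    CK s y0 k (fun _ y => c y) := by
  induction k generalizing c with
  | zero => exact C0.of_right hc.continuous.continuousOn
  | succ k ih =>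
    refine ⟨C0.of_right hc.continuous.continuousOn, fun _ y => deriv c y,
      ih (contDiff_infty_iff_deriv.1 hc).2, fun _ _ y _ => ?_⟩
    exact ((contDiff_infty_iff_deriv.1 hc).1 y).hasDerivAt.hasDerivWithinAt

/-! ### derivative of `M_N` -/

theorem MN_congr {h k : ℝ → ℝ} {N : ℕ} {y : ℝ} (hy : y ∈ Icc 0 y0)
    (e : ∀ z ∈ Icc 0 y0, h z = k z) : MN N h y = MN N k y := by
  unfold MN
  refine intervalIntegral.integral_congr fun r hr => ?_
  rw [uIcc_of_le zero_le_one] at hr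
  rw [e (r * y) ⟨mul_nonneg hr.1 hy.1, ?_⟩]
  nlinarith [hr.1, hr.2, hy.1, hy.2]

theorem hasDerivWithinAt_MN {h h1 : ℝ → ℝ} (N : ℕ) (h0 : 0 ≤ y0)
    (hh1 : ContinuousOn h1 (Icc 0 y0))
    (hd : ∀ z ∈ Icc 0 y0, HasDerivWithinAt h (h1 z) (Icc 0 y0) z) {y : ℝ} (hy : y ∈ Icc 0 y0) :
    HasDerivWithinAt (MN N h) (MN (N + 1) h1 y) (Icc 0 y0) y := by
  have m0 : (0 : ℝ) ∈ Icc 0 y0 := ⟨le_rfl, h0⟩
  set E1 : C(Icc (0 : ℝ) y0, ℝ) := ⟨fun z => h1 z, hh1.domRestrict⟩ with hE1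
  set e1 : ℝ → ℝ := extC h0 E1 with he1
  have e1c : Continuous e1 := continuous_extC h0 E1
  have e1eq : ∀ z ∈ Icc 0 y0, h1 z = e1 z := fun z hz => (extC_of_mem h0 E1 hz).symm
  have e1b : ∀ z, |e1 z| ≤ ‖E1‖ := abs_extC_le h0 E1
  set H : ℝ → ℝ := fun z => h 0 + ∫ t in (0 : ℝ)..z, e1 t with hH
  have Hd : ∀ z, HasDerivAt H (e1 z) z := fun z =>
    (intervalIntegral.integral_hasDerivAt_right (e1c.intervalIntegrable _ _)
      (e1c.stronglyMeasurableAtFilter _ _) e1c.continuousAt).const_add (h 0)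
  have Hc : Continuous H := continuous_iff_continuousAt.2 fun z => (Hd z).continuousAt
  have Heq : ∀ z ∈ Icc 0 y0, h z = H z := by
    intro z hz
    rw [eq_add_prim hh1 hd m0 hz, hH]
    simp only
    congr 1
    refine intervalIntegral.integral_congr fun t ht => ?_
    exact e1eq t (Set.uIcc_subset_Icc m0 hz ht)
  have key : HasDerivAt (MN N H) (MN (N + 1) e1 y) y := by
    have := (intervalIntegral.hasDerivAt_integral_of_dominated_loc_of_deriv_le (μ := volume)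
      (F := fun y r => (1 - r) * r ^ N * H (r * y))
      (F' := fun y r => (1 - r) * r ^ (N + 1) * e1 (r * y)) (x₀ := y) (s := univ)
      (a := (0 : ℝ)) (b := 1) (bound := fun _ => ‖E1‖) Filter.univ_mem
      (Filter.Eventually.of_forall fun z => ?_) ?_ ?_ ?_ ?_ ?_).2
    · exact this
    · exact (Continuous.aestronglyMeasurable (by fun_prop)).restrict
    · exact Continuous.intervalIntegrable (by fun_prop) _ _
    · exact (Continuous.aestronglyMeasurable (by fun_prop)).restrict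
    · refine Filter.Eventually.of_forall fun r hr z _ => ?_
      rw [uIoc_of_le zero_le_one] at hr
      rw [Real.norm_eq_abs, abs_mul, abs_mul, abs_of_nonneg (by linarith [hr.2] : 0 ≤ 1 - r),
        abs_of_nonneg (pow_nonneg hr.1.le _)]
      have h1 : (1 - r) * r ^ (N + 1) ≤ 1 := by
        have := pow_le_one₀ (n := N + 1) hr.1.le hr.2
        nlinarith [pow_nonneg hr.1.le (N + 1), hr.1, hr.2]
      calc (1 - r) * r ^ (N + 1) * |e1 (r * z)| ≤ 1 * ‖E1‖ :=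
            mul_le_mul h1 (e1b _) (abs_nonneg _) zero_le_one
        _ = ‖E1‖ := one_mul _
    · exact intervalIntegrable_const
    · refine Filter.Eventually.of_forall fun r _ z _ => ?_
      have h2 : HasDerivAt (fun z => H (r * z)) (e1 (r * z) * r) z := by
        have h3 : HasDerivAt (fun z : ℝ => r * z) r z := by
          simpa using (hasDerivAt_id z).const_mul r
        exact (Hd (r * z)).comp z h3
      have h4 := h2.const_mul ((1 - r) * r ^ N)
      have h5 : (1 - r) * r ^ N * (e1 (r * z) * r) = (1 - r) * r ^ (N + 1) * e1 (r * z) := by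
        ring
      rw [h5] at h4
      exact h4
  have e3 : MN (N + 1) h1 y = MN (N + 1) e1 y := MN_congr hy e1eq
  rw [e3]
  exact key.hasDerivWithinAt.congr (fun z hz => MN_congr hz Heq) (MN_congr hy Heq)

theorem CK.MN {k : ℕ} (h0 : 0 ≤ y0) (N : ℕ) (hf : CK s y0 k f) :
    CK s y0 k (fun τ y => MN N (f τ) y) := by
  induction k generalizing f N with
  | zero => exact C0.MN h0 N hf
  | succ k ih =>
    obtain ⟨a1, f1, a2, a3⟩ := hf
    exact ⟨C0.MN h0 N a1, _, ih (N + 1) a2, fun τ hτ y hy =>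
      hasDerivWithinAt_MN N h0 (a2.c0.continuousOn_right hτ) (a3 τ hτ) hy⟩

/-! ### double primitive -/

theorem double_prim_cont {h : ℝ → ℝ} (hh : Continuous h) (y1 y : ℝ) :
    ∫ t in y1..y, (y - t) * h t = ∫ t in y1..y, ∫ z in y1..t, h z := by
  have hI : ∀ z, HasDerivAt (fun z => ∫ t in y1..z, h t) (h z) z := fun z =>
    intervalIntegral.integral_hasDerivAt_right (hh.intervalIntegrable _ _)
      (hh.stronglyMeasurableAtFilter _ _) hh.continuousAt
  have hh2 : Continuous (fun t => t * h t) := by fun_prop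
  have hJ : ∀ z, HasDerivAt (fun z => ∫ t in y1..z, t * h t) (z * h z) z := fun z =>
    intervalIntegral.integral_hasDerivAt_right (hh2.intervalIntegrable _ _)
      (hh2.stronglyMeasurableAtFilter _ _) hh2.continuousAt
  have hIc : Continuous (fun z => ∫ t in y1..z, h t) :=
    continuous_iff_continuousAt.2 fun z => (hI z).continuousAt
  have hK : ∀ z, HasDerivAt (fun z => ∫ t in y1..z, ∫ w in y1..t, h w) (∫ t in y1..z, h t) z :=
    fun z => intervalIntegral.integral_hasDerivAt_right (hIc.intervalIntegrable _ _)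
      (hIc.stronglyMeasurableAtFilter _ _) hIc.continuousAt
  have e : ∀ z, ∫ t in y1..z, (z - t) * h t = z * (∫ t in y1..z, h t) - ∫ t in y1..z, t * h t := by
    intro z
    rw [← intervalIntegral.integral_const_mul, ← intervalIntegral.integral_sub]
    · refine intervalIntegral.integral_congr fun t _ => ?_
      ring
    · exact Continuous.intervalIntegrable (by fun_prop) _ _
    · exact hh2.intervalIntegrable _ _
  have hd : ∀ z, HasDerivAt (fun z => z * (∫ t in y1..z, h t) - (∫ t in y1..z, t * h t)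
      - ∫ t in y1..z, ∫ w in y1..t, h w) 0 z := by
    intro z
    have h1 := (((hasDerivAt_id' z).mul (hI z)).sub (hJ z)).sub (hK z)
    have h2 : 1 * (∫ t in y1..z, h t) + z * h z - z * h z - (∫ t in y1..z, h t) = 0 := by ring
    rw [h2] at h1
    exact h1
  have hconst := is_const_of_deriv_eq_zero (fun z => (hd z).differentiableAt)
    (fun z => (hd z).deriv) y y1
  simp only [intervalIntegral.integral_same, mul_zero, sub_zero] at hconst
  rw [e y]
  linarith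

theorem double_prim {h : ℝ → ℝ} (h0 : 0 ≤ y0) (hh : ContinuousOn h (Icc 0 y0)) {y1 y : ℝ}
    (hy1 : y1 ∈ Icc 0 y0) (hy : y ∈ Icc 0 y0) :
    ∫ t in y1..y, (y - t) * h t = ∫ t in y1..y, ∫ z in y1..t, h z := by
  set E1 : C(Icc (0 : ℝ) y0, ℝ) := ⟨fun z => h z, hh.domRestrict⟩ with hE1
  set e1 : ℝ → ℝ := extC h0 E1 with he1
  have e1eq : ∀ z ∈ Icc 0 y0, h z = e1 z := fun z hz => (extC_of_mem h0 E1 hz).symm
  have e2 : ∫ t in y1..y, (y - t) * h t = ∫ t in y1..y, (y - t) * e1 t :=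
    intervalIntegral.integral_congr fun t ht => by
      rw [e1eq t (Set.uIcc_subset_Icc hy1 hy ht)]
  have e3 : ∫ t in y1..y, ∫ z in y1..t, h z = ∫ t in y1..y, ∫ z in y1..t, e1 z :=
    intervalIntegral.integral_congr fun t ht =>
      intervalIntegral.integral_congr fun z hz => e1eq z
        (Set.uIcc_subset_Icc hy1 (Set.uIcc_subset_Icc hy1 hy ht) hz)
  rw [e2, e3, double_prim_cont (continuous_extC h0 E1)]

/-- `δ = a + b (y-y1) + ∫_{y1}^y (y-t) r` -/
def dprim (y1 : ℝ) (a b : ℝ → ℝ) (r : ℝ → ℝ → ℝ) : ℝ → ℝ → ℝ := fun τ y =>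
  a τ + b τ * (y - y1) + ∫ t in y1..y, (y - t) * r τ t

theorem CK.dprim_aux {k : ℕ} (h0 : 0 ≤ y0) {y1 : ℝ} (hy1 : y1 ∈ Icc 0 y0) {a b : ℝ → ℝ}
    (ha : ContDiffOn ℝ ∞ a s) (hb : ContDiffOn ℝ ∞ b s) (hf : CK s y0 k f) :
    CK s y0 (k + 1) (fun τ y => b τ + ∫ t in y1..y, f τ t) ∧
    CK s y0 (k + 2) (fun τ y => a τ + ∫ t in y1..y, (b τ + ∫ z in y1..t, f τ z)) ∧
    ∀ τ ∈ s, ∀ y ∈ Icc 0 y0, dprim y1 a b f τ y =
      a τ + ∫ t in y1..y, (b τ + ∫ z in y1..t, f τ z) := by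
  have h1 : CK s y0 (k + 1) (fun τ y => b τ + ∫ t in y1..y, f τ t) := hf.prim h0 hy1 hb
  refine ⟨h1, h1.prim h0 hy1 ha, fun τ hτ y hy => ?_⟩
  have hc := hf.c0.continuousOn_right hτ
  have hc2 : ContinuousOn (fun t => ∫ z in y1..t, f τ z) (Icc 0 y0) := fun z hz =>
    (hasDerivWithinAt_prim hc hy1 hz).continuousWithinAt
  rw [intervalIntegral.integral_add intervalIntegrable_const
    ((hc2.mono (Set.uIcc_subset_Icc hy1 hy)).intervalIntegrable), dprim,
    double_prim h0 hc hy1 hy, intervalIntegral.integral_const, smul_eq_mul]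
  ring

theorem CK.dprim {k : ℕ} (h0 : 0 ≤ y0) {y1 : ℝ} (hy1 : y1 ∈ Icc 0 y0) {a b : ℝ → ℝ}
    (ha : ContDiffOn ℝ ∞ a s) (hb : ContDiffOn ℝ ∞ b s) (hf : CK s y0 k f) :
    CK s y0 (k + 2) (dprim y1 a b f) :=
  (CK.dprim_aux h0 hy1 ha hb hf).2.1.congr (CK.dprim_aux h0 hy1 ha hb hf).2.2

theorem hasDx_dprim (h0 : 0 ≤ y0) {y1 : ℝ} (hy1 : y1 ∈ Icc 0 y0) {a b : ℝ → ℝ}
    {r : ℝ → ℝ → ℝ} {τ : ℝ} (hr : ContinuousOn (r τ) (Icc 0 y0)) {y : ℝ} (hy : y ∈ Icc 0 y0) :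
    HasDerivWithinAt (R213.dprim y1 a b r τ) (b τ + ∫ t in y1..y, r τ t) (Icc 0 y0) y := by
  have hc2 : ContinuousOn (fun t => b τ + ∫ z in y1..t, r τ z) (Icc 0 y0) := fun z hz =>
    ((hasDerivWithinAt_prim hr hy1 hz).const_add _).continuousWithinAt
  have h1 := (hasDerivWithinAt_prim hc2 hy1 hy).const_add (a τ)
  have e : ∀ z ∈ Icc 0 y0, R213.dprim y1 a b r τ z =
      a τ + ∫ t in y1..z, (b τ + ∫ z in y1..t, r τ z) := by
    intro z hz
    have hc3 : ContinuousOn (fun t => ∫ z in y1..t, r τ z) (Icc 0 y0) := fun w hw =>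
      (hasDerivWithinAt_prim hr hy1 hw).continuousWithinAt
    rw [intervalIntegral.integral_add intervalIntegrable_const
      ((hc3.mono (Set.uIcc_subset_Icc hy1 hz)).intervalIntegrable), R213.dprim,
      double_prim h0 hr hy1 hz, intervalIntegral.integral_const, smul_eq_mul]
    ring
  exact h1.congr e (e y hy)

theorem hasDx2_dprim {y1 : ℝ} (hy1 : y1 ∈ Icc 0 y0) {b : ℝ → ℝ}
    {r : ℝ → ℝ → ℝ} {τ : ℝ} (hr : ContinuousOn (r τ) (Icc 0 y0)) {y : ℝ} (hy : y ∈ Icc 0 y0) :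
    HasDerivWithinAt (fun y => b τ + ∫ t in y1..y, r τ t) (r τ y) (Icc 0 y0) y :=
  (hasDerivWithinAt_prim hr hy1 hy).const_add _

end Crest.Agent.R213
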