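import Mathlib

/-!
# Row 213 (S0331): Calabi flow singularity on ℂP¹⁰ — shared definitions

Everything is reduced to functions `u τ x` of a time variable (first) and the momentum coordinate
`x ∈ [0,L]` (second).  `τ = T - t > 0` is the time to the singularity (in parts A, B, C, D).
-/

set_option autoImplicit false

open Set MeasureTheory Filter Topology

noncomputable section

namespace Crest.Agent.R213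

/-- `u` is `C^∞` on `s × [0,L]` (one-sided at the ends of `[0,L]`; `s` is always an open interval). -/
def Sm (s : Set ℝ) (L : ℝ) (u : ℝ → ℝ → ℝ) : Prop :=
  ContDiffOn ℝ (⊤ : ℕ∞) (fun p : ℝ × ℝ => u p.1 p.2) (s ×ˢ Icc 0 L)

/-- `∂ₓ` on `[0,L]` (one-sided at the ends). -/
def dx (L : ℝ) (u : ℝ → ℝ → ℝ) : ℝ → ℝ → ℝ := fun t x => derivWithin (fun y => u t y) (Icc 0 L) x

/-- derivative in the first variable. -/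
def dt (u : ℝ → ℝ → ℝ) : ℝ → ℝ → ℝ := fun t x => deriv (fun r => u r x) t

/-- `Kint F x = ∫₀ˣ (x-ξ) ξ⁹ F(ξ) dξ`: the double primitive of `x⁹F` (zero with its derivative at `0`). -/
def Kint (F : ℝ → ℝ) (x : ℝ) : ℝ := ∫ ξ in (0 : ℝ)..x, (x - ξ) * ξ ^ 9 * F ξ

/-- Self-similar profile (`G y = y * g y`): smooth at `0`, smooth in `1/y²` at infinity, cone constant
`c`, `g'(0) = -A < 0`, and the soliton equation. -/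
structure Soliton (c A : ℝ) (g gh : ℝ → ℝ) : Prop where
  c_pos : 0 < c
  A_pos : 0 < A
  smooth : ContDiff ℝ (⊤ : ℕ∞) g
  smooth_inf : ContDiffOn ℝ (⊤ : ℕ∞) gh (Ici 0)
  link : ∀ y, 0 < y → g y = gh (1 / y ^ 2)
  g_zero : g 0 = 1
  deriv_zero : deriv g 0 = -A
  gh_zero : gh 0 = c
  pos : ∀ y, 0 ≤ y → 0 < g y
  ode : ∀ y, 0 < y → y ^ 3 * iteratedDeriv 3 g y + 21 * y ^ 2 * iteratedDeriv 2 g y
    + 90 * y * deriv g y + 90 * (1 - g y) + y ^ 2 / 2 * (1 / c - 1 / g y) = 0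

/-- The facts about the profile used by parts A, B, C (no equation needed). -/
structure Prof (c0 C0 : ℝ) (g : ℝ → ℝ) : Prop where
  c0_pos : 0 < c0
  smooth : ContDiff ℝ (⊤ : ℕ∞) g
  lower : ∀ y, 0 ≤ y → c0 ≤ g y
  upper : ∀ y, 0 ≤ y → g y ≤ C0
  dG : ∀ y, 0 ≤ y → |deriv (fun z => z * g z) y| ≤ C0

/-- Background momentum profile `φ` on `(0,1) × [0,L]`: exactly self-similar for `x ≤ L/8`,
uniform bounds (constants independent of `L`). `m = φ / (x (1 - x/L))`. -/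
structure Bg (c0 C0 : ℝ) (g : ℝ → ℝ) (L : ℝ) (φ m : ℝ → ℝ → ℝ) : Prop where
  L_ge : 8 ≤ L
  sm : Sm (Ioo 0 1) L m
  phi_eq : ∀ τ ∈ Ioo (0 : ℝ) 1, ∀ x ∈ Icc 0 L, φ τ x = x * (1 - x / L) * m τ x
  lower : ∀ τ ∈ Ioo (0 : ℝ) 1, ∀ x ∈ Icc 0 L, c0 ≤ m τ x
  upper : ∀ τ ∈ Ioo (0 : ℝ) 1, ∀ x ∈ Icc 0 L, m τ x ≤ C0
  dphi : ∀ τ ∈ Ioo (0 : ℝ) 1, ∀ x ∈ Icc 0 L, |dx L φ τ x| ≤ C0
  dtm : ∀ j ≤ 9, ∀ τ ∈ Ioo (0 : ℝ) 1, ∀ x ∈ Icc 0 L, (x ^ 2 + τ) ^ j * |(dt^[j] m) τ x| ≤ C0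
  inner : ∀ τ ∈ Ioo (0 : ℝ) 1, ∀ x ∈ Icc 0 (L / 8), φ τ x = x * g (x / √τ)

/-- Test functions: smooth on `(0,1) × [0,L]`, compact support in `τ`. -/
def Tst (L : ℝ) (ψ : ℝ → ℝ → ℝ) : Prop :=
  Sm (Ioo 0 1) L ψ ∧ ∃ a b : ℝ, 0 < a ∧ a < b ∧ b < 1 ∧ ∀ τ x, τ ∉ Icc a b → ψ τ x = 0

/-- weighted squared norm `∫∫_{(0,1)×(0,L)} V u² x⁹`. -/
def N2 (L : ℝ) (V u : ℝ → ℝ → ℝ) : ENNReal :=
  ∫⁻ p in (Ioo (0 : ℝ) 1 ×ˢ Ioo (0 : ℝ) L), ENNReal.ofReal (V p.1 p.2 * p.2 ^ 9 * (u p.1 p.2) ^ 2)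

/-- integral over `(0,1)×(0,L)`. -/
def II (L : ℝ) (u : ℝ → ℝ → ℝ) : ℝ := ∫ p in (Ioo (0 : ℝ) 1 ×ˢ Ioo (0 : ℝ) L), u p.1 p.2

/-- the weight `W = τ^{2κ} (x²+τ)^{-60}`. -/
def Wt (κ : ℝ) : ℝ → ℝ → ℝ := fun τ x => τ ^ (2 * κ) / (x ^ 2 + τ) ^ 60

/-- `W/τ` -/
def Wt' (κ : ℝ) : ℝ → ℝ → ℝ := fun τ x => Wt κ τ x / τ

/-- `τ W` -/
def Wt'' (κ : ℝ) : ℝ → ℝ → ℝ := fun τ x => τ * Wt κ τ x

end Crest.Agent.R213
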