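import Crest.Agent.R213.Defs

/-!
# Row 213: the linear solver `lin` from `weak_exists` (part A) and `reg` (part B)
-/

set_option autoImplicit false

open Set MeasureTheory Filter Topology

noncomputable section

namespace Crest.Agent.R213

/-- statement of part A -/
def WeakStmt : Prop :=
  ∀ {c0 C0 : ℝ} {g : ℝ → ℝ}, Prof c0 C0 g →
    ∃ κ ∈ Ioo (1 / 8 : ℝ) (1 / 4), ∃ L1 C : ℝ, ∀ L ≥ L1, ∀ φ m : ℝ → ℝ → ℝ, Bg c0 C0 g L φ m →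
      ∀ E h : ℝ → ℝ → ℝ, Sm (Ioo 0 1) L E → Sm (Ioo 0 1) L h →
        N2 L (Wt'' κ) E < ⊤ → N2 L (Wt κ) h < ⊤ →
      ∃ b δ : ℝ → ℝ → ℝ, Measurable (fun p : ℝ × ℝ => b p.1 p.2) ∧
        Measurable (fun p : ℝ × ℝ => δ p.1 p.2) ∧
        N2 L (Wt κ) b + N2 L (Wt' κ) δ ≤
          ENNReal.ofReal C * (N2 L (Wt κ) h + N2 L (Wt'' κ) E) ∧
        (∃ u : ℕ → ℝ → ℝ → ℝ, (∀ k, Tst L (u k)) ∧
          Tendsto (fun k => N2 L (Wt κ) (fun τ x => φ τ x * dx L (dx L (u k)) τ x - b τ x))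
            atTop (𝓝 0) ∧
          Tendsto (fun k => N2 L (Wt' κ) (fun τ x => u k τ x - δ τ x)) atTop (𝓝 0)) ∧
        (∀ ψ, Tst L ψ →
          II L (fun τ x => x ^ 9 * (dt ψ τ x * δ τ x + φ τ x * dx L (dx L ψ) τ x * b τ x)) =
            II L (fun τ x => x ^ 9 * (E τ x * ψ τ x + h τ x * φ τ x * dx L (dx L ψ) τ x)))

/-- statement of part B -/
def RegStmt : Prop :=
  ∀ {c0 C0 : ℝ} {g : ℝ → ℝ} {L : ℝ} {φ m : ℝ → ℝ → ℝ}, 0 < c0 → Bg c0 C0 g L φ m →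
    ∀ {κ : ℝ} {E ht b δ : ℝ → ℝ → ℝ}, Sm (Ioo 0 1) L E → Sm (Ioo 0 1) L ht →
    Measurable (fun p : ℝ × ℝ => b p.1 p.2) →
    Measurable (fun p : ℝ × ℝ => δ p.1 p.2) →
    N2 L (Wt κ) b < ⊤ → N2 L (Wt' κ) δ < ⊤ →
    (∃ u : ℕ → ℝ → ℝ → ℝ, (∀ k, Tst L (u k)) ∧
          Tendsto (fun k => N2 L (Wt κ) (fun τ x => φ τ x * dx L (dx L (u k)) τ x - b τ x))
            atTop (𝓝 0) ∧
          Tendsto (fun k => N2 L (Wt' κ) (fun τ x => u k τ x - δ τ x)) atTop (𝓝 0)) →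
    (∀ ψ, Tst L ψ →
          II L (fun τ x => x ^ 9 * (dt ψ τ x * δ τ x + φ τ x * dx L (dx L ψ) τ x * b τ x)) =
            II L (fun τ x => x ^ 9 * (E τ x * ψ τ x +
              (φ τ x * ht τ x) * φ τ x * dx L (dx L ψ) τ x))) →
    ∃ δ' : ℝ → ℝ → ℝ, Sm (Ioo 0 1) L δ' ∧
      (∀ᵐ p : ℝ × ℝ, p ∈ (Ioo (0 : ℝ) 1 ×ˢ Ioo (0 : ℝ) L) →
        δ' p.1 p.2 = δ p.1 p.2 ∧ φ p.1 p.2 * dx L (dx L δ') p.1 p.2 = b p.1 p.2) ∧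
      ∀ τ ∈ Ioo (0 : ℝ) 1, ∀ x ∈ Icc 0 L,
        x ^ 9 * (φ τ x ^ 2 * dx L (dx L δ') τ x - φ τ x ^ 2 * ht τ x) =
          Kint (fun ξ => E τ ξ + dt δ' τ ξ) x

/-- statement of `lin` -/
def LinStmt : Prop :=
  ∀ {c0 C0 : ℝ} {g : ℝ → ℝ}, Prof c0 C0 g →
    ∃ κ ∈ Ioo (1 / 8 : ℝ) (1 / 4), ∃ L1 C : ℝ, ∀ L ≥ L1, ∀ φ m : ℝ → ℝ → ℝ, Bg c0 C0 g L φ m →
      ∀ E ht : ℝ → ℝ → ℝ, Sm (Ioo 0 1) L E → Sm (Ioo 0 1) L ht →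
        N2 L (Wt'' κ) E < ⊤ → N2 L (Wt κ) (fun τ x => φ τ x * ht τ x) < ⊤ →
      ∃ δ : ℝ → ℝ → ℝ, Sm (Ioo 0 1) L δ ∧
        N2 L (Wt κ) (fun τ x => φ τ x * dx L (dx L δ) τ x) + N2 L (Wt' κ) δ ≤
          ENNReal.ofReal C *
            (N2 L (Wt κ) (fun τ x => φ τ x * ht τ x) + N2 L (Wt'' κ) E) ∧
        ∀ τ ∈ Ioo (0 : ℝ) 1, ∀ x ∈ Icc 0 L,
          x ^ 9 * (φ τ x ^ 2 * dx L (dx L δ) τ x - φ τ x ^ 2 * ht τ x) =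
            Kint (fun ξ => E τ ξ + dt δ τ ξ) x

/-- `φ` is smooth. -/
theorem Bg.sm_phi {c0 C0 : ℝ} {g : ℝ → ℝ} {L : ℝ} {φ m : ℝ → ℝ → ℝ} (hB : Bg c0 C0 g L φ m) :
    Sm (Ioo 0 1) L φ := by
  have h1 : ContDiffOn ℝ (⊤ : ℕ∞) (fun p : ℝ × ℝ => p.2 * (1 - p.2 / L) * m p.1 p.2)
      (Ioo (0 : ℝ) 1 ×ˢ Icc 0 L) := by
    have h2 : ContDiff ℝ (⊤ : ℕ∞) (fun p : ℝ × ℝ => p.2 * (1 - p.2 / L)) := by fun_prop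
    exact h2.contDiffOn.mul hB.sm
  exact h1.congr (fun p hp => hB.phi_eq p.1 hp.1 p.2 hp.2)

theorem N2_congr_ae {L : ℝ} {V u v : ℝ → ℝ → ℝ}
    (h : ∀ᵐ p : ℝ × ℝ, p ∈ (Ioo (0 : ℝ) 1 ×ˢ Ioo (0 : ℝ) L) → u p.1 p.2 = v p.1 p.2) :
    N2 L V u = N2 L V v := by
  unfold N2
  refine lintegral_congr_ae ?_
  have hm : MeasurableSet (Ioo (0 : ℝ) 1 ×ˢ Ioo (0 : ℝ) L) :=
    measurableSet_Ioo.prod measurableSet_Ioo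
  rw [Filter.EventuallyEq, ae_restrict_iff' hm]
  filter_upwards [h] with p hp hpm
  rw [hp hpm]

theorem lin_of (hw : WeakStmt) (hr : RegStmt) : LinStmt := by
  intro c0 C0 g hg
  obtain ⟨κ, hκ, L1, C, H⟩ := hw hg
  refine ⟨κ, hκ, L1, C, ?_⟩
  intro L hL φ m hB E ht hE hht hNE hNh
  have hsm : Sm (Ioo 0 1) L (fun τ x => φ τ x * ht τ x) := hB.sm_phi.mul hht
  obtain ⟨b, δ, hbm, hdm, hN, h1, h2⟩ := H L hL φ m hB E _ hE hsm hNE hNh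
  have hfin : N2 L (Wt κ) b + N2 L (Wt' κ) δ < ⊤ :=
    lt_of_le_of_lt hN (ENNReal.mul_lt_top ENNReal.ofReal_lt_top (ENNReal.add_lt_top.2 ⟨hNh, hNE⟩))
  rw [ENNReal.add_lt_top] at hfin
  obtain ⟨δ', hs, hae, heq⟩ := hr hg.c0_pos hB (κ := κ) hE hht hbm hdm hfin.1 hfin.2 h1 h2
  refine ⟨δ', hs, ?_, heq⟩
  have e1 : N2 L (Wt κ) (fun τ x => φ τ x * dx L (dx L δ') τ x) = N2 L (Wt κ) b :=
    N2_congr_ae (by filter_upwards [hae] with p hp hpm using (hp hpm).2)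
  have e2 : N2 L (Wt' κ) δ' = N2 L (Wt' κ) δ :=
    N2_congr_ae (by filter_upwards [hae] with p hp hpm using (hp hpm).1)
  rw [e1, e2]
  exact hN

end Crest.Agent.R213
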