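import Crest.Agent.R213.Defs

/-!
# Row 213: the structure `Flow` (same text as in `Iface.lean`; proof files import THIS file).
-/

set_option autoImplicit false

open Set MeasureTheory Filter Topology

noncomputable section

namespace Crest.Agent.R213

/-- the reduced flow: `w = 1/φ - 1/x - 1/(1-x)`, `S` the scalar curvature, `w_t = -S_xx`. -/
structure Flow (T ε : ℝ) (w S : ℝ → ℝ → ℝ) : Prop where
  T_pos : 0 < T
  eps_pos : 0 < ε
  smw : Sm (Ioo (-ε) T) 1 w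
  smS : Sm (Ioo (-ε) T) 1 S
  pos : ∀ t ∈ Ioo (-ε) T, ∀ x ∈ Icc (0 : ℝ) 1, 0 < 1 + x * (1 - x) * w t x
  scal : ∀ t ∈ Ioo (-ε) T, ∀ x ∈ Icc (0 : ℝ) 1,
    x ^ 10 - x ^ 9 * (x * (1 - x) / (1 + x * (1 - x) * w t x)) = Kint (S t) x
  flow : ∀ t ∈ Ioo (-ε) T, ∀ x ∈ Icc (0 : ℝ) 1, dt w t x = - dx 1 (dx 1 S) t x

end Crest.Agent.R213
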