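import Crest.Statements.S0331
import Crest.Agent.R213.Lin
import Crest.Agent.R213.A.WeakExists
import Crest.Agent.R213.B.Reg
import Crest.Agent.R213.C.PdeMain
import Crest.Agent.R213.D.Bg
import Crest.Agent.R213.E.SolOfCells
import Crest.Agent.R213.P.FlowExists
import Crest.Agent.R213.F.Geo

/-! Row 213: final assembly, from the cell facts of the certificate. -/

set_option autoImplicit false
open Crest.GeometryTopology.ProjKahler
open Crest Crest.GeometryTopology

namespace Crest.Agent.R213

theorem result_of_soliton (hsol : ∃ (c A : ℝ) (g gh : ℝ → ℝ), Soliton c A g gh) :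
    ∃ T : ℝ, 0 < T ∧ ∃ h : ℝ → ProjExtension 10, IsCalabiFlowFS h T ∧
      IsUnitarilyInvariant (h 0).h ∧
      ∃ (p : V 10) (a : ℝ), 0 < a ∧
        Filter.Tendsto (fun t => scalarCurv (fun u => fsPot u + (h t).h u) p * Real.sqrt (T - t))
          (nhdsWithin T (Set.Iio T)) (nhds a) := by
  have hlin : LinStmt := lin_of (fun hg => weak_exists hg)
    (fun hc0 hB _ _ _ _ _ hE hh hbm hdm hb hd h1 h2 => reg hc0 hB hE hh hbm hdm hb hd h1 h2)
  obtain ⟨T, ε, a, w, S, hF, ha, hlim⟩ := P.flow_exists_of hsol (fun hg => bg_exists hg)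
    (fun hg => C.pde_main_of_lin hg (hlin hg))
  exact geo hF ha hlim

end Crest.Agent.R213
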