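import Crest.Agent.R213.Defs
import Crest.Statements.S0331

/-!
# Row 213: interface between the parts (all `sorry`; NEVER import from a proof file)

Chain: `soliton_exists` (E) → `bg_exists` (D); `weak_exists` (A) → `reg` (B) → `lin` (A+B) → `pde_main` (C);
`flow_exists` (assembly P of D and C) → `geo` (F) → `result`.
-/

set_option autoImplicit false

open Set MeasureTheory Filter Topology
open Crest.GeometryTopology.ProjKahler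

noncomputable section

namespace Crest.Agent.R213

/-! ### Part E: the self-similar profile -/

theorem soliton_exists : ∃ (c A : ℝ) (g gh : ℝ → ℝ), Soliton c A g gh := by
  sorry

/-! ### Part D: the background built from the profile.
`w`: `1/φ = 1/x + 1/(L-x) + w`; `S`: scalar curvature of `φ`; `E`: error, `E_xx = ∂_τ w - S_xx`. -/

theorem bg_exists {c A : ℝ} {g gh : ℝ → ℝ} (hg : Soliton c A g gh) :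
    ∃ c0 C0 : ℝ, Prof c0 C0 g ∧ ∀ P : ℕ, ∃ L2 : ℝ, ∀ L ≥ L2, ∃ φ m w S E : ℝ → ℝ → ℝ,
      Bg c0 C0 g L φ m ∧ Sm (Ioo 0 1) L w ∧ Sm (Ioo 0 1) L S ∧ Sm (Ioo 0 1) L E ∧
      (∀ τ ∈ Ioo (0 : ℝ) 1, ∀ x ∈ Ioo 0 L, 1 / φ τ x = 1 / x + 1 / (L - x) + w τ x) ∧
      (∀ τ ∈ Ioo (0 : ℝ) 1, ∀ x ∈ Icc 0 L, x ^ 10 - x ^ 9 * φ τ x = Kint (S τ) x) ∧
      (∀ τ ∈ Ioo (0 : ℝ) 1, ∀ x ∈ Icc 0 L,
        dx L (dx L E) τ x = dt w τ x - dx L (dx L S) τ x) ∧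
      (∀ τ ∈ Ioo (0 : ℝ) 1, S τ 0 = 110 * A / √τ) ∧
      (∀ τ ∈ Ioo (0 : ℝ) 1, ∀ x ∈ Icc 0 1, E τ x = 0) ∧
      (∀ j ≤ 9, ∀ τ ∈ Ioo (0 : ℝ) 1, ∀ x ∈ Icc 0 L, |(dt^[j] E) τ x| ≤ L ^ (-(P : ℝ))) := by
  sorry

/-! ### Part A: weak solutions of the linear problem -/

theorem weak_exists {c0 C0 : ℝ} {g : ℝ → ℝ} (hg : Prof c0 C0 g) :
    ∃ κ ∈ Ioo (1 / 8 : ℝ) (1 / 4), ∃ L1 C : ℝ, ∀ L ≥ L1, ∀ φ m : ℝ → ℝ → ℝ, Bg c0 C0 g L φ m →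
      ∀ E h : ℝ → ℝ → ℝ, Sm (Ioo 0 1) L E → Sm (Ioo 0 1) L h →
        N2 L (Wt'' κ) E < ⊤ → N2 L (Wt κ) h < ⊤ →
      ∃ b δ : ℝ → ℝ → ℝ, Measurable (fun p : ℝ × ℝ => b p.1 p.2) ∧
        Measurable (fun p : ℝ × ℝ => δ p.1 p.2) ∧
        N2 L (Wt κ) b + N2 L (Wt' κ) δ ≤
          ENNReal.ofReal C * (N2 L (Wt κ) h + N2 L (Wt'' κ) E) ∧
        (∃ u : ℕ → ℝ → ℝ → ℝ, (∀ k, Tst L (u k)) ∧
          Tendsto (fun k => N2 L (Wt κ) (fun τ x => φ τ x * dx L (dx L (u k)) τ x - b τ x))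
            atTop (𝓝 0) ∧
          Tendsto (fun k => N2 L (Wt' κ) (fun τ x => u k τ x - δ τ x)) atTop (𝓝 0)) ∧
        (∀ ψ, Tst L ψ →
          II L (fun τ x => x ^ 9 * (dt ψ τ x * δ τ x + φ τ x * dx L (dx L ψ) τ x * b τ x)) =
            II L (fun τ x => x ^ 9 * (E τ x * ψ τ x + h τ x * φ τ x * dx L (dx L ψ) τ x))) := by
  sorry

/-! ### Part B: regularity of weak solutions (local, qualitative) -/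

theorem reg {c0 C0 : ℝ} {g : ℝ → ℝ} {L : ℝ} {φ m : ℝ → ℝ → ℝ} (hc0 : 0 < c0) (hB : Bg c0 C0 g L φ m)
    {κ : ℝ} {E ht b δ : ℝ → ℝ → ℝ} (hE : Sm (Ioo 0 1) L E) (hh : Sm (Ioo 0 1) L ht)
    (hbm : Measurable (fun p : ℝ × ℝ => b p.1 p.2))
    (hdm : Measurable (fun p : ℝ × ℝ => δ p.1 p.2))
    (hb : N2 L (Wt κ) b < ⊤) (hd : N2 L (Wt' κ) δ < ⊤)
    (h1 : ∃ u : ℕ → ℝ → ℝ → ℝ, (∀ k, Tst L (u k)) ∧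
          Tendsto (fun k => N2 L (Wt κ) (fun τ x => φ τ x * dx L (dx L (u k)) τ x - b τ x))
            atTop (𝓝 0) ∧
          Tendsto (fun k => N2 L (Wt' κ) (fun τ x => u k τ x - δ τ x)) atTop (𝓝 0))
    (h2 : ∀ ψ, Tst L ψ →
          II L (fun τ x => x ^ 9 * (dt ψ τ x * δ τ x + φ τ x * dx L (dx L ψ) τ x * b τ x)) =
            II L (fun τ x => x ^ 9 * (E τ x * ψ τ x +
              (φ τ x * ht τ x) * φ τ x * dx L (dx L ψ) τ x))) :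
    ∃ δ' : ℝ → ℝ → ℝ, Sm (Ioo 0 1) L δ' ∧
      (∀ᵐ p : ℝ × ℝ, p ∈ (Ioo (0 : ℝ) 1 ×ˢ Ioo (0 : ℝ) L) →
        δ' p.1 p.2 = δ p.1 p.2 ∧ φ p.1 p.2 * dx L (dx L δ') p.1 p.2 = b p.1 p.2) ∧
      ∀ τ ∈ Ioo (0 : ℝ) 1, ∀ x ∈ Icc 0 L,
        x ^ 9 * (φ τ x ^ 2 * dx L (dx L δ') τ x - φ τ x ^ 2 * ht τ x) =
          Kint (fun ξ => E τ ξ + dt δ' τ ξ) x := by
  sorry

/-! ### Linear solver (A+B) -/

theorem lin {c0 C0 : ℝ} {g : ℝ → ℝ} (hg : Prof c0 C0 g) :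
    ∃ κ ∈ Ioo (1 / 8 : ℝ) (1 / 4), ∃ L1 C : ℝ, ∀ L ≥ L1, ∀ φ m : ℝ → ℝ → ℝ, Bg c0 C0 g L φ m →
      ∀ E ht : ℝ → ℝ → ℝ, Sm (Ioo 0 1) L E → Sm (Ioo 0 1) L ht →
        N2 L (Wt'' κ) E < ⊤ → N2 L (Wt κ) (fun τ x => φ τ x * ht τ x) < ⊤ →
      ∃ δ : ℝ → ℝ → ℝ, Sm (Ioo 0 1) L δ ∧
        N2 L (Wt κ) (fun τ x => φ τ x * dx L (dx L δ) τ x) + N2 L (Wt' κ) δ ≤
          ENNReal.ofReal C *
            (N2 L (Wt κ) (fun τ x => φ τ x * ht τ x) + N2 L (Wt'' κ) E) ∧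
        ∀ τ ∈ Ioo (0 : ℝ) 1, ∀ x ∈ Icc 0 L,
          x ^ 9 * (φ τ x ^ 2 * dx L (dx L δ) τ x - φ τ x ^ 2 * ht τ x) =
            Kint (fun ξ => E τ ξ + dt δ τ ξ) x := by
  sorry

/-! ### Part C: the nonlinear problem -/

theorem pde_main {c0 C0 : ℝ} {g : ℝ → ℝ} (hg : Prof c0 C0 g) :
    ∃ (L1 : ℝ) (P : ℕ), ∀ L ≥ L1, ∀ φ m : ℝ → ℝ → ℝ, Bg c0 C0 g L φ m →
      ∀ E : ℝ → ℝ → ℝ, Sm (Ioo 0 1) L E →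
        (∀ τ ∈ Ioo (0 : ℝ) 1, ∀ x ∈ Icc 0 1, E τ x = 0) →
        (∀ j ≤ 9, ∀ τ ∈ Ioo (0 : ℝ) 1, ∀ x ∈ Icc 0 L, |(dt^[j] E) τ x| ≤ L ^ (-(P : ℝ))) →
      ∃ δ : ℝ → ℝ → ℝ, Sm (Ioo 0 (1 / 4)) L δ ∧
        (∀ τ ∈ Ioo (0 : ℝ) (1 / 4), ∀ x ∈ Icc 0 L, |φ τ x * dx L (dx L δ) τ x| ≤ 1 / 2) ∧
        (∀ τ ∈ Ioo (0 : ℝ) (1 / 4), ∀ x ∈ Icc 0 L,
          x ^ 9 * φ τ x * (φ τ x * dx L (dx L δ) τ x / (1 + φ τ x * dx L (dx L δ) τ x)) =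
            Kint (fun ξ => E τ ξ + dt δ τ ξ) x) ∧
        Tendsto (fun τ => √τ * dt δ τ 0) (𝓝[>] 0) (𝓝 0) := by
  sorry

/-! ### Assembly: the reduced flow on the unit interval -/

/-- the reduced flow: `w = 1/φ - 1/x - 1/(1-x)`, `S` the scalar curvature, `w_t = -S_xx`. -/
structure Flow (T ε : ℝ) (w S : ℝ → ℝ → ℝ) : Prop where
  T_pos : 0 < T
  eps_pos : 0 < ε
  smw : Sm (Ioo (-ε) T) 1 w
  smS : Sm (Ioo (-ε) T) 1 S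
  pos : ∀ t ∈ Ioo (-ε) T, ∀ x ∈ Icc (0 : ℝ) 1, 0 < 1 + x * (1 - x) * w t x
  scal : ∀ t ∈ Ioo (-ε) T, ∀ x ∈ Icc (0 : ℝ) 1,
    x ^ 10 - x ^ 9 * (x * (1 - x) / (1 + x * (1 - x) * w t x)) = Kint (S t) x
  flow : ∀ t ∈ Ioo (-ε) T, ∀ x ∈ Icc (0 : ℝ) 1, dt w t x = - dx 1 (dx 1 S) t x

theorem flow_exists : ∃ (T ε a : ℝ) (w S : ℝ → ℝ → ℝ), Flow T ε w S ∧ 0 < a ∧
    Tendsto (fun t => S t 0 * √(T - t)) (𝓝[<] T) (𝓝 a) := by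
  sorry

/-! ### Part F: geometry -/

theorem geo {T ε a : ℝ} {w S : ℝ → ℝ → ℝ} (hF : Flow T ε w S) (ha : 0 < a)
    (hlim : Tendsto (fun t => S t 0 * √(T - t)) (𝓝[<] T) (𝓝 a)) :
    ∃ T : ℝ, 0 < T ∧ ∃ h : ℝ → ProjExtension 10, IsCalabiFlowFS h T ∧
      IsUnitarilyInvariant (h 0).h ∧
      ∃ (p : V 10) (a : ℝ), 0 < a ∧
        Filter.Tendsto (fun t => scalarCurv (fun u => fsPot u + (h t).h u) p * Real.sqrt (T - t))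
          (nhdsWithin T (Set.Iio T)) (nhds a) := by
  sorry

end Crest.Agent.R213
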