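import Crest.Agent.R213.J0
import Crest.Agent.R213.J310

/-!
# Row 213, J0K (helper826): fundamental theorem of calculus and integration by parts on `[0,L]`,
Leibniz rule for `dt^[j]`, test functions, the functionals `II` and `N2`.
-/

set_option autoImplicit false

open Set MeasureTheory Filter Topology

noncomputable section

namespace Crest.Agent.R213

variable {s s' : Set ℝ} {L L' t x : ℝ} {u v : ℝ → ℝ → ℝ}

/-! ### FTC and integration by parts in `x` -/

theorem Sm.intervalIntegrable (hu : Sm s L u) (ht : t ∈ s) {a b : ℝ} (ha : a ∈ Icc 0 L)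
    (hb : b ∈ Icc 0 L) : IntervalIntegrable (u t) volume a b :=
  ((hu.continuousOn_right ht).mono (uIcc_subset_Icc ha hb)).intervalIntegrable

/-- one-variable version of FTC with one-sided derivatives on `[0,L]` -/
theorem ftc_within {f f' : ℝ → ℝ} (hf : ∀ x ∈ Icc 0 L, HasDerivWithinAt f (f' x) (Icc 0 L) x)
    (hf' : ContinuousOn f' (Icc 0 L)) {a b : ℝ} (ha : a ∈ Icc 0 L) (hb : b ∈ Icc 0 L)
    (hab : a ≤ b) : ∫ x in a..b, f' x = f b - f a := by
  have hsub : Icc a b ⊆ Icc 0 L := Icc_subset_Icc ha.1 hb.2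
  apply intervalIntegral.integral_eq_sub_of_hasDerivAt_of_le hab
  · exact fun x hx => ((hf x (hsub hx)).continuousWithinAt).mono hsub
  · intro x hx
    have hx' : x ∈ Ioo 0 L := ⟨lt_of_le_of_lt ha.1 hx.1, lt_of_lt_of_le hx.2 hb.2⟩
    exact (hf x (Ioo_subset_Icc_self hx')).hasDerivAt (Icc_mem_nhds hx'.1 hx'.2)
  · apply ContinuousOn.intervalIntegrable
    rw [uIcc_of_le hab]
    exact hf'.mono hsub

/-- one-variable integration by parts with one-sided derivatives on `[0,L]` -/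
theorem ibp_within (hL : 0 ≤ L) {f f' g g' : ℝ → ℝ}
    (hf : ∀ x ∈ Icc 0 L, HasDerivWithinAt f (f' x) (Icc 0 L) x)
    (hg : ∀ x ∈ Icc 0 L, HasDerivWithinAt g (g' x) (Icc 0 L) x)
    (hf' : ContinuousOn f' (Icc 0 L)) (hg' : ContinuousOn g' (Icc 0 L)) :
    ∫ x in (0 : ℝ)..L, f' x * g x = f L * g L - f 0 * g 0 - ∫ x in (0 : ℝ)..L, f x * g' x := by
  have h0 : (0 : ℝ) ∈ Icc 0 L := ⟨le_rfl, hL⟩
  have h1 : L ∈ Icc 0 L := ⟨hL, le_rfl⟩
  have hfc : ContinuousOn f (Icc 0 L) := fun x hx => (hf x hx).continuousWithinAt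
  have hgc : ContinuousOn g (Icc 0 L) := fun x hx => (hg x hx).continuousWithinAt
  have key := ftc_within (f := fun x => f x * g x) (f' := fun x => f' x * g x + f x * g' x)
    (fun x hx => (hf x hx).mul (hg x hx)) ((hf'.mul hgc).add (hfc.mul hg')) h0 h1 hL
  have i1 : IntervalIntegrable (fun x => f' x * g x) volume 0 L := by
    apply ContinuousOn.intervalIntegrable; rw [uIcc_of_le hL]; exact hf'.mul hgc
  have i2 : IntervalIntegrable (fun x => f x * g' x) volume 0 L := by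
    apply ContinuousOn.intervalIntegrable; rw [uIcc_of_le hL]; exact hfc.mul hg'
  rw [intervalIntegral.integral_add i1 i2] at key
  linarith

/-- integration by parts twice -/
theorem ibp2_within (hL : 0 ≤ L) {f f' f'' g g' g'' : ℝ → ℝ}
    (hf : ∀ x ∈ Icc 0 L, HasDerivWithinAt f (f' x) (Icc 0 L) x)
    (hff : ∀ x ∈ Icc 0 L, HasDerivWithinAt f' (f'' x) (Icc 0 L) x)
    (hg : ∀ x ∈ Icc 0 L, HasDerivWithinAt g (g' x) (Icc 0 L) x)
    (hgg : ∀ x ∈ Icc 0 L, HasDerivWithinAt g' (g'' x) (Icc 0 L) x)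
    (hf'' : ContinuousOn f'' (Icc 0 L)) (hg'' : ContinuousOn g'' (Icc 0 L)) :
    ∫ x in (0 : ℝ)..L, f'' x * g x =
      f' L * g L - f' 0 * g 0 - (f L * g' L - f 0 * g' 0) + ∫ x in (0 : ℝ)..L, f x * g'' x := by
  have c1 : ContinuousOn f' (Icc 0 L) := fun x hx => (hff x hx).continuousWithinAt
  have c2 : ContinuousOn g' (Icc 0 L) := fun x hx => (hgg x hx).continuousWithinAt
  have e1 := ibp_within hL hff hg hf'' c2
  have e2 := ibp_within hL hf hgg c1 hg''
  rw [e1, e2]; ring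

theorem sm_ftc (hu : Sm s L u) (hs : IsOpen s) (hL : 0 < L) (ht : t ∈ s) {a b : ℝ}
    (ha : a ∈ Icc 0 L) (hb : b ∈ Icc 0 L) (hab : a ≤ b) :
    ∫ x in a..b, dx L u t x = u t b - u t a :=
  ftc_within (fun _ hx => hu.hasDx hL ht hx) ((Sm.dx hs hL hu).continuousOn_right ht) ha hb hab

theorem sm_ibp (hu : Sm s L u) (hv : Sm s L v) (hs : IsOpen s) (hL : 0 < L) (ht : t ∈ s) :
    ∫ x in (0 : ℝ)..L, dx L u t x * v t x =
      u t L * v t L - u t 0 * v t 0 - ∫ x in (0 : ℝ)..L, u t x * dx L v t x :=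
  ibp_within hL.le (fun _ hx => hu.hasDx hL ht hx) (fun _ hx => hv.hasDx hL ht hx)
    ((Sm.dx hs hL hu).continuousOn_right ht) ((Sm.dx hs hL hv).continuousOn_right ht)

theorem sm_ibp2 (hu : Sm s L u) (hv : Sm s L v) (hs : IsOpen s) (hL : 0 < L) (ht : t ∈ s) :
    ∫ x in (0 : ℝ)..L, dx L (dx L u) t x * v t x =
      dx L u t L * v t L - dx L u t 0 * v t 0
        - (u t L * dx L v t L - u t 0 * dx L v t 0)
        + ∫ x in (0 : ℝ)..L, u t x * dx L (dx L v) t x :=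
  ibp2_within hL.le (fun _ hx => hu.hasDx hL ht hx)
    (fun _ hx => (Sm.dx hs hL hu).hasDx hL ht hx) (fun _ hx => hv.hasDx hL ht hx)
    (fun _ hx => (Sm.dx hs hL hv).hasDx hL ht hx)
    ((Sm.dx hs hL (Sm.dx hs hL hu)).continuousOn_right ht)
    ((Sm.dx hs hL (Sm.dx hs hL hv)).continuousOn_right ht)

/-- pairing of `Kint F` with a second derivative: one-variable version -/
theorem Kint_pair (hL : 0 ≤ L) {F g g' g'' : ℝ → ℝ} (hF : ContinuousOn F (Icc 0 L))
    (hg : ∀ x ∈ Icc 0 L, HasDerivWithinAt g (g' x) (Icc 0 L) x)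
    (hgg : ∀ x ∈ Icc 0 L, HasDerivWithinAt g' (g'' x) (Icc 0 L) x)
    (hg'' : ContinuousOn g'' (Icc 0 L)) :
    ∫ x in (0 : ℝ)..L, Kint F x * g'' x =
      Kint F L * g' L - J310.Kint1 F L * g L + ∫ x in (0 : ℝ)..L, x ^ 9 * F x * g x := by
  have hF9 : ContinuousOn (fun x : ℝ => x ^ 9 * F x) (Icc 0 L) :=
    ((continuous_pow 9).continuousOn).mul hF
  have k0 : Kint F 0 = 0 := by simp [Kint]
  have k1 : J310.Kint1 F 0 = 0 := by simp [J310.Kint1]
  have := ibp2_within hL (f := Kint F) (f' := J310.Kint1 F) (f'' := fun x => x ^ 9 * F x)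
    (fun x hx => J310.hasDeriv_Kint hF hx) (fun x hx => J310.hasDeriv_Kint1 hF hx) hg hgg hF9 hg''
  rw [k0, k1] at this
  simp only [zero_mul, sub_zero] at this
  linarith

theorem sm_Kint_pair (hv : Sm s L v) (hs : IsOpen s) (hL : 0 < L) (ht : t ∈ s) {F : ℝ → ℝ}
    (hF : ContinuousOn F (Icc 0 L)) :
    ∫ x in (0 : ℝ)..L, Kint F x * dx L (dx L v) t x =
      Kint F L * dx L v t L - J310.Kint1 F L * v t L
        + ∫ x in (0 : ℝ)..L, x ^ 9 * F x * v t x :=
  Kint_pair hL.le hF (fun _ hx => hv.hasDx hL ht hx)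
    (fun _ hx => (Sm.dx hs hL hv).hasDx hL ht hx)
    ((Sm.dx hs hL (Sm.dx hs hL hv)).continuousOn_right ht)

/-! ### iterated derivatives in `t` -/

theorem iter_dt_apply (u : ℝ → ℝ → ℝ) (j : ℕ) (t x : ℝ) :
    (dt^[j] u) t x = iteratedDeriv j (fun r => u r x) t := by
  induction j generalizing t with
  | zero => simp
  | succ j ih =>
    rw [Function.iterate_succ_apply', iteratedDeriv_succ]
    show deriv (fun r => (dt^[j] u) r x) t = _
    congr 1
    funext r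
    exact ih r

theorem sm_contDiffAt_t (hu : Sm s L u) (hs : IsOpen s) (ht : t ∈ s) (hx : x ∈ Icc 0 L) :
    ContDiffAt ℝ (⊤ : ℕ∞) (fun r => u r x) t :=
  (hu.contDiffOn_left hx).contDiffAt (hs.mem_nhds ht)

/-- Leibniz rule -/
theorem sm_iter_dt_mul (hu : Sm s L u) (hv : Sm s L v) (hs : IsOpen s) (ht : t ∈ s)
    (hx : x ∈ Icc 0 L) (n : ℕ) :
    (dt^[n] (fun t x => u t x * v t x)) t x =
      ∑ i ∈ Finset.range (n + 1), (n.choose i) * (dt^[i] u) t x * (dt^[n - i] v) t x := by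
  rw [iter_dt_apply]
  have h1 : ContDiffAt ℝ n (fun r => u r x) t :=
    ((hu.contDiffOn_left hx).contDiffAt (hs.mem_nhds ht)).of_le (by exact_mod_cast le_top)
  have h2 : ContDiffAt ℝ n (fun r => v r x) t :=
    ((hv.contDiffOn_left hx).contDiffAt (hs.mem_nhds ht)).of_le (by exact_mod_cast le_top)
  rw [iteratedDeriv_fun_mul h1 h2]
  refine Finset.sum_congr rfl fun i _ => ?_
  rw [iter_dt_apply, iter_dt_apply]

theorem sm_iter_dt_add (hu : Sm s L u) (hv : Sm s L v) (hs : IsOpen s) (ht : t ∈ s)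
    (hx : x ∈ Icc 0 L) (n : ℕ) :
    (dt^[n] (fun t x => u t x + v t x)) t x = (dt^[n] u) t x + (dt^[n] v) t x := by
  have h1 : ContDiffAt ℝ n (fun r => u r x) t :=
    ((hu.contDiffOn_left hx).contDiffAt (hs.mem_nhds ht)).of_le (by exact_mod_cast le_top)
  have h2 : ContDiffAt ℝ n (fun r => v r x) t :=
    ((hv.contDiffOn_left hx).contDiffAt (hs.mem_nhds ht)).of_le (by exact_mod_cast le_top)
  rw [iter_dt_apply, iter_dt_apply, iter_dt_apply, iteratedDeriv_fun_add h1 h2]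

theorem iter_dt_const_mul (c : ℝ) (u : ℝ → ℝ → ℝ) (n : ℕ) (t x : ℝ) :
    (dt^[n] (fun t x => c * u t x)) t x = c * (dt^[n] u) t x := by
  rw [iter_dt_apply, iter_dt_apply, iteratedDeriv_const_mul_field]

theorem iter_dt_right_mul (f : ℝ → ℝ) (u : ℝ → ℝ → ℝ) (n : ℕ) (t x : ℝ) :
    (dt^[n] (fun t x => f x * u t x)) t x = f x * (dt^[n] u) t x := by
  rw [iter_dt_apply, iter_dt_apply, iteratedDeriv_const_mul_field]

/-- `dx` and `dt^[j]` commute -/
theorem sm_dx_iter_dt (hu : Sm s L u) (hs : IsOpen s) (hL : 0 < L) (j : ℕ) (ht : t ∈ s)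
    (hx : x ∈ Icc 0 L) :
    dx L (dt^[j] u) t x = (dt^[j] (dx L u)) t x := by
  induction j generalizing t with
  | zero => rfl
  | succ j ih =>
    rw [Function.iterate_succ_apply', Function.iterate_succ_apply']
    rw [← Sm.dt_dx hs hL (Sm.dt_iter hs hL hu j) ht hx]
    exact dt_congr hs (fun r hr => ih hr) ht

end Crest.Agent.R213
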