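import Crest.Agent.R213.J0K

/-!
# Row 213, J0T (helper826): test functions `Tst`, the functionals `II` and `N2`, the weights.
-/

set_option autoImplicit false

open Set MeasureTheory Filter Topology

noncomputable section

namespace Crest.Agent.R213

variable {s s' : Set ℝ} {L L' t x : ℝ} {u v ψ η : ℝ → ℝ → ℝ}

/-- continuous on `(0,1) × [0,L]`, compact support in `τ` -/
def TC (L : ℝ) (ψ : ℝ → ℝ → ℝ) : Prop :=
  ContinuousOn (fun p : ℝ × ℝ => ψ p.1 p.2) (Ioo (0 : ℝ) 1 ×ˢ Icc 0 L) ∧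
    ∃ a b : ℝ, 0 < a ∧ a < b ∧ b < 1 ∧ ∀ τ x, τ ∉ Icc a b → ψ τ x = 0

theorem Tst.sm (h : Tst L ψ) : Sm (Ioo 0 1) L ψ := h.1

theorem Tst.tc (h : Tst L ψ) : TC L ψ := ⟨h.1.continuousOn, h.2⟩

theorem supp_union {ψ η : ℝ → ℝ → ℝ}
    (h : ∃ a b : ℝ, 0 < a ∧ a < b ∧ b < 1 ∧ ∀ τ x, τ ∉ Icc a b → ψ τ x = 0)
    (h' : ∃ a b : ℝ, 0 < a ∧ a < b ∧ b < 1 ∧ ∀ τ x, τ ∉ Icc a b → η τ x = 0) :
    ∃ a b : ℝ, 0 < a ∧ a < b ∧ b < 1 ∧ ∀ τ x, τ ∉ Icc a b → ψ τ x = 0 ∧ η τ x = 0 := by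
  obtain ⟨a, b, h0, h1, h2, h3⟩ := h
  obtain ⟨a', b', h0', h1', h2', h3'⟩ := h'
  refine ⟨min a a', max b b', lt_min h0 h0', ?_, max_lt h2 h2', fun τ x hτ => ⟨?_, ?_⟩⟩
  · exact lt_of_le_of_lt (min_le_left _ _) (lt_of_lt_of_le h1 (le_max_left _ _))
  · exact h3 τ x fun h => hτ ⟨(min_le_left _ _).trans h.1, h.2.trans (le_max_left _ _)⟩
  · exact h3' τ x fun h => hτ ⟨(min_le_right _ _).trans h.1, h.2.trans (le_max_right _ _)⟩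

theorem Tst.add (h : Tst L ψ) (h' : Tst L η) : Tst L (fun τ x => ψ τ x + η τ x) := by
  obtain ⟨a, b, h0, h1, h2, h3⟩ := supp_union h.2 h'.2
  exact ⟨h.1.add h'.1, a, b, h0, h1, h2, fun τ x hτ => by
    simp [(h3 τ x hτ).1, (h3 τ x hτ).2]⟩

theorem Tst.sub (h : Tst L ψ) (h' : Tst L η) : Tst L (fun τ x => ψ τ x - η τ x) := by
  obtain ⟨a, b, h0, h1, h2, h3⟩ := supp_union h.2 h'.2
  exact ⟨h.1.sub h'.1, a, b, h0, h1, h2, fun τ x hτ => by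
    simp [(h3 τ x hτ).1, (h3 τ x hτ).2]⟩

theorem Tst.mul_sm (h : Tst L ψ) (hu : Sm (Ioo 0 1) L u) : Tst L (fun τ x => ψ τ x * u τ x) := by
  obtain ⟨a, b, h0, h1, h2, h3⟩ := h.2
  exact ⟨h.1.mul hu, a, b, h0, h1, h2, fun τ x hτ => by simp [h3 τ x hτ]⟩

theorem Tst.sm_mul (h : Tst L ψ) (hu : Sm (Ioo 0 1) L u) : Tst L (fun τ x => u τ x * ψ τ x) := by
  obtain ⟨a, b, h0, h1, h2, h3⟩ := h.2
  exact ⟨hu.mul h.1, a, b, h0, h1, h2, fun τ x hτ => by simp [h3 τ x hτ]⟩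

theorem Tst.const_mul (c : ℝ) (h : Tst L ψ) : Tst L (fun τ x => c * ψ τ x) :=
  h.sm_mul (Sm.const c)

theorem Tst.neg (h : Tst L ψ) : Tst L (fun τ x => - ψ τ x) := by
  obtain ⟨a, b, h0, h1, h2, h3⟩ := h.2
  exact ⟨h.1.neg, a, b, h0, h1, h2, fun τ x hτ => by simp [h3 τ x hτ]⟩

theorem Tst.zero : Tst L (fun _ _ => 0) :=
  ⟨Sm.const 0, 1 / 4, 1 / 2, by norm_num, by norm_num, by norm_num, fun _ _ _ => rfl⟩

theorem Tst.sum {ι : Type*} {f : ι → ℝ → ℝ → ℝ} (I : Finset ι) (h : ∀ i ∈ I, Tst L (f i)) :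
    Tst L (fun τ x => ∑ i ∈ I, f i τ x) := by
  classical
  induction I using Finset.induction_on with
  | empty => simpa using (Tst.zero (L := L))
  | insert i I hi ih =>
    have h1 := h i (Finset.mem_insert_self i I)
    have h2 := ih fun j hj => h j (Finset.mem_insert_of_mem hj)
    have := h1.add h2
    simpa only [Finset.sum_insert hi] using this

theorem tst_dx (hL : 0 < L) (h : Tst L ψ) : Tst L (dx L ψ) := by
  obtain ⟨a, b, h0, h1, h2, h3⟩ := h.2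
  refine ⟨Sm.dx isOpen_Ioo hL h.1, a, b, h0, h1, h2, fun τ x hτ => ?_⟩
  have : (fun y => ψ τ y) = fun _ => 0 := funext fun y => h3 τ y hτ
  simp [dx, this]

theorem dt_eq_zero_of_supp {a b : ℝ} (h : ∀ τ x, τ ∉ Icc a b → ψ τ x = 0) :
    ∀ τ x, τ ∉ Icc a b → dt ψ τ x = 0 := by
  intro τ x hτ
  have : (fun r => ψ r x) =ᶠ[𝓝 τ] fun _ => 0 := by
    filter_upwards [isClosed_Icc.isOpen_compl.mem_nhds hτ] with r hr using h r x hr
  rw [dt, this.deriv_eq, deriv_const]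

theorem tst_dt (hL : 0 < L) (h : Tst L ψ) : Tst L (dt ψ) := by
  obtain ⟨a, b, h0, h1, h2, h3⟩ := h.2
  exact ⟨Sm.dt isOpen_Ioo hL h.1, a, b, h0, h1, h2, dt_eq_zero_of_supp h3⟩

theorem tst_dt_iter (hL : 0 < L) (h : Tst L ψ) (j : ℕ) : Tst L (dt^[j] ψ) := by
  induction j with
  | zero => exact h
  | succ j ih => rw [Function.iterate_succ_apply']; exact tst_dt hL ih

/-- products `χ(τ) p(x)` -/
theorem tst_prod {χ p : ℝ → ℝ} (hχ : ContDiffOn ℝ (⊤ : ℕ∞) χ (Ioo 0 1)) {a b : ℝ} (h0 : 0 < a)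
    (h1 : a < b) (h2 : b < 1) (h3 : ∀ τ, τ ∉ Icc a b → χ τ = 0)
    (hp : ContDiffOn ℝ (⊤ : ℕ∞) p (Icc 0 L)) : Tst L (fun τ x => χ τ * p x) :=
  ⟨(Sm.of_left hχ).mul (Sm.of_right hp), a, b, h0, h1, h2, fun τ x hτ => by simp [h3 τ hτ]⟩

theorem TC.mul_cont (h : TC L ψ) (hu : ContinuousOn (fun p : ℝ × ℝ => u p.1 p.2)
    (Ioo (0 : ℝ) 1 ×ˢ Icc 0 L)) : TC L (fun τ x => ψ τ x * u τ x) := by
  obtain ⟨a, b, h0, h1, h2, h3⟩ := h.2
  exact ⟨h.1.mul hu, a, b, h0, h1, h2, fun τ x hτ => by simp [h3 τ x hτ]⟩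

theorem TC.cont_mul (h : TC L ψ) (hu : ContinuousOn (fun p : ℝ × ℝ => u p.1 p.2)
    (Ioo (0 : ℝ) 1 ×ˢ Icc 0 L)) : TC L (fun τ x => u τ x * ψ τ x) := by
  obtain ⟨a, b, h0, h1, h2, h3⟩ := h.2
  exact ⟨hu.mul h.1, a, b, h0, h1, h2, fun τ x hτ => by simp [h3 τ x hτ]⟩

theorem TC.mul_sm (h : TC L ψ) (hu : Sm (Ioo 0 1) L u) : TC L (fun τ x => ψ τ x * u τ x) :=
  h.mul_cont hu.continuousOn

theorem TC.sm_mul (h : TC L ψ) (hu : Sm (Ioo 0 1) L u) : TC L (fun τ x => u τ x * ψ τ x) :=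
  h.cont_mul hu.continuousOn

theorem TC.add (h : TC L ψ) (h' : TC L η) : TC L (fun τ x => ψ τ x + η τ x) := by
  obtain ⟨a, b, h0, h1, h2, h3⟩ := supp_union h.2 h'.2
  exact ⟨h.1.add h'.1, a, b, h0, h1, h2, fun τ x hτ => by
    simp [(h3 τ x hτ).1, (h3 τ x hτ).2]⟩

theorem TC.sub (h : TC L ψ) (h' : TC L η) : TC L (fun τ x => ψ τ x - η τ x) := by
  obtain ⟨a, b, h0, h1, h2, h3⟩ := supp_union h.2 h'.2
  exact ⟨h.1.sub h'.1, a, b, h0, h1, h2, fun τ x hτ => by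
    simp [(h3 τ x hτ).1, (h3 τ x hτ).2]⟩

theorem TC.const_mul (c : ℝ) (h : TC L ψ) : TC L (fun τ x => c * ψ τ x) :=
  h.cont_mul continuousOn_const

theorem TC.sq (h : TC L ψ) : TC L (fun τ x => ψ τ x ^ 2) := by
  obtain ⟨a, b, h0, h1, h2, h3⟩ := h.2
  exact ⟨h.1.pow 2, a, b, h0, h1, h2, fun τ x hτ => by simp [h3 τ x hτ]⟩

/-! ### integrability, Fubini -/

theorem TC.integrableOn (h : TC L ψ) :
    IntegrableOn (fun p : ℝ × ℝ => ψ p.1 p.2) (Ioo (0 : ℝ) 1 ×ˢ Ioo 0 L) := by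
  obtain ⟨a, b, h0, h1, h2, h3⟩ := h.2
  have hsub : Icc a b ×ˢ Icc (0 : ℝ) L ⊆ Ioo (0 : ℝ) 1 ×ˢ Icc 0 L :=
    prod_mono (fun t ht => ⟨lt_of_lt_of_le h0 ht.1, lt_of_le_of_lt ht.2 h2⟩) subset_rfl
  have hI : IntegrableOn (fun p : ℝ × ℝ => ψ p.1 p.2) (Icc a b ×ˢ Icc (0 : ℝ) L) :=
    (h.1.mono hsub).integrableOn_compact (isCompact_Icc.prod isCompact_Icc)
  have hI2 : IntegrableOn (fun p : ℝ × ℝ => ψ p.1 p.2) (Icc a b ×ˢ Ioo (0 : ℝ) L) :=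
    hI.mono_set (prod_mono subset_rfl Ioo_subset_Icc_self)
  have hm : MeasurableSet (Icc a b ×ˢ Ioo (0 : ℝ) L) := measurableSet_Icc.prod measurableSet_Ioo
  refine hI2.of_forall_sdiff_eq_zero (measurableSet_Ioo.prod measurableSet_Ioo) ?_
  rintro ⟨t, x⟩ ⟨⟨_, hx⟩, hn⟩
  exact h3 t x fun ht => hn ⟨ht, hx⟩

theorem II_eq (h : TC L ψ) (hL : 0 ≤ L) :
    II L ψ = ∫ τ in (0 : ℝ)..1, ∫ x in (0 : ℝ)..L, ψ τ x := by
  have hi := h.integrableOn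
  rw [II, Measure.volume_eq_prod, setIntegral_prod _ (by rw [← Measure.volume_eq_prod]; exact hi)]
  rw [intervalIntegral.integral_of_le zero_le_one, integral_Ioc_eq_integral_Ioo]
  refine setIntegral_congr_fun measurableSet_Ioo fun τ _ => ?_
  simp only
  rw [intervalIntegral.integral_of_le hL, integral_Ioc_eq_integral_Ioo]

theorem II_eq' (h : TC L ψ) (hL : 0 ≤ L) :
    II L ψ = ∫ x in (0 : ℝ)..L, ∫ τ in (0 : ℝ)..1, ψ τ x := by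
  have hi := h.integrableOn
  have hi' : IntegrableOn (fun p : ℝ × ℝ => ψ p.1 p.2) (Ioo (0 : ℝ) 1 ×ˢ Ioo 0 L)
      ((volume : Measure ℝ).prod volume) := by rw [← Measure.volume_eq_prod]; exact hi
  have e : II L ψ = ∫ x in Ioo (0 : ℝ) L, ∫ τ in Ioo (0 : ℝ) 1, ψ τ x := by
    rw [II, Measure.volume_eq_prod]
    rw [← Measure.prod_restrict]
    rw [IntegrableOn, ← Measure.prod_restrict] at hi'
    exact integral_prod_symm (fun p : ℝ × ℝ => ψ p.1 p.2) hi'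
  rw [e, intervalIntegral.integral_of_le hL, integral_Ioc_eq_integral_Ioo]
  refine setIntegral_congr_fun measurableSet_Ioo fun τ _ => ?_
  rw [intervalIntegral.integral_of_le zero_le_one, integral_Ioc_eq_integral_Ioo]

theorem II_add (h : TC L ψ) (h' : TC L η) :
    II L (fun τ x => ψ τ x + η τ x) = II L ψ + II L η :=
  integral_add h.integrableOn h'.integrableOn

theorem II_sub (h : TC L ψ) (h' : TC L η) :
    II L (fun τ x => ψ τ x - η τ x) = II L ψ - II L η :=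
  integral_sub h.integrableOn h'.integrableOn

theorem II_const_mul (c : ℝ) (ψ : ℝ → ℝ → ℝ) : II L (fun τ x => c * ψ τ x) = c * II L ψ :=
  integral_const_mul c _

theorem II_congr (h : ∀ τ ∈ Ioo (0 : ℝ) 1, ∀ x ∈ Ioo 0 L, ψ τ x = η τ x) : II L ψ = II L η :=
  setIntegral_congr_fun (measurableSet_Ioo.prod measurableSet_Ioo) fun p hp => h p.1 hp.1 p.2 hp.2

theorem II_nonneg (h : ∀ τ ∈ Ioo (0 : ℝ) 1, ∀ x ∈ Ioo 0 L, 0 ≤ ψ τ x) : 0 ≤ II L ψ :=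
  setIntegral_nonneg (measurableSet_Ioo.prod measurableSet_Ioo) fun p hp => h p.1 hp.1 p.2 hp.2

theorem II_mono (h : TC L ψ) (h' : TC L η)
    (hle : ∀ τ ∈ Ioo (0 : ℝ) 1, ∀ x ∈ Ioo 0 L, ψ τ x ≤ η τ x) : II L ψ ≤ II L η :=
  setIntegral_mono_on h.integrableOn h'.integrableOn (measurableSet_Ioo.prod measurableSet_Ioo)
    fun p hp => hle p.1 hp.1 p.2 hp.2

/-- the `τ`-derivative of a test function integrates to zero -/
theorem II_dt (hL : 0 < L) (h : Tst L ψ) : II L (dt ψ) = 0 := by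
  rw [II_eq' (tst_dt hL h).tc hL.le]
  have : ∀ x ∈ uIcc (0 : ℝ) L, ∫ τ in (0 : ℝ)..1, dt ψ τ x = (fun _ => (0 : ℝ)) x := by
    intro x hx
    rw [uIcc_of_le hL.le] at hx
    obtain ⟨a, b, h0, h1, h2, h3⟩ := h.2
    have hd : ∀ τ : ℝ, HasDerivAt (fun r => ψ r x) (dt ψ τ x) τ := by
      intro τ
      by_cases hτ : τ ∈ Ioo (0 : ℝ) 1
      · exact h.1.hasDt isOpen_Ioo hτ hx
      · have hn : τ ∉ Icc a b := fun h => hτ ⟨lt_of_lt_of_le h0 h.1, lt_of_le_of_lt h.2 h2⟩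
        rw [dt_eq_zero_of_supp h3 τ x hn]
        have : (fun r => ψ r x) =ᶠ[𝓝 τ] fun _ => 0 := by
          filter_upwards [isClosed_Icc.isOpen_compl.mem_nhds hn] with r hr using h3 r x hr
        exact (hasDerivAt_const τ (0 : ℝ)).congr_of_eventuallyEq this
    have hc : ContinuousOn (fun τ => dt ψ τ x) (uIcc 0 1) := by
      intro τ _
      by_cases hτ : τ ∈ Ioo (0 : ℝ) 1
      · exact (((tst_dt hL h).1.continuousOn_left hx).continuousAt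
          (isOpen_Ioo.mem_nhds hτ)).continuousWithinAt
      · have hn : τ ∉ Icc a b := fun h => hτ ⟨lt_of_lt_of_le h0 h.1, lt_of_le_of_lt h.2 h2⟩
        have : (fun r => dt ψ r x) =ᶠ[𝓝 τ] fun _ => 0 := by
          filter_upwards [isClosed_Icc.isOpen_compl.mem_nhds hn] with r hr using
            dt_eq_zero_of_supp h3 r x hr
        exact (continuousAt_const.congr this.symm).continuousWithinAt
    rw [intervalIntegral.integral_eq_sub_of_hasDerivAt (fun τ _ => hd τ) hc.intervalIntegrable]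
    rw [h3 1 x (fun h => absurd h.2 (not_le.2 h2)), h3 0 x (fun h => absurd h.1 (not_le.2 h0))]
    simp
  rw [intervalIntegral.integral_congr this]
  simp

/-- integration by parts in `τ` -/
theorem II_ibp_t (hL : 0 < L) (h : Tst L ψ) (hu : Sm (Ioo 0 1) L u) :
    II L (fun τ x => dt ψ τ x * u τ x) = - II L (fun τ x => ψ τ x * dt u τ x) := by
  have h1 : II L (dt (fun τ x => ψ τ x * u τ x)) = 0 := II_dt hL (h.mul_sm hu)
  have h2 : II L (dt (fun τ x => ψ τ x * u τ x)) =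
      II L (fun τ x => dt ψ τ x * u τ x + ψ τ x * dt u τ x) :=
    II_congr fun τ hτ x hx => h.1.dt_mul hu isOpen_Ioo hτ (Ioo_subset_Icc_self hx)
  rw [h2, II_add ((tst_dt hL h).tc.mul_sm hu) (h.tc.mul_sm (Sm.dt isOpen_Ioo hL hu))] at h1
  linarith

/-! ### the weights -/

theorem contOn_Wt (κ : ℝ) (L : ℝ) :
    ContinuousOn (fun p : ℝ × ℝ => Wt κ p.1 p.2) (Ioo (0 : ℝ) 1 ×ˢ Icc 0 L) := by
  unfold Wt
  refine ContinuousOn.div ?_ ?_ ?_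
  · exact ContinuousOn.rpow_const continuousOn_fst fun p hp => Or.inl hp.1.1.ne'
  · fun_prop
  · intro p hp
    have : 0 < p.2 ^ 2 + p.1 := by have := hp.1.1; positivity
    positivity

theorem contOn_Wt' (κ : ℝ) (L : ℝ) :
    ContinuousOn (fun p : ℝ × ℝ => Wt' κ p.1 p.2) (Ioo (0 : ℝ) 1 ×ˢ Icc 0 L) :=
  (contOn_Wt κ L).div continuousOn_fst fun _ hp => hp.1.1.ne'

theorem contOn_Wt'' (κ : ℝ) (L : ℝ) :
    ContinuousOn (fun p : ℝ × ℝ => Wt'' κ p.1 p.2) (Ioo (0 : ℝ) 1 ×ˢ Icc 0 L) :=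
  continuousOn_fst.mul (contOn_Wt κ L)

theorem Wt_pos (κ : ℝ) {τ : ℝ} (hτ : 0 < τ) (x : ℝ) : 0 < Wt κ τ x := by
  unfold Wt; have : 0 < x ^ 2 + τ := by positivity
  positivity

theorem Wt'_pos (κ : ℝ) {τ : ℝ} (hτ : 0 < τ) (x : ℝ) : 0 < Wt' κ τ x :=
  div_pos (Wt_pos κ hτ x) hτ

theorem Wt''_pos (κ : ℝ) {τ : ℝ} (hτ : 0 < τ) (x : ℝ) : 0 < Wt'' κ τ x :=
  mul_pos hτ (Wt_pos κ hτ x)

theorem sm_Wt (κ : ℝ) (L : ℝ) : Sm (Ioo 0 1) L (Wt κ) := by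
  unfold Wt
  refine Sm.div (Sm.rpow Sm.fst (2 * κ) fun t ht x _ => ht.1.ne') ?_ ?_
  · exact Sm.pow (Sm.add (Sm.pow Sm.snd 2) Sm.fst) 60
  · intro t ht x _
    have : 0 < x ^ 2 + t := by have := ht.1; positivity
    positivity

theorem sm_Wt' (κ : ℝ) (L : ℝ) : Sm (Ioo 0 1) L (Wt' κ) :=
  (sm_Wt κ L).div Sm.fst fun _ ht _ _ => ht.1.ne'

theorem sm_Wt'' (κ : ℝ) (L : ℝ) : Sm (Ioo 0 1) L (Wt'' κ) := Sm.fst.mul (sm_Wt κ L)

/-! ### `N2` -/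

theorem N2_congr {V : ℝ → ℝ → ℝ} (h : ∀ τ ∈ Ioo (0 : ℝ) 1, ∀ x ∈ Ioo 0 L, u τ x = v τ x) :
    N2 L V u = N2 L V v := by
  refine setLIntegral_congr_fun (measurableSet_Ioo.prod measurableSet_Ioo) fun p hp => ?_
  rw [h p.1 hp.1 p.2 hp.2]

theorem N2_mono {V V' : ℝ → ℝ → ℝ} (h : ∀ τ ∈ Ioo (0 : ℝ) 1, ∀ x ∈ Ioo 0 L,
    V τ x * (u τ x) ^ 2 ≤ V' τ x * (v τ x) ^ 2) : N2 L V u ≤ N2 L V' v := by
  refine setLIntegral_mono' (measurableSet_Ioo.prod measurableSet_Ioo) fun p hp => ?_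
  refine ENNReal.ofReal_le_ofReal ?_
  have h1 := h p.1 hp.1 p.2 hp.2
  have h2 : 0 ≤ p.2 ^ 9 := pow_nonneg hp.2.1.le 9
  nlinarith [mul_le_mul_of_nonneg_left h1 h2]

theorem N2_smul {V : ℝ → ℝ → ℝ} (c : ℝ) :
    N2 L V (fun τ x => c * u τ x) = ENNReal.ofReal (c ^ 2) * N2 L V u := by
  unfold N2
  rw [← lintegral_const_mul' _ _ ENNReal.ofReal_ne_top]
  refine lintegral_congr fun p => ?_
  rw [← ENNReal.ofReal_mul (by positivity)]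
  congr 1; ring

theorem N2_neg {V : ℝ → ℝ → ℝ} : N2 L V (fun τ x => - u τ x) = N2 L V u := by
  unfold N2
  refine lintegral_congr fun p => ?_
  simp

theorem N2_sub_comm {V : ℝ → ℝ → ℝ} :
    N2 L V (fun τ x => u τ x - v τ x) = N2 L V (fun τ x => v τ x - u τ x) := by
  unfold N2
  refine lintegral_congr fun p => ?_
  congr 1; ring

/-- `N2` of a sum, no measurability needed for the first function being measurable -/
theorem N2_add_le {V : ℝ → ℝ → ℝ} (hV : ∀ τ ∈ Ioo (0 : ℝ) 1, ∀ x ∈ Ioo 0 L, 0 ≤ V τ x)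
    (hm : AEMeasurable (fun p : ℝ × ℝ => V p.1 p.2 * p.2 ^ 9 * (u p.1 p.2) ^ 2)
      (volume.restrict (Ioo (0 : ℝ) 1 ×ˢ Ioo 0 L))) :
    N2 L V (fun τ x => u τ x + v τ x) ≤ 2 * N2 L V u + 2 * N2 L V v := by
  have h1 : N2 L V (fun τ x => u τ x + v τ x) ≤
      ∫⁻ p in (Ioo (0 : ℝ) 1 ×ˢ Ioo (0 : ℝ) L),
        (2 * ENNReal.ofReal (V p.1 p.2 * p.2 ^ 9 * (u p.1 p.2) ^ 2) +
          2 * ENNReal.ofReal (V p.1 p.2 * p.2 ^ 9 * (v p.1 p.2) ^ 2)) := by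
    refine setLIntegral_mono' (measurableSet_Ioo.prod measurableSet_Ioo) fun p hp => ?_
    have h0 := hV p.1 hp.1 p.2 hp.2
    have h2 : 0 ≤ p.2 ^ 9 := pow_nonneg hp.2.1.le 9
    have h3 : 0 ≤ V p.1 p.2 * p.2 ^ 9 := mul_nonneg h0 h2
    rw [show (2 : ENNReal) = ENNReal.ofReal 2 by simp, ← ENNReal.ofReal_mul (by norm_num),
      ← ENNReal.ofReal_mul (by norm_num), ← ENNReal.ofReal_add (by positivity) (by positivity)]
    refine ENNReal.ofReal_le_ofReal ?_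
    nlinarith [mul_nonneg h3 (sq_nonneg (u p.1 p.2 - v p.1 p.2))]
  refine h1.trans ?_
  rw [lintegral_add_left' (by exact (hm.ennreal_ofReal.const_mul 2)),
    lintegral_const_mul' _ _ (by simp), lintegral_const_mul' _ _ (by simp)]
  rfl

theorem aemeasurable_of_contOn {f : ℝ → ℝ → ℝ}
    (h : ContinuousOn (fun p : ℝ × ℝ => f p.1 p.2) (Ioo (0 : ℝ) 1 ×ˢ Icc 0 L)) :
    AEMeasurable (fun p : ℝ × ℝ => f p.1 p.2) (volume.restrict (Ioo (0 : ℝ) 1 ×ˢ Ioo 0 L)) :=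
  (h.mono (prod_mono subset_rfl Ioo_subset_Icc_self)).aemeasurable
    (measurableSet_Ioo.prod measurableSet_Ioo)

theorem N2_eq_II {V : ℝ → ℝ → ℝ}
    (hV : ∀ τ ∈ Ioo (0 : ℝ) 1, ∀ x ∈ Ioo 0 L, 0 ≤ V τ x)
    (hVc : ContinuousOn (fun p : ℝ × ℝ => V p.1 p.2) (Ioo (0 : ℝ) 1 ×ˢ Icc 0 L)) (h : TC L u) :
    N2 L V u = ENNReal.ofReal (II L (fun τ x => V τ x * x ^ 9 * (u τ x) ^ 2)) := by
  have hc : ContinuousOn (fun p : ℝ × ℝ => (fun τ x : ℝ => V τ x * x ^ 9) p.1 p.2)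
      (Ioo (0 : ℝ) 1 ×ˢ Icc 0 L) := hVc.mul (by fun_prop)
  have htc : TC L (fun τ x => V τ x * x ^ 9 * (u τ x) ^ 2) := h.sq.cont_mul hc
  rw [N2, II, ofReal_integral_eq_lintegral_ofReal htc.integrableOn]
  refine (ae_restrict_iff' (measurableSet_Ioo.prod measurableSet_Ioo)).2 (ae_of_all _ ?_)
  intro p hp
  have h0 := hV p.1 hp.1 p.2 hp.2
  have h2 : 0 ≤ p.2 ^ 9 := pow_nonneg hp.2.1.le 9
  exact mul_nonneg (mul_nonneg h0 h2) (sq_nonneg _)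

theorem N2_lt_top {V : ℝ → ℝ → ℝ}
    (hV : ∀ τ ∈ Ioo (0 : ℝ) 1, ∀ x ∈ Ioo 0 L, 0 ≤ V τ x)
    (hVc : ContinuousOn (fun p : ℝ × ℝ => V p.1 p.2) (Ioo (0 : ℝ) 1 ×ˢ Icc 0 L)) (h : TC L u) :
    N2 L V u < ⊤ := by
  rw [N2_eq_II hV hVc h]; exact ENNReal.ofReal_lt_top

theorem N2_Wt_lt_top (κ : ℝ) (h : TC L u) : N2 L (Wt κ) u < ⊤ :=
  N2_lt_top (fun _ hτ x _ => (Wt_pos κ hτ.1 x).le) (contOn_Wt κ L) h

theorem N2_Wt'_lt_top (κ : ℝ) (h : TC L u) : N2 L (Wt' κ) u < ⊤ :=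
  N2_lt_top (fun _ hτ x _ => (Wt'_pos κ hτ.1 x).le) (contOn_Wt' κ L) h

theorem N2_Wt''_lt_top (κ : ℝ) (h : TC L u) : N2 L (Wt'' κ) u < ⊤ :=
  N2_lt_top (fun _ hτ x _ => (Wt''_pos κ hτ.1 x).le) (contOn_Wt'' κ L) h

end Crest.Agent.R213
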