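import Crest.Agent.R213.J0bGen

/-!
# Row 213, J0b: parametric integrals, Hadamard division, `Kint` for the class `Sm` (helper35)
-/

set_option autoImplicit false

open Set MeasureTheory Filter Topology
open scoped ContDiff Interval

noncomputable section

namespace Crest.Agent.R213

namespace J0b

/-! ### one variable slices -/

/-- one-sided/two-sided derivative along a line inside `K` -/
lemma hasDerivWithinAt_slice {E F : Type*} [NormedAddCommGroup E] [NormedSpace ℝ E]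
    [NormedAddCommGroup F] [NormedSpace ℝ F] {K : Set E} {g : E → F} {g' : E →L[ℝ] F} {p v : E}
    {γ : ℝ → E} {S : Set ℝ} {x : ℝ} (hγ : HasDerivWithinAt γ v S x) (hp : γ x = p)
    (hS : MapsTo γ S K) (hg : HasFDerivWithinAt g g' K p) :
    HasDerivWithinAt (fun y => g (γ y)) (g' v) S x := by
  subst hp
  exact hg.comp_hasDerivWithinAt x hγ hS

variable {s : Set ℝ} {L : ℝ} {u : ℝ → ℝ → ℝ}

lemma uniqueDiffOn_strip (hs : IsOpen s) (hL : 0 < L) : UniqueDiffOn ℝ (s ×ˢ Icc 0 L) :=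
  hs.uniqueDiffOn.prod (uniqueDiffOn_Icc hL)

/-- the two partial derivatives of a function on the strip from its Fréchet derivative -/
lemma slices (hs : IsOpen s) (hL : 0 < L) {g : ℝ × ℝ → ℝ} {g' : ℝ × ℝ →L[ℝ] ℝ} {t x : ℝ}
    (ht : t ∈ s) (hx : x ∈ Icc 0 L) (hg : HasFDerivWithinAt g g' (s ×ˢ Icc 0 L) (t, x)) :
    HasDerivWithinAt (fun y => g (t, y)) (g' (0, 1)) (Icc 0 L) x ∧
    HasDerivAt (fun r => g (r, x)) (g' (1, 0)) t := by
  constructor
  · have hm : MapsTo (fun y : ℝ => (t, y)) (Icc 0 L) (s ×ˢ Icc 0 L) := fun y hy => ⟨ht, hy⟩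
    exact hasDerivWithinAt_slice (γ := fun y => (t, y)) (v := (0, 1))
      ((hasDerivWithinAt_const x _ t).prodMk (hasDerivWithinAt_id x _)) rfl hm hg
  · have hm : MapsTo (fun r : ℝ => (r, x)) s (s ×ˢ Icc 0 L) := fun y hy => ⟨hy, hx⟩
    have := hasDerivWithinAt_slice (γ := fun r => (r, x)) (v := (1, 0)) (S := s) (x := t)
      ((hasDerivWithinAt_id t _).prodMk (hasDerivWithinAt_const t _ x)) rfl hm hg
    exact this.hasDerivAt (hs.mem_nhds ht)

lemma dx_of_hasFDeriv (hs : IsOpen s) (hL : 0 < L) {g' : ℝ × ℝ →L[ℝ] ℝ} {t x : ℝ}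
    (ht : t ∈ s) (hx : x ∈ Icc 0 L)
    (hg : HasFDerivWithinAt (fun p : ℝ × ℝ => u p.1 p.2) g' (s ×ˢ Icc 0 L) (t, x)) :
    dx L u t x = g' (0, 1) ∧ dt u t x = g' (1, 0) := by
  obtain ⟨h1, h2⟩ := slices hs hL ht hx hg
  exact ⟨h1.derivWithin (uniqueDiffOn_Icc hL x hx), h2.deriv⟩

end J0b

open J0b

variable {s : Set ℝ} {L a b : ℝ}

/-! ### parametric integrals -/

/-- `H r t x` smooth on `[a,b] × s × [0,L]` -/
def SmP (a b : ℝ) (s : Set ℝ) (L : ℝ) (H : ℝ → ℝ → ℝ → ℝ) : Prop :=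
  ContDiffOn ℝ ∞ (fun q : ℝ × (ℝ × ℝ) => H q.1 q.2.1 q.2.2) (Icc a b ×ˢ (s ×ˢ Icc 0 L))

lemma SmP.mono {H : ℝ → ℝ → ℝ → ℝ} (h : SmP a b s L H) {s' : Set ℝ} (hs : s' ⊆ s) :
    SmP a b s' L H :=
  ContDiffOn.mono h (prod_mono Subset.rfl (prod_mono hs Subset.rfl))

/-- localisation in the time variable -/
lemma Sm.of_local {u : ℝ → ℝ → ℝ}
    (h : ∀ t ∈ s, ∃ δ > 0, Metric.ball t δ ⊆ s ∧ Sm (Metric.ball t δ) L u) : Sm s L u := by
  rintro ⟨t, x⟩ ⟨ht, hx⟩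
  obtain ⟨δ, hδ, hsub, hsm⟩ := h t ht
  have h1 := hsm (t, x) ⟨Metric.mem_ball_self hδ, hx⟩
  refine h1.mono_of_mem_nhdsWithin ?_
  have h2 : (Metric.ball t δ ×ˢ (univ : Set ℝ)) ∈ 𝓝 (t, x) :=
    (Metric.isOpen_ball.prod isOpen_univ).mem_nhds ⟨Metric.mem_ball_self hδ, mem_univ _⟩
  filter_upwards [mem_nhdsWithin_of_mem_nhds h2, self_mem_nhdsWithin] with q h3 h4
  exact ⟨h3.1, h4.2⟩

namespace J0b

lemma pint_ball (hL : 0 < L) (hab : a < b) {t δ : ℝ} {H : ℝ → ℝ → ℝ → ℝ}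
    (hH : SmP a b (Metric.ball t δ) L H) :
    Sm (Metric.ball t δ) L (fun t x => ∫ r in a..b, H r t x) := by
  have hK : Convex ℝ (Metric.ball t δ ×ˢ Icc 0 L) := (convex_ball t δ).prod (convex_Icc 0 L)
  exact contDiffOn_pint hab hK (uniqueDiffOn_strip Metric.isOpen_ball hL) hH

/-- partial derivatives of the integrand -/
lemma SmP_partials (hs : IsOpen s) (hL : 0 < L) {H : ℝ → ℝ → ℝ → ℝ}
    (hH : SmP a b s L H) {r t x : ℝ} (hr : r ∈ Icc a b) (ht : t ∈ s) (hx : x ∈ Icc 0 L) :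
    dx L (H r) t x = pdK a b (s ×ˢ Icc 0 L)
        (fun q : ℝ × (ℝ × ℝ) => H q.1 q.2.1 q.2.2) (r, (t, x)) (0, 1) ∧
    dt (H r) t x = pdK a b (s ×ˢ Icc 0 L)
        (fun q : ℝ × (ℝ × ℝ) => H q.1 q.2.1 q.2.2) (r, (t, x)) (1, 0) := by
  have h1 := hasFDerivWithinAt_pdK (K := s ×ˢ Icc 0 L)
    (H := fun q : ℝ × (ℝ × ℝ) => H q.1 q.2.1 q.2.2) (ContDiffOn.differentiableOn hH (by simp)) hr
    (q := (t, x)) ⟨ht, hx⟩
  exact dx_of_hasFDeriv (u := H r) hs hL ht hx h1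

end J0b

/-- **parametric integrals of smooth functions are smooth** -/
theorem Sm.pint (hs : IsOpen s) (hL : 0 < L) (hab : a < b) {H : ℝ → ℝ → ℝ → ℝ}
    (hH : SmP a b s L H) : Sm s L (fun t x => ∫ r in a..b, H r t x) := by
  refine Sm.of_local fun t ht => ?_
  obtain ⟨δ, hδ, hsub⟩ := Metric.isOpen_iff.1 hs t ht
  exact ⟨δ, hδ, hsub, pint_ball hL hab (hH.mono hsub)⟩

/-- derivatives of parametric integrals -/
theorem pint_deriv (hs : IsOpen s) (hL : 0 < L) (hab : a < b) {H : ℝ → ℝ → ℝ → ℝ}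
    (hH : SmP a b s L H) {t x : ℝ} (ht : t ∈ s) (hx : x ∈ Icc 0 L) :
    dx L (fun t x => ∫ r in a..b, H r t x) t x = ∫ r in a..b, dx L (H r) t x ∧
    dt (fun t x => ∫ r in a..b, H r t x) t x = ∫ r in a..b, dt (H r) t x := by
  obtain ⟨δ, hδ, hsub⟩ := Metric.isOpen_iff.1 hs t ht
  have hH' := hH.mono hsub
  set B := Metric.ball t δ with hB
  have htB : t ∈ B := Metric.mem_ball_self hδ
  have hK : Convex ℝ (B ×ˢ Icc 0 L) := (convex_ball t δ).prod (convex_Icc 0 L)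
  have hU := uniqueDiffOn_strip (s := B) Metric.isOpen_ball hL
  set G : ℝ × (ℝ × ℝ) → ℝ := fun q => H q.1 q.2.1 q.2.2 with hG
  have hG1 : ContDiffOn ℝ ∞ G (Icc a b ×ˢ (B ×ˢ Icc 0 L)) := hH'
  have hG' : ContinuousOn (pdK a b (B ×ˢ Icc 0 L) G) (Icc a b ×ˢ (B ×ˢ Icc 0 L)) :=
    ((hG1.fderivWithin (m := ∞) ((uniqueDiffOn_Icc hab).prod hU) (by simp)).clm_comp
      contDiffOn_const).continuousOn
  have h1 := hasFDerivWithinAt_pint (K := B ×ˢ Icc 0 L) hab.le hK hG1.continuousOn hG'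
    (fun r hr q hq => hasFDerivWithinAt_pdK (hG1.differentiableOn (by simp)) hr hq)
    (p := (t, x)) ⟨htB, hx⟩
  obtain ⟨e1, e2⟩ := dx_of_hasFDeriv (u := fun t x => ∫ r in a..b, H r t x)
    (s := B) Metric.isOpen_ball hL htB hx h1
  have hint := intervalIntegrable_slice hab.le hG' (p := (t, x)) ⟨htB, hx⟩
  rw [e1, e2, ContinuousLinearMap.intervalIntegral_apply hint,
    ContinuousLinearMap.intervalIntegral_apply hint]
  constructor
  · refine intervalIntegral.integral_congr (fun r hr => ?_)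
    rw [uIcc_of_le hab.le] at hr
    exact (SmP_partials Metric.isOpen_ball hL hH' hr htB hx).1.symm
  · refine intervalIntegral.integral_congr (fun r hr => ?_)
    rw [uIcc_of_le hab.le] at hr
    exact (SmP_partials Metric.isOpen_ball hL hH' hr htB hx).2.symm

end Crest.Agent.R213
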