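import Crest.Agent.R213.J0b

/-!
# Row 213, J0b: scaled integrals, Hadamard division for the class `Sm` (helper35)
-/

set_option autoImplicit false
set_option linter.unusedVariables false

open Set MeasureTheory Filter Topology
open scoped ContDiff Interval

noncomputable section

namespace Crest.Agent.R213

variable {s s' : Set ℝ} {L L' a b : ℝ} {u v : ℝ → ℝ → ℝ}

namespace J0b

/-! ### `dx`, `dt` of a smooth function are smooth -/

lemma hasFDeriv_of_sm (hu : Sm s L u) {t x : ℝ} (ht : t ∈ s) (hx : x ∈ Icc 0 L) :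
    HasFDerivWithinAt (fun p : ℝ × ℝ => u p.1 p.2)
      (fderivWithin ℝ (fun p : ℝ × ℝ => u p.1 p.2) (s ×ˢ Icc 0 L) (t, x)) (s ×ˢ Icc 0 L) (t, x) :=
  ((ContDiffOn.differentiableOn hu (by simp)) (t, x) ⟨ht, hx⟩).hasFDerivWithinAt

lemma sm_dx (hs : IsOpen s) (hL : 0 < L) (hu : Sm s L u) : Sm s L (dx L u) := by
  have h1 : ContDiffOn ℝ ∞ (fun p => fderivWithin ℝ (fun p : ℝ × ℝ => u p.1 p.2)
      (s ×ˢ Icc 0 L) p (0, 1)) (s ×ˢ Icc 0 L) :=
    (ContDiffOn.fderivWithin hu (m := ∞) (uniqueDiffOn_strip hs hL) (by simp)).clm_apply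
      contDiffOn_const
  refine ContDiffOn.congr h1 ?_
  rintro ⟨t, x⟩ ⟨ht, hx⟩
  exact (dx_of_hasFDeriv hs hL ht hx (hasFDeriv_of_sm hu ht hx)).1

lemma sm_dt (hs : IsOpen s) (hL : 0 < L) (hu : Sm s L u) : Sm s L (dt u) := by
  have h1 : ContDiffOn ℝ ∞ (fun p => fderivWithin ℝ (fun p : ℝ × ℝ => u p.1 p.2)
      (s ×ˢ Icc 0 L) p (1, 0)) (s ×ˢ Icc 0 L) :=
    (ContDiffOn.fderivWithin hu (m := ∞) (uniqueDiffOn_strip hs hL) (by simp)).clm_apply
      contDiffOn_const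
  refine ContDiffOn.congr h1 ?_
  rintro ⟨t, x⟩ ⟨ht, hx⟩
  exact (dx_of_hasFDeriv hs hL ht hx (hasFDeriv_of_sm hu ht hx)).2

lemma hasDerivWithinAt_dx (hs : IsOpen s) (hL : 0 < L) (hu : Sm s L u) {t x : ℝ} (ht : t ∈ s)
    (hx : x ∈ Icc 0 L) : HasDerivWithinAt (fun y => u t y) (dx L u t x) (Icc 0 L) x := by
  have h := hasFDeriv_of_sm hu ht hx
  rw [(dx_of_hasFDeriv hs hL ht hx h).1]
  exact (slices hs hL ht hx h).1

lemma hasDerivAt_dt (hs : IsOpen s) (hL : 0 < L) (hu : Sm s L u) {t x : ℝ} (ht : t ∈ s)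
    (hx : x ∈ Icc 0 L) : HasDerivAt (fun r => u r x) (dt u t x) t := by
  have h := hasFDeriv_of_sm hu ht hx
  rw [(dx_of_hasFDeriv hs hL ht hx h).2]
  exact (slices hs hL ht hx h).2

lemma continuousOn_slice (hu : Sm s L u) {t : ℝ} (ht : t ∈ s) :
    ContinuousOn (fun x => u t x) (Icc 0 L) :=
  (ContDiffOn.continuousOn hu).comp (f := fun x => (t, x)) (by fun_prop) (fun x hx => ⟨ht, hx⟩)

lemma contDiffOn_slice (hu : Sm s L u) {t : ℝ} (ht : t ∈ s) :
    ContDiffOn ℝ ∞ (fun x => u t x) (Icc 0 L) :=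
  ContDiffOn.comp (g := fun p : ℝ × ℝ => u p.1 p.2) (f := fun x => (t, x)) hu
    (by fun_prop) (fun x hx => ⟨ht, hx⟩)

end J0b

open J0b

/-! ### composition -/

lemma SmP.of_comp (hu : Sm s' L' u) {φ ψ : ℝ → ℝ → ℝ → ℝ} (hφ : SmP a b s L φ)
    (hψ : SmP a b s L ψ)
    (hm : ∀ r ∈ Icc a b, ∀ t ∈ s, ∀ x ∈ Icc 0 L, φ r t x ∈ s' ∧ ψ r t x ∈ Icc 0 L') :
    SmP a b s L (fun r t x => u (φ r t x) (ψ r t x)) := by
  have h := ContDiffOn.comp (g := fun p : ℝ × ℝ => u p.1 p.2)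
    (f := fun q : ℝ × (ℝ × ℝ) => (φ q.1 q.2.1 q.2.2, ψ q.1 q.2.1 q.2.2)) hu (hφ.prodMk hψ)
    (t := s' ×ˢ Icc 0 L') (fun q hq => hm q.1 hq.1 q.2.1 hq.2.1 q.2.2 hq.2.2)
  exact h

/-- a polynomial expression in `r t x` (any globally smooth function) -/
lemma SmP.of_contDiff {H : ℝ → ℝ → ℝ → ℝ}
    (h : ContDiff ℝ ∞ (fun q : ℝ × (ℝ × ℝ) => H q.1 q.2.1 q.2.2)) : SmP a b s L H :=
  h.contDiffOn

lemma SmP.mul {H G : ℝ → ℝ → ℝ → ℝ} (hH : SmP a b s L H) (hG : SmP a b s L G) :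
    SmP a b s L (fun r t x => H r t x * G r t x) := ContDiffOn.mul hH hG

lemma SmP.add {H G : ℝ → ℝ → ℝ → ℝ} (hH : SmP a b s L H) (hG : SmP a b s L G) :
    SmP a b s L (fun r t x => H r t x + G r t x) := ContDiffOn.add hH hG

lemma scale_mem {r x : ℝ} (hr : r ∈ Icc (0:ℝ) 1) (hx : x ∈ Icc 0 L) : r * x ∈ Icc 0 L :=
  ⟨mul_nonneg hr.1 hx.1, by nlinarith [hr.1, hr.2, hx.1, hx.2]⟩

lemma scale_mem' {r x : ℝ} (hr : r ∈ Icc (0:ℝ) 1) (hx : x ∈ Icc 0 L) :
    x + r * (L - x) ∈ Icc 0 L := by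
  obtain ⟨h1, h2⟩ := hr
  obtain ⟨h3, h4⟩ := hx
  constructor
  · nlinarith
  · nlinarith

/-- `u t (r x)` -/
lemma Sm.scaleP (hu : Sm s L u) : SmP 0 1 s L (fun r t x => u t (r * x)) :=
  SmP.of_comp hu (SmP.of_contDiff (by fun_prop)) (SmP.of_contDiff (by fun_prop))
    (fun r hr t ht x hx => ⟨ht, scale_mem hr hx⟩)

/-- `u t (x + r (L - x))` -/
lemma Sm.scaleP' (hu : Sm s L u) : SmP 0 1 s L (fun r t x => u t (x + r * (L - x))) :=
  SmP.of_comp hu (SmP.of_contDiff (by fun_prop)) (SmP.of_contDiff (by fun_prop))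
    (fun r hr t ht x hx => ⟨ht, scale_mem' hr hx⟩)

/-- chain rule for the scaling -/
lemma dx_scale (hs : IsOpen s) (hL : 0 < L) (hu : Sm s L u) {r t x : ℝ} (hr : r ∈ Icc (0:ℝ) 1)
    (ht : t ∈ s) (hx : x ∈ Icc 0 L) :
    dx L (fun t x => u t (r * x)) t x = r * dx L u t (r * x) := by
  have h1 := hasDerivWithinAt_dx hs hL hu ht (scale_mem hr hx)
  have h2 : HasDerivWithinAt (fun y : ℝ => r * y) r (Icc 0 L) x := by
    simpa using (hasDerivWithinAt_id x (Icc 0 L)).const_mul r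
  have h3 := HasDerivWithinAt.scomp x h1 h2 (fun y hy => scale_mem hr hy)
  have h4 := h3.derivWithin (uniqueDiffOn_Icc hL x hx)
  simpa [dx, Function.comp_def] using h4

lemma dx_scale' (hs : IsOpen s) (hL : 0 < L) (hu : Sm s L u) {r t x : ℝ} (hr : r ∈ Icc (0:ℝ) 1)
    (ht : t ∈ s) (hx : x ∈ Icc 0 L) :
    dx L (fun t x => u t (x + r * (L - x))) t x = (1 - r) * dx L u t (x + r * (L - x)) := by
  have h1 := hasDerivWithinAt_dx hs hL hu ht (scale_mem' hr hx)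
  have h2 : HasDerivWithinAt (fun y : ℝ => y + r * (L - y)) (1 - r) (Icc 0 L) x := by
    have := (hasDerivWithinAt_id x (Icc 0 L)).add
      (((hasDerivWithinAt_id x (Icc 0 L)).const_sub L).const_mul r)
    refine this.congr_deriv ?_
    ring
  have h3 := HasDerivWithinAt.scomp x h1 h2 (fun y hy => scale_mem' hr hy)
  have h4 := h3.derivWithin (uniqueDiffOn_Icc hL x hx)
  simpa [dx, Function.comp_def] using h4

/-! ### `∫₀¹ w(r) u(t, r x) dr` -/

/-- `∫₀¹ w(r) u(t, r x) dr` -/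
def pintx (w : ℝ → ℝ) (u : ℝ → ℝ → ℝ) : ℝ → ℝ → ℝ := fun t x => ∫ r in (0:ℝ)..1, w r * u t (r * x)

theorem Sm.pintx (hs : IsOpen s) (hL : 0 < L) {w : ℝ → ℝ} (hw : ContDiff ℝ ∞ w) (hu : Sm s L u) :
    Sm s L (pintx w u) := by
  have h : SmP 0 1 s L (fun r t x => w r * u t (r * x)) :=
    SmP.mul (SmP.of_contDiff (by fun_prop)) hu.scaleP
  exact Sm.pint hs hL one_pos h

theorem pintx_deriv (hs : IsOpen s) (hL : 0 < L) {w : ℝ → ℝ} (hw : ContDiff ℝ ∞ w)
    (hu : Sm s L u) {t x : ℝ} (ht : t ∈ s) (hx : x ∈ Icc 0 L) :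
    dx L (R213.pintx w u) t x = R213.pintx (fun r => w r * r) (dx L u) t x ∧
    dt (R213.pintx w u) t x = R213.pintx w (dt u) t x := by
  have h : SmP 0 1 s L (fun r t x => w r * u t (r * x)) :=
    SmP.mul (SmP.of_contDiff (by fun_prop)) hu.scaleP
  obtain ⟨h1, h2⟩ := pint_deriv hs hL one_pos h ht hx
  constructor
  · refine h1.trans (intervalIntegral.integral_congr (fun r hr => ?_))
    rw [uIcc_of_le zero_le_one] at hr
    show dx L (fun t x => w r * u t (r * x)) t x = w r * r * dx L u t (r * x)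
    have e := dx_scale hs hL hu hr ht hx
    unfold dx at e ⊢
    rw [derivWithin_const_mul_field, e]
    ring
  · refine h2.trans (intervalIntegral.integral_congr (fun r hr => ?_))
    show dt (fun t x => w r * u t (r * x)) t x = w r * dt u t (r * x)
    unfold dt
    rw [deriv_const_mul_field]

/-! ### Hadamard division -/

/-- `(u(t,x) - u(t,0)) / x` -/
def had (L : ℝ) (u : ℝ → ℝ → ℝ) : ℝ → ℝ → ℝ := fun t x => ∫ r in (0:ℝ)..1, dx L u t (r * x)

/-- `(u(t,L) - u(t,x)) / (L - x)` -/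
def hadL (L : ℝ) (u : ℝ → ℝ → ℝ) : ℝ → ℝ → ℝ :=
  fun t x => ∫ r in (0:ℝ)..1, dx L u t (x + r * (L - x))

theorem Sm.had (hs : IsOpen s) (hL : 0 < L) (hu : Sm s L u) : Sm s L (had L u) :=
  Sm.pint hs hL one_pos (sm_dx hs hL hu).scaleP

theorem Sm.hadL (hs : IsOpen s) (hL : 0 < L) (hu : Sm s L u) : Sm s L (hadL L u) :=
  Sm.pint hs hL one_pos (sm_dx hs hL hu).scaleP'

lemma mem_interior_of {r x : ℝ} (hr : r ∈ Ioo (0:ℝ) 1) (hx : x ∈ Icc 0 L) (h0 : 0 < x) :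
    r * x ∈ Ioo 0 L := ⟨mul_pos hr.1 h0, by nlinarith [hr.2, hx.2]⟩

theorem had_eq (hs : IsOpen s) (hL : 0 < L) (hu : Sm s L u) {t x : ℝ} (ht : t ∈ s)
    (hx : x ∈ Icc 0 L) : u t x = u t 0 + x * R213.had L u t x := by
  rcases eq_or_lt_of_le hx.1 with h0 | h0
  · rw [← h0]; simp
  have hc : ContinuousOn (fun r : ℝ => u t (r * x)) (Icc 0 1) :=
    (continuousOn_slice hu ht).comp (by fun_prop) (fun r hr => scale_mem hr hx)
  have hc' : ContinuousOn (fun r : ℝ => x * dx L u t (r * x)) (Icc 0 1) :=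
    continuousOn_const.mul ((continuousOn_slice (sm_dx hs hL hu) ht).comp (by fun_prop)
      (fun r hr => scale_mem hr hx))
  have hd : ∀ r ∈ Ioo (0:ℝ) 1, HasDerivAt (fun r : ℝ => u t (r * x)) (x * dx L u t (r * x)) r := by
    intro r hr
    have hm := mem_interior_of hr hx h0
    have h1 : HasDerivAt (fun y => u t y) (dx L u t (r * x)) (r * x) :=
      (hasDerivWithinAt_dx hs hL hu ht ⟨hm.1.le, hm.2.le⟩).hasDerivAt (Icc_mem_nhds hm.1 hm.2)
    have h2 : HasDerivAt (fun r : ℝ => r * x) x r := by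
      simpa using (hasDerivAt_id r).mul_const x
    simpa [Function.comp_def, mul_comm] using HasDerivAt.scomp r h1 h2
  have := intervalIntegral.integral_eq_sub_of_hasDerivAt_of_le zero_le_one hc hd
    (hc'.intervalIntegrable_of_Icc zero_le_one)
  rw [intervalIntegral.integral_const_mul] at this
  unfold R213.had
  rw [this]; simp

theorem hadL_eq (hs : IsOpen s) (hL : 0 < L) (hu : Sm s L u) {t x : ℝ} (ht : t ∈ s)
    (hx : x ∈ Icc 0 L) : u t x = u t L - (L - x) * R213.hadL L u t x := by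
  rcases eq_or_lt_of_le hx.2 with h0 | h0
  · rw [h0]; simp
  have hc : ContinuousOn (fun r : ℝ => u t (x + r * (L - x))) (Icc 0 1) :=
    (continuousOn_slice hu ht).comp (by fun_prop) (fun r hr => scale_mem' hr hx)
  have hc' : ContinuousOn (fun r : ℝ => (L - x) * dx L u t (x + r * (L - x))) (Icc 0 1) :=
    continuousOn_const.mul ((continuousOn_slice (sm_dx hs hL hu) ht).comp (by fun_prop)
      (fun r hr => scale_mem' hr hx))
  have hd : ∀ r ∈ Ioo (0:ℝ) 1, HasDerivAt (fun r : ℝ => u t (x + r * (L - x)))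
      ((L - x) * dx L u t (x + r * (L - x))) r := by
    intro r hr
    have hm : x + r * (L - x) ∈ Ioo 0 L := by
      constructor
      · have := hx.1; have := mul_pos hr.1 (sub_pos.2 h0); linarith
      · nlinarith [hr.2]
    have h1 : HasDerivAt (fun y => u t y) (dx L u t (x + r * (L - x))) (x + r * (L - x)) :=
      (hasDerivWithinAt_dx hs hL hu ht ⟨hm.1.le, hm.2.le⟩).hasDerivAt (Icc_mem_nhds hm.1 hm.2)
    have h2 : HasDerivAt (fun r : ℝ => x + r * (L - x)) (L - x) r := by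
      simpa using ((hasDerivAt_id r).mul_const (L - x)).const_add x
    simpa [Function.comp_def, mul_comm] using HasDerivAt.scomp r h1 h2
  have := intervalIntegral.integral_eq_sub_of_hasDerivAt_of_le zero_le_one hc hd
    (hc'.intervalIntegrable_of_Icc zero_le_one)
  rw [intervalIntegral.integral_const_mul] at this
  unfold R213.hadL
  rw [this]; simp

/-- Hadamard division by `x` -/
theorem Sm.exists_div_x (hs : IsOpen s) (hL : 0 < L) (hu : Sm s L u)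
    (h0 : ∀ t ∈ s, u t 0 = 0) :
    ∃ v, Sm s L v ∧ ∀ t ∈ s, ∀ x ∈ Icc 0 L, u t x = x * v t x :=
  ⟨R213.had L u, hu.had hs hL, fun t ht x hx => by rw [had_eq hs hL hu ht hx, h0 t ht, zero_add]⟩

/-- Hadamard division by `L - x` -/
theorem Sm.exists_div_Lx (hs : IsOpen s) (hL : 0 < L) (hu : Sm s L u)
    (h0 : ∀ t ∈ s, u t L = 0) :
    ∃ v, Sm s L v ∧ ∀ t ∈ s, ∀ x ∈ Icc 0 L, u t x = (L - x) * v t x := by
  refine ⟨fun t x => - R213.hadL L u t x, ContDiffOn.neg (hu.hadL hs hL), fun t ht x hx => ?_⟩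
  rw [hadL_eq hs hL hu ht hx, h0 t ht]; ring

end Crest.Agent.R213
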