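import Crest.Agent.R213.CK

/-!
# Row 213: weighted classes `SC` and the half-interval bootstrap

`SC s y0 p f`: `y^p f` is a smooth curve of bounded continuous functions on `(0,y0]`.
-/

set_option autoImplicit false

open Set MeasureTheory Filter Topology
open scoped ContDiff BoundedContinuousFunction

noncomputable section

namespace Crest.Agent.R213

/-- bounded continuous functions on `(0,y0]` -/
abbrev BX (y0 : ℝ) : Type := (Ioc (0 : ℝ) y0) →ᵇ ℝ

/-- `y^p f` is a smooth curve in `BX y0` -/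
def SC (s : Set ℝ) (y0 : ℝ) (p : ℕ) (f : ℝ → ℝ → ℝ) : Prop :=
  ∃ g : ℝ → BX y0, ContDiffOn ℝ ∞ g s ∧ ∀ τ ∈ s, ∀ y : Ioc (0 : ℝ) y0, (y : ℝ) ^ p * f τ y = g τ y

variable {s : Set ℝ} {y0 : ℝ} {f g : ℝ → ℝ → ℝ} {p : ℕ}

theorem SC.congr (hf : SC s y0 p f) (h : ∀ τ ∈ s, ∀ y ∈ Ioc 0 y0, g τ y = f τ y) :
    SC s y0 p g := by
  obtain ⟨G, hG, hfG⟩ := hf
  exact ⟨G, hG, fun τ hτ y => by rw [h τ hτ y y.2, hfG τ hτ y]⟩

theorem SC.add (hf : SC s y0 p f) (hg : SC s y0 p g) : SC s y0 p (fun τ y => f τ y + g τ y) := by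
  obtain ⟨F, hF, hfF⟩ := hf
  obtain ⟨G, hG, hgG⟩ := hg
  exact ⟨fun τ => F τ + G τ, hF.add hG, fun τ hτ y => by
    rw [mul_add, hfF τ hτ y, hgG τ hτ y]; rfl⟩

/-- restriction `C([0,y0]) → BX y0` -/
def resOp (y0 : ℝ) : C(Icc (0 : ℝ) y0, ℝ) →L[ℝ] BX y0 :=
  LinearMap.mkContinuous
    { toFun := fun g => BoundedContinuousFunction.ofNormedAddCommGroup
        (fun y : Ioc (0 : ℝ) y0 => g ⟨y, ⟨y.2.1.le, y.2.2⟩⟩)
        (g.continuous.comp (by fun_prop)) ‖g‖ (fun y => g.norm_coe_le_norm _)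
      map_add' := fun g k => by ext y; rfl
      map_smul' := fun c g => by ext y; rfl } 1
    (fun g => by
      rw [one_mul]
      exact (BoundedContinuousFunction.norm_le (norm_nonneg g)).2 fun y => g.norm_coe_le_norm _)

theorem resOp_apply (g : C(Icc (0 : ℝ) y0, ℝ)) (y : Ioc (0 : ℝ) y0) :
    resOp y0 g y = g ⟨y, ⟨y.2.1.le, y.2.2⟩⟩ := rfl

theorem SC.mul_c0 (hf : SC s y0 p f) (hg : C0 s y0 g) : SC s y0 p (fun τ y => g τ y * f τ y) := by
  obtain ⟨F, hF, hfF⟩ := hf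
  obtain ⟨G, hG, hgG⟩ := hg
  refine ⟨fun τ => resOp y0 (G τ) * F τ, ((resOp y0).contDiff.comp_contDiffOn hG).mul hF,
    fun τ hτ y => ?_⟩
  have h1 : (resOp y0 (G τ) * F τ) y = resOp y0 (G τ) y * F τ y := rfl
  rw [h1, ← hfF τ hτ y, resOp_apply, ← hgG τ hτ ⟨y, ⟨y.2.1.le, y.2.2⟩⟩]
  ring

theorem SC.of_c0_zero (hf : C0 s y0 f) : SC s y0 0 f := by
  obtain ⟨G, hG, hgG⟩ := hf
  refine ⟨fun τ => resOp y0 (G τ), (resOp y0).contDiff.comp_contDiffOn hG, fun τ hτ y => ?_⟩
  rw [resOp_apply, ← hgG τ hτ ⟨y, ⟨y.2.1.le, y.2.2⟩⟩]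
  simp

theorem SC.mono {q : ℕ} (hpq : p ≤ q) (hf : SC s y0 p f) : SC s y0 q f := by
  obtain ⟨F, hF, hfF⟩ := hf
  have hy : C0 s y0 (fun _ y => y ^ (q - p)) := C0.of_right (by fun_prop)
  obtain ⟨Y, hY, hyY⟩ := hy
  refine ⟨fun τ => resOp y0 (Y τ) * F τ, ((resOp y0).contDiff.comp_contDiffOn hY).mul hF,
    fun τ hτ y => ?_⟩
  have h1 : (resOp y0 (Y τ) * F τ) y = resOp y0 (Y τ) y * F τ y := rfl
  rw [h1, ← hfF τ hτ y, resOp_apply, ← hyY τ hτ ⟨y, ⟨y.2.1.le, y.2.2⟩⟩, ← mul_assoc, ← pow_add,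
    Nat.sub_add_cancel hpq]

theorem SC.of_c0 (hf : C0 s y0 f) : SC s y0 p f := (SC.of_c0_zero hf).mono (Nat.zero_le p)

theorem SC.hasDerivAt (hs : IsOpen s) (hf : SC s y0 p f) {τ : ℝ} (hτ : τ ∈ s) {y : ℝ}
    (hy : y ∈ Ioc 0 y0) : HasDerivAt (fun r => f r y) (dt f τ y) τ := by
  obtain ⟨G, hG, hfG⟩ := hf
  have h1 := (BoundedContinuousFunction.evalCLM ℝ (⟨y, hy⟩ : Ioc (0 : ℝ) y0)).hasFDerivAt.comp_hasDerivAt τ
    (smoothCurve_hasDerivAt hs hG hτ)
  have hyp : (0 : ℝ) < y ^ p := pow_pos hy.1 p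
  have h2 : HasDerivAt (fun r => f r y) ((y ^ p)⁻¹ * deriv G τ ⟨y, hy⟩) τ := by
    have h3 := h1.const_mul ((y ^ p)⁻¹)
    refine h3.congr_of_eventuallyEq ?_
    filter_upwards [hs.mem_nhds hτ] with r hr
    have := hfG r hr ⟨y, hy⟩
    change f r y = (y ^ p)⁻¹ * G r ⟨y, hy⟩
    rw [← this]
    field_simp
  have h4 : R213.dt f τ y = (y ^ p)⁻¹ * deriv G τ ⟨y, hy⟩ := h2.deriv
  rwa [h4]

theorem SC.dt (hs : IsOpen s) (hf : SC s y0 p f) : SC s y0 p (dt f) := by
  obtain ⟨G, hG, hfG⟩ := hf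
  refine ⟨deriv G, smoothCurve_deriv hs hG, fun τ hτ y => ?_⟩
  have h1 := (BoundedContinuousFunction.evalCLM ℝ y).hasFDerivAt.comp_hasDerivAt τ
    (smoothCurve_hasDerivAt hs hG hτ)
  have hyp : (0 : ℝ) < (y : ℝ) ^ p := pow_pos y.2.1 p
  have h2 : HasDerivAt (fun r => f r y) (((y : ℝ) ^ p)⁻¹ * deriv G τ y) τ := by
    have h3 := h1.const_mul (((y : ℝ) ^ p)⁻¹)
    refine h3.congr_of_eventuallyEq ?_
    filter_upwards [hs.mem_nhds hτ] with r hr
    have := hfG r hr y
    change f r y = ((y : ℝ) ^ p)⁻¹ * G r y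
    rw [← this]
    field_simp
  have h4 : R213.dt f τ y = ((y : ℝ) ^ p)⁻¹ * deriv G τ y := h2.deriv
  rw [h4]
  field_simp

/-! ### extension of elements of `BX` by zero -/

open Classical in
/-- extension by zero -/
def exB (g : BX y0) : ℝ → ℝ := fun t => if h : t ∈ Ioc (0 : ℝ) y0 then g ⟨t, h⟩ else 0

theorem exB_of_mem (g : BX y0) {t : ℝ} (ht : t ∈ Ioc (0 : ℝ) y0) : exB g t = g ⟨t, ht⟩ := by
  simp only [exB, dif_pos ht]

theorem abs_exB_le (g : BX y0) (t : ℝ) : |exB g t| ≤ ‖g‖ := by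
  unfold exB
  split_ifs with h
  · exact g.norm_coe_le_norm _
  · simp

theorem exB_add (g k : BX y0) (t : ℝ) : exB (g + k) t = exB g t + exB k t := by
  unfold exB
  split_ifs with h
  · rfl
  · simp

theorem exB_smul (c : ℝ) (g : BX y0) (t : ℝ) : exB (c • g) t = c * exB g t := by
  unfold exB
  split_ifs with h
  · rfl
  · simp

theorem continuousOn_exB (g : BX y0) : ContinuousOn (exB g) (Ioc 0 y0) := by
  rw [continuousOn_iff_continuous_domRestrict]
  refine g.continuous.congr fun y => ?_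
  exact (exB_of_mem g y.2).symm

theorem measurable_exB (g : BX y0) : Measurable (exB g) := by
  unfold exB
  exact Measurable.dite (g.continuous.measurable) measurable_const measurableSet_Ioc

theorem intervalIntegrable_of_bdd {h : ℝ → ℝ} (hm : Measurable h) {B : ℝ} (hB : ∀ t, |h t| ≤ B)
    (a b : ℝ) : IntervalIntegrable h volume a b := by
  rw [intervalIntegrable_iff]
  refine Measure.integrableOn_of_bounded (M := B) ?_ hm.aestronglyMeasurable
    (Filter.Eventually.of_forall fun t => hB t)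
  simp

/-- operators on `BX y0` -/
def mkB (T : (ℝ → ℝ) → ℝ → ℝ) (C : ℝ)
    (hcont : ∀ g : BX y0, ContinuousOn (T (exB g)) (Ioc 0 y0))
    (hadd : ∀ g k : BX y0, ∀ y ∈ Ioc 0 y0,
      T (fun t => exB g t + exB k t) y = T (exB g) y + T (exB k) y)
    (hsmul : ∀ (c : ℝ) (g : BX y0), ∀ y ∈ Ioc 0 y0, T (fun t => c * exB g t) y = c * T (exB g) y)
    (hbd : ∀ g : BX y0, ∀ y ∈ Ioc 0 y0, |T (exB g) y| ≤ C * ‖g‖) : BX y0 →L[ℝ] BX y0 :=
  LinearMap.mkContinuous
    { toFun := fun g => BoundedContinuousFunction.ofNormedAddCommGroup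
        (fun y : Ioc (0 : ℝ) y0 => T (exB g) y)
        ((hcont g).domRestrict) (C * ‖g‖) (fun y => hbd g y y.2)
      map_add' := fun g k => by
        ext y
        have e : exB (g + k) = fun t => exB g t + exB k t := funext fun t => exB_add g k t
        change T (exB (g + k)) y = T (exB g) y + T (exB k) y
        rw [e]
        exact hadd g k y y.2
      map_smul' := fun c g => by
        ext y
        have e : exB (c • g) = fun t => c * exB g t := funext fun t => exB_smul c g t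
        change T (exB (c • g)) y = c * T (exB g) y
        rw [e]
        exact hsmul c g y y.2 } (max C 0)
    (fun g => by
      refine (BoundedContinuousFunction.norm_le (by positivity)).2 fun y => ?_
      exact (hbd g y y.2).trans (mul_le_mul_of_nonneg_right (le_max_left _ _) (norm_nonneg g)))

theorem mkB_apply (T : (ℝ → ℝ) → ℝ → ℝ) (C : ℝ)
    (hcont : ∀ g : BX y0, ContinuousOn (T (exB g)) (Ioc 0 y0))
    (hadd : ∀ g k : BX y0, ∀ y ∈ Ioc 0 y0,
      T (fun t => exB g t + exB k t) y = T (exB g) y + T (exB k) y)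
    (hsmul : ∀ (c : ℝ) (g : BX y0), ∀ y ∈ Ioc 0 y0, T (fun t => c * exB g t) y = c * T (exB g) y)
    (hbd : ∀ g : BX y0, ∀ y ∈ Ioc 0 y0, |T (exB g) y| ≤ C * ‖g‖) (g : BX y0)
    (y : Ioc (0 : ℝ) y0) : mkB T C hcont hadd hsmul hbd g y = T (exB g) y := rfl

/-- build `SC` from an operator on bounded functions -/
theorem SC.of_mkB {q : ℕ} (T : (ℝ → ℝ) → ℝ → ℝ) (C : ℝ)
    (hcont : ∀ g : BX y0, ContinuousOn (T (exB g)) (Ioc 0 y0))
    (hadd : ∀ g k : BX y0, ∀ y ∈ Ioc 0 y0,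
      T (fun t => exB g t + exB k t) y = T (exB g) y + T (exB k) y)
    (hsmul : ∀ (c : ℝ) (g : BX y0), ∀ y ∈ Ioc 0 y0, T (fun t => c * exB g t) y = c * T (exB g) y)
    (hbd : ∀ g : BX y0, ∀ y ∈ Ioc 0 y0, |T (exB g) y| ≤ C * ‖g‖)
    (hf : SC s y0 p f) {S : (ℝ → ℝ) → ℝ → ℝ}
    (hT : ∀ (h : ℝ → ℝ) (g : BX y0), (∀ y ∈ Ioc 0 y0, y ^ p * h y = exB g y) →
      ∀ y ∈ Ioc 0 y0, y ^ q * S h y = T (exB g) y) :
    SC s y0 q (fun τ y => S (f τ) y) := by
  obtain ⟨F, hF, hfF⟩ := hf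
  refine ⟨fun τ => mkB T C hcont hadd hsmul hbd (F τ),
    (mkB T C hcont hadd hsmul hbd).contDiff.comp_contDiffOn hF, fun τ hτ y => ?_⟩
  rw [mkB_apply]
  refine hT (f τ) (F τ) (fun z hz => ?_) y y.2
  rw [exB_of_mem _ hz, ← hfF τ hτ ⟨z, hz⟩]

theorem SC.MN {N : ℕ} (hpN : p ≤ N) (hf : SC s y0 p f) :
    SC s y0 p (fun τ y => MN N (f τ) y) := by
  have hm : ∀ (g : BX y0) (y : ℝ), Measurable (fun r : ℝ => (1 - r) * r ^ (N - p) * exB g (r * y)) :=
    fun g y => by
      have := (measurable_exB g).comp (measurable_id.mul_const y)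
      exact Measurable.mul (by fun_prop) this
  have hb : ∀ (g : BX y0) (y r : ℝ), r ∈ uIoc (0 : ℝ) 1 →
      |(1 - r) * r ^ (N - p) * exB g (r * y)| ≤ ‖g‖ := by
    intro g y r hr
    rw [uIoc_of_le zero_le_one] at hr
    rw [abs_mul, abs_mul, abs_of_nonneg (by linarith [hr.2] : 0 ≤ 1 - r),
      abs_of_nonneg (pow_nonneg hr.1.le _)]
    have h1 : (1 - r) * r ^ (N - p) ≤ 1 := by
      have := pow_le_one₀ (n := N - p) hr.1.le hr.2
      nlinarith [pow_nonneg hr.1.le (N - p), hr.1, hr.2]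
    calc (1 - r) * r ^ (N - p) * |exB g (r * y)| ≤ 1 * ‖g‖ :=
          mul_le_mul h1 (abs_exB_le g _) (abs_nonneg _) zero_le_one
      _ = ‖g‖ := one_mul _
  have hi : ∀ (g : BX y0) (y : ℝ),
      IntervalIntegrable (fun r : ℝ => (1 - r) * r ^ (N - p) * exB g (r * y)) volume 0 1 := by
    intro g y
    rw [intervalIntegrable_iff]
    refine Measure.integrableOn_of_bounded (M := ‖g‖) (by simp) (hm g y).aestronglyMeasurable ?_
    rw [ae_restrict_iff' measurableSet_uIoc]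
    exact Filter.Eventually.of_forall fun r hr => hb g y r hr
  refine SC.of_mkB (fun h y => R213.MN (N - p) h y) 1 ?_ ?_ ?_ ?_ hf ?_
  · intro g y hy
    unfold R213.MN
    refine intervalIntegral.continuousWithinAt_of_dominated_interval (bound := fun _ => ‖g‖)
      (Filter.Eventually.of_forall fun z => (hm g z).aestronglyMeasurable)
      (Filter.Eventually.of_forall fun z => Filter.Eventually.of_forall fun r hr => hb g z r hr)
      intervalIntegrable_const (Filter.Eventually.of_forall fun r hr => ?_)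
    rw [uIoc_of_le zero_le_one] at hr
    have hmap : MapsTo (fun z : ℝ => r * z) (Ioc 0 y0) (Ioc 0 y0) := by
      intro z hz
      exact ⟨mul_pos hr.1 hz.1, by nlinarith [hz.1, hz.2, hr.1, hr.2]⟩
    have h1 : ContinuousOn (fun z : ℝ => exB g (r * z)) (Ioc 0 y0) :=
      (continuousOn_exB g).comp (by fun_prop) hmap
    exact continuousWithinAt_const.mul (h1 y hy)
  · intro g k y _
    unfold R213.MN
    rw [← intervalIntegral.integral_add (hi g y) (hi k y)]
    exact intervalIntegral.integral_congr fun r _ => by ring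
  · intro c g y _
    unfold R213.MN
    rw [← intervalIntegral.integral_const_mul]
    exact intervalIntegral.integral_congr fun r _ => by ring
  · intro g y _
    unfold R213.MN
    have := intervalIntegral.norm_integral_le_of_norm_le_const (a := (0 : ℝ)) (b := 1)
      (f := fun r => (1 - r) * r ^ (N - p) * exB g (r * y)) (C := ‖g‖) (fun r hr => hb g y r hr)
    simpa using this
  · intro h g hhg y hy
    unfold R213.MN
    rw [← intervalIntegral.integral_const_mul]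
    refine intervalIntegral.integral_congr_ae (Filter.Eventually.of_forall fun r hr => ?_)
    rw [uIoc_of_le zero_le_one] at hr
    have hry : r * y ∈ Ioc 0 y0 := ⟨mul_pos hr.1 hy.1, by nlinarith [hy.1, hy.2, hr.1, hr.2]⟩
    rw [← hhg (r * y) hry, mul_pow]
    have e : r ^ N = r ^ (N - p) * r ^ p := by rw [← pow_add, Nat.sub_add_cancel hpN]
    rw [e]
    ring

theorem continuousOn_prim_Ioc {k : ℝ → ℝ} {y1 : ℝ} (hk : ContinuousOn k (Ioc 0 y0))
    (hy1 : y1 ∈ Ioc 0 y0) : ContinuousOn (fun y => ∫ t in y1..y, k t) (Ioc 0 y0) := by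
  intro y hy
  set ε : ℝ := min y y1 / 2 with hε
  have hε0 : 0 < ε := by
    have : 0 < min y y1 := lt_min hy.1 hy1.1
    linarith
  have hεy : ε < y := by
    have : min y y1 ≤ y := min_le_left _ _
    have : 0 < min y y1 := lt_min hy.1 hy1.1
    linarith
  have hεy1 : ε < y1 := by
    have : min y y1 ≤ y1 := min_le_right _ _
    have : 0 < min y y1 := lt_min hy.1 hy1.1
    linarith
  have hsub : Icc ε y0 ⊆ Ioc 0 y0 := fun z hz => ⟨lt_of_lt_of_le hε0 hz.1, hz.2⟩
  have hle : ε ≤ y0 := hεy.le.trans hy.2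
  have hint : IntervalIntegrable k volume ε y0 := by
    refine ContinuousOn.intervalIntegrable ?_
    rw [uIcc_of_le hle]
    exact hk.mono hsub
  have h1 := intervalIntegral.continuousOn_primitive_interval' hint
    (a := y1) (by rw [uIcc_of_le hle]; exact ⟨hεy1.le, hy1.2⟩)
  rw [uIcc_of_le hle] at h1
  refine (h1 y ⟨hεy.le, hy.2⟩).mono_of_mem_nhdsWithin ?_
  have h2 : Ioi ε ∈ 𝓝 y := Ioi_mem_nhds hεy
  filter_upwards [mem_nhdsWithin_of_mem_nhds h2, self_mem_nhdsWithin] with z hz1 hz2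
  exact ⟨hz1.le, hz2.2⟩

theorem intervalIntegrable_Ioc {k : ℝ → ℝ} {a b : ℝ} (hk : ContinuousOn k (Ioc 0 y0))
    (ha : a ∈ Ioc 0 y0) (hb : b ∈ Ioc 0 y0) : IntervalIntegrable k volume a b :=
  (hk.mono (ordConnected_Ioc.uIcc_subset ha hb)).intervalIntegrable

theorem SC.dpr {y1 : ℝ} (hy1 : y1 ∈ Ioc 0 y0) (hf : SC s y0 (p + 1) f) :
    SC s y0 p (fun τ y => ∫ t in y1..y, (y - t) * f τ t) := by
  have hker : ∀ (g : BX y0) (y : ℝ), ContinuousOn
      (fun t => (y - t) * y ^ p * (t ^ (p + 1))⁻¹ * exB g t) (Ioc 0 y0) := by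
    intro g y
    refine ContinuousOn.mul (ContinuousOn.mul (by fun_prop) ?_) (continuousOn_exB g)
    exact ContinuousOn.inv₀ (by fun_prop) fun t ht => (pow_pos ht.1 _).ne'
  have hsub : ∀ y ∈ Ioc 0 y0, uIcc y1 y ⊆ Ioc 0 y0 := fun y hy =>
    ordConnected_Ioc.uIcc_subset hy1 hy
  refine SC.of_mkB (fun h y => ∫ t in y1..y, (y - t) * y ^ p * (t ^ (p + 1))⁻¹ * h t)
    ((y0 / y1) ^ (p + 1) * y0) ?_ ?_ ?_ ?_ hf (S := fun h y => ∫ t in y1..y, (y - t) * h t) ?_
  · intro g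
    have hk1 : ContinuousOn (fun t => (t ^ (p + 1))⁻¹ * exB g t) (Ioc 0 y0) :=
      (ContinuousOn.inv₀ (by fun_prop) fun t ht => (pow_pos ht.1 _).ne').mul (continuousOn_exB g)
    have hk2 : ContinuousOn (fun t => t * ((t ^ (p + 1))⁻¹ * exB g t)) (Ioc 0 y0) :=
      continuousOn_id.mul hk1
    have h1 := continuousOn_prim_Ioc hk1 hy1
    have h2 := continuousOn_prim_Ioc hk2 hy1
    have h3 : ContinuousOn (fun y => y ^ p * (y * (∫ t in y1..y, (t ^ (p + 1))⁻¹ * exB g t) -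
        ∫ t in y1..y, t * ((t ^ (p + 1))⁻¹ * exB g t))) (Ioc 0 y0) :=
      ContinuousOn.mul (by fun_prop) ((continuousOn_id.mul h1).sub h2)
    refine h3.congr fun y hy => ?_
    simp only
    rw [← intervalIntegral.integral_const_mul, ← intervalIntegral.integral_sub,
      ← intervalIntegral.integral_const_mul]
    · exact intervalIntegral.integral_congr fun t _ => by ring
    · exact (intervalIntegrable_Ioc hk1 hy1 hy).const_mul y
    · exact intervalIntegrable_Ioc hk2 hy1 hy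
  · intro g k y hy
    rw [← intervalIntegral.integral_add (intervalIntegrable_Ioc (hker g y) hy1 hy)
      (intervalIntegrable_Ioc (hker k y) hy1 hy)]
    exact intervalIntegral.integral_congr fun t _ => by ring
  · intro c g y hy
    rw [← intervalIntegral.integral_const_mul]
    exact intervalIntegral.integral_congr fun t _ => by ring
  · intro g y hy
    have h01 : y1 ≤ y0 := hy1.2
    have hy0 : 0 < y0 := lt_of_lt_of_le hy1.1 h01
    have hratio : 1 ≤ y0 / y1 := (one_le_div hy1.1).2 h01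
    have hle : ∀ t ∈ uIoc y1 y, |(y - t) * y ^ p * (t ^ (p + 1))⁻¹ * exB g t| ≤
        (y0 / y1) ^ (p + 1) * ‖g‖ := by
      intro t ht
      have ht' : t ∈ Ioc 0 y0 := hsub y hy (uIoc_subset_uIcc ht)
      have htp : 0 < t ^ (p + 1) := pow_pos ht'.1 _
      rw [abs_mul, abs_mul, abs_mul, abs_of_nonneg (pow_nonneg hy.1.le p),
        abs_of_nonneg (inv_nonneg.2 htp.le)]
      refine mul_le_mul ?_ (abs_exB_le g t) (abs_nonneg _) (by positivity)
      rcases le_total y y1 with hyy | hyy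
      · rw [uIoc_of_ge hyy] at ht
        have h1 : |y - t| ≤ t := by
          rw [abs_le]; constructor <;> linarith [ht.1, hy.1]
        have h2 : y ^ p ≤ t ^ p := pow_le_pow_left₀ hy.1.le ht.1.le p
        calc |y - t| * y ^ p * (t ^ (p + 1))⁻¹ ≤ t * t ^ p * (t ^ (p + 1))⁻¹ := by
              refine mul_le_mul_of_nonneg_right ?_ (inv_nonneg.2 htp.le)
              exact mul_le_mul h1 h2 (pow_nonneg hy.1.le p) ht'.1.le
          _ = 1 := by
              rw [← pow_succ']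
              exact mul_inv_cancel₀ htp.ne'
          _ ≤ (y0 / y1) ^ (p + 1) := one_le_pow₀ hratio
      · rw [uIoc_of_le hyy] at ht
        have h1 : |y - t| ≤ y0 := by
          rw [abs_le]; constructor <;> linarith [ht.1, ht.2, hy1.1, hy.2]
        have h2 : y ^ p ≤ y0 ^ p := pow_le_pow_left₀ hy.1.le hy.2 p
        have h3 : (t ^ (p + 1))⁻¹ ≤ (y1 ^ (p + 1))⁻¹ :=
          inv_anti₀ (pow_pos hy1.1 _) (pow_le_pow_left₀ hy1.1.le ht.1.le _)
        calc |y - t| * y ^ p * (t ^ (p + 1))⁻¹ ≤ y0 * y0 ^ p * (y1 ^ (p + 1))⁻¹ := by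
              refine mul_le_mul ?_ h3 (inv_nonneg.2 htp.le) (by positivity)
              exact mul_le_mul h1 h2 (pow_nonneg hy.1.le p) hy0.le
          _ = (y0 / y1) ^ (p + 1) := by
              rw [div_pow, ← pow_succ', div_eq_mul_inv]
    have h4 := intervalIntegral.norm_integral_le_of_norm_le_const (a := y1) (b := y)
      (f := fun t => (y - t) * y ^ p * (t ^ (p + 1))⁻¹ * exB g t)
      (C := (y0 / y1) ^ (p + 1) * ‖g‖) hle
    have h5 : |y - y1| ≤ y0 := by
      rw [abs_le]; constructor <;> linarith [hy.1, hy.2, hy1.1, hy1.2]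
    calc |∫ t in y1..y, (y - t) * y ^ p * (t ^ (p + 1))⁻¹ * exB g t|
        ≤ (y0 / y1) ^ (p + 1) * ‖g‖ * |y - y1| := h4
      _ ≤ (y0 / y1) ^ (p + 1) * ‖g‖ * y0 :=
          mul_le_mul_of_nonneg_left h5 (by positivity)
      _ = (y0 / y1) ^ (p + 1) * y0 * ‖g‖ := by ring
  · intro h g hhg y hy
    rw [← intervalIntegral.integral_const_mul]
    refine intervalIntegral.integral_congr fun t ht => ?_
    have ht' : t ∈ Ioc 0 y0 := hsub y hy ht
    have htp : 0 < t ^ (p + 1) := pow_pos ht'.1 _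
    rw [← hhg t ht']
    field_simp

theorem SC.dprim {y1 : ℝ} (hy1 : y1 ∈ Ioc 0 y0) {α β : ℝ → ℝ} (hα : ContDiffOn ℝ ∞ α s)
    (hβ : ContDiffOn ℝ ∞ β s) (hf : SC s y0 (p + 1) f) : SC s y0 p (dprim y1 α β f) := by
  have h1 : C0 s y0 (fun τ y => α τ + β τ * (y - y1)) :=
    (C0.of_left hα).add ((C0.of_left hβ).mul (C0.of_right (by fun_prop)))
  exact ((SC.of_c0 h1).add (SC.dpr hy1 hf)).congr fun τ _ y _ => rfl

/-- operator `BX y0 → C([0,y0])`: double primitive -/
def dpOp (y0 y1 : ℝ) (h0 : 0 ≤ y0) (hy1 : y1 ∈ Icc 0 y0) : BX y0 →L[ℝ] C(Icc (0 : ℝ) y0, ℝ) :=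
  LinearMap.mkContinuous
    { toFun := fun g => ⟨fun y => ∫ t in y1..(y : ℝ), ((y : ℝ) - t) * exB g t, by
        have hi : ∀ a b, IntervalIntegrable (exB g) volume a b := fun a b =>
          intervalIntegrable_of_bdd (measurable_exB g) (abs_exB_le g) a b
        have hi2 : ∀ a b, IntervalIntegrable (fun t => t * exB g t) volume a b := fun a b =>
          (hi a b).continuousOn_mul continuousOn_id
        have h1 := intervalIntegral.continuous_primitive hi y1
        have h2 := intervalIntegral.continuous_primitive hi2 y1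
        have h3 : Continuous (fun y : ℝ => y * (∫ t in y1..y, exB g t) -
            ∫ t in y1..y, t * exB g t) := (continuous_id.mul h1).sub h2
        refine (h3.comp continuous_subtype_val).congr fun y => ?_
        simp only [Function.comp]
        rw [← intervalIntegral.integral_const_mul, ← intervalIntegral.integral_sub]
        · exact intervalIntegral.integral_congr fun t _ => by ring
        · exact (hi _ _).const_mul _
        · exact hi2 _ _⟩
      map_add' := fun g k => by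
        ext y
        have e : exB (g + k) = fun t => exB g t + exB k t := funext fun t => exB_add g k t
        change ∫ t in y1..(y : ℝ), ((y : ℝ) - t) * exB (g + k) t =
          (∫ t in y1..(y : ℝ), ((y : ℝ) - t) * exB g t) + ∫ t in y1..(y : ℝ), ((y : ℝ) - t) * exB k t
        rw [e, ← intervalIntegral.integral_add]
        · exact intervalIntegral.integral_congr fun t _ => by ring
        · exact (intervalIntegrable_of_bdd (measurable_exB g) (abs_exB_le g) _ _).continuousOn_mul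
            (by fun_prop)
        · exact (intervalIntegrable_of_bdd (measurable_exB k) (abs_exB_le k) _ _).continuousOn_mul
            (by fun_prop)
      map_smul' := fun c g => by
        ext y
        have e : exB (c • g) = fun t => c * exB g t := funext fun t => exB_smul c g t
        change ∫ t in y1..(y : ℝ), ((y : ℝ) - t) * exB (c • g) t =
          c * ∫ t in y1..(y : ℝ), ((y : ℝ) - t) * exB g t
        rw [e, ← intervalIntegral.integral_const_mul]
        exact intervalIntegral.integral_congr fun t _ => by ring } (y0 * y0)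
    (fun g => by
      rw [ContinuousMap.norm_le _ (by positivity)]
      intro y
      have h5 : |(y : ℝ) - y1| ≤ y0 := by
        rw [abs_le]; constructor <;> linarith [y.2.1, y.2.2, hy1.1, hy1.2]
      have h4 := intervalIntegral.norm_integral_le_of_norm_le_const (a := y1) (b := (y : ℝ))
        (f := fun t => ((y : ℝ) - t) * exB g t) (C := y0 * ‖g‖) (fun t ht => by
          have ht' : t ∈ Icc 0 y0 := Set.uIcc_subset_Icc hy1 y.2 (uIoc_subset_uIcc ht)
          have h6 : |(y : ℝ) - t| ≤ y0 := by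
            rw [abs_le]; constructor <;> linarith [y.2.1, y.2.2, ht'.1, ht'.2]
          rw [Real.norm_eq_abs, abs_mul]
          exact mul_le_mul h6 (abs_exB_le g t) (abs_nonneg _) h0)
      calc ‖∫ t in y1..(y : ℝ), ((y : ℝ) - t) * exB g t‖ ≤ y0 * ‖g‖ * |(y : ℝ) - y1| := h4
        _ ≤ y0 * ‖g‖ * y0 := mul_le_mul_of_nonneg_left h5 (by positivity)
        _ = y0 * y0 * ‖g‖ := by ring)

theorem dpOp_apply {y1 : ℝ} (h0 : 0 ≤ y0) (hy1 : y1 ∈ Icc 0 y0) (g : BX y0)
    (y : Icc (0 : ℝ) y0) :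
    dpOp y0 y1 h0 hy1 g y = ∫ t in y1..(y : ℝ), ((y : ℝ) - t) * exB g t := rfl

theorem ae_ne_zero' : ∀ᵐ t : ℝ, t ≠ 0 := by
  have : volume ({0} : Set ℝ) = 0 := by simp
  exact compl_mem_ae_iff.2 this

theorem C0.dprim_of_SC (h0 : 0 ≤ y0) {y1 : ℝ} (hy1 : y1 ∈ Icc 0 y0) {α β : ℝ → ℝ}
    (hα : ContDiffOn ℝ ∞ α s) (hβ : ContDiffOn ℝ ∞ β s) (hf : SC s y0 0 f) :
    C0 s y0 (dprim y1 α β f) := by
  have h1 : C0 s y0 (fun τ y => α τ + β τ * (y - y1)) :=
    (C0.of_left hα).add ((C0.of_left hβ).mul (C0.of_right (by fun_prop)))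
  have h2 : C0 s y0 (fun τ y => ∫ t in y1..y, (y - t) * f τ t) := by
    obtain ⟨G, hG, hfG⟩ := hf
    refine ⟨fun τ => dpOp y0 y1 h0 hy1 (G τ), (dpOp y0 y1 h0 hy1).contDiff.comp_contDiffOn hG,
      fun τ hτ y => ?_⟩
    rw [dpOp_apply]
    refine intervalIntegral.integral_congr_ae ?_
    filter_upwards [ae_ne_zero'] with t ht htu
    have ht' : t ∈ Icc 0 y0 := Set.uIcc_subset_Icc hy1 y.2 (uIoc_subset_uIcc htu)
    have ht2 : t ∈ Ioc 0 y0 := ⟨lt_of_le_of_ne ht'.1 (Ne.symm ht), ht'.2⟩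
    rw [exB_of_mem _ ht2, ← hfG τ hτ ⟨t, ht2⟩]
    simp
  exact (h1.add h2).congr fun τ _ y _ => rfl

/-- changing `r` at `0` does not change `dprim` -/
theorem dprim_congr_Ioc {y1 : ℝ} (hy1 : y1 ∈ Icc 0 y0) {α β : ℝ → ℝ} {r r' : ℝ → ℝ → ℝ} {τ : ℝ}
    (h : ∀ y ∈ Ioc 0 y0, r τ y = r' τ y) {y : ℝ} (hy : y ∈ Icc 0 y0) :
    dprim y1 α β r τ y = dprim y1 α β r' τ y := by
  unfold R213.dprim
  congr 1
  refine intervalIntegral.integral_congr_ae ?_
  filter_upwards [ae_ne_zero'] with t ht htu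
  have ht' : t ∈ Icc 0 y0 := Set.uIcc_subset_Icc hy1 hy (uIoc_subset_uIcc htu)
  rw [h t ⟨lt_of_le_of_ne ht'.1 (Ne.symm ht), ht'.2⟩]

/-- the half-interval bootstrap -/
theorem half_boot (hs : IsOpen s) (h0 : 0 < y0) {y1 : ℝ} (hy1 : y1 ∈ Ioc 0 y0) {p N : ℕ}
    (hpN : p ≤ N) {h a e w r : ℝ → ℝ → ℝ} {α β : ℝ → ℝ}
    (hh : ∀ k, CK s y0 k h) (ha : ∀ k, CK s y0 k a) (he : ∀ k, CK s y0 k e)
    (hw : ∀ k, CK s y0 k w) (hα : ContDiffOn ℝ ∞ α s) (hβ : ContDiffOn ℝ ∞ β s)
    (H1 : SC s y0 (p + 1) r)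
    (H2 : ∀ τ ∈ s, ∀ y ∈ Ioc 0 y0, r τ y = h τ y + a τ y *
      MN N (fun z => e τ z + w τ z * dt (dprim y1 α β r) τ z) y) :
    (∀ k, CK s y0 k (dprim y1 α β r)) ∧
    (∀ k, CK s y0 k (fun τ y => h τ y + a τ y *
      MN N (fun z => e τ z + w τ z * dt (dprim y1 α β r) τ z) y)) := by
  have hy1' : y1 ∈ Icc 0 y0 := ⟨hy1.1.le, hy1.2⟩
  set δ : ℝ → ℝ → ℝ := dprim y1 α β r with hδ
  have stepSC : ∀ q, q ≤ N → SC s y0 q δ → SC s y0 q r := by
    intro q hq hd
    have h1 : SC s y0 q (R213.dt δ) := hd.dt hs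
    have h2 : SC s y0 q (fun τ z => e τ z + w τ z * R213.dt δ τ z) :=
      (SC.of_c0 (he 0).c0).add (h1.mul_c0 (hw 0).c0)
    have h3 := SC.MN hq h2
    exact ((SC.of_c0 (hh 0).c0).add (h3.mul_c0 (ha 0).c0)).congr H2
  have hall : ∀ q, q ≤ p → SC s y0 (p - q) δ := by
    intro q
    induction q with
    | zero => exact fun _ => SC.dprim hy1 hα hβ H1
    | succ q ih =>
      intro hq
      have h1 := stepSC (p - q) (by omega) (ih (by omega))
      have h2 : p - q = (p - (q + 1)) + 1 := by omega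
      rw [h2] at h1
      exact SC.dprim hy1 hα hβ h1
  have hr0 : SC s y0 0 r := by
    have h1 := hall p le_rfl
    rw [Nat.sub_self] at h1
    exact stepSC 0 (Nat.zero_le _) h1
  have hδ0 : C0 s y0 δ := C0.dprim_of_SC h0.le hy1' hα hβ hr0
  have stepCK : ∀ k, CK s y0 k δ → CK s y0 k (fun τ y => h τ y + a τ y *
      R213.MN N (fun z => e τ z + w τ z * R213.dt δ τ z) y) := by
    intro k hk
    have h1 : CK s y0 k (R213.dt δ) := hk.dt hs h0.le
    exact (hh k).add ((ha k).mul (CK.MN h0.le N ((he k).add ((hw k).mul h1))))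
  have hCK : ∀ k, CK s y0 k δ := by
    intro k
    induction k with
    | zero => exact hδ0
    | succ k ih =>
      have h1 := stepCK k ih
      have h2 := CK.dprim h0.le hy1' hα hβ h1
      refine (h2.congr fun τ hτ y hy => ?_).pred
      exact dprim_congr_Ioc hy1' (fun z hz => H2 τ hτ z hz) hy
  exact ⟨hCK, fun k => stepCK k (hCK k)⟩

end Crest.Agent.R213
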