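import Crest.Agent.R213.Defs

/-!
# Row 213: joint smoothness from continuous mixed partial derivatives
-/

set_option autoImplicit false

open Set MeasureTheory Filter Topology
open scoped ContDiff

noncomputable section

namespace Crest.Agent.R213

/-- the linear map `(a, b) ↦ p a + q b` -/
def lin2 (p q : ℝ) : ℝ × ℝ →L[ℝ] ℝ :=
  p • ContinuousLinearMap.fst ℝ ℝ ℝ + q • ContinuousLinearMap.snd ℝ ℝ ℝ

@[simp] lemma lin2_apply (p q : ℝ) (v : ℝ × ℝ) : lin2 p q v = p * v.1 + q * v.2 := by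
  simp [lin2]

/-- continuity of the `τ`-partial derivative and existence of both partial derivatives give the total
derivative (one-sided in `x`). -/
theorem hasFDerivWithinAt_of_partials {s : Set ℝ} (hs : IsOpen s) {L : ℝ}
    {f ft fx : ℝ → ℝ → ℝ}
    (hc : ContinuousOn (fun p : ℝ × ℝ => ft p.1 p.2) (s ×ˢ Icc 0 L))
    (ht : ∀ τ ∈ s, ∀ x ∈ Icc 0 L, HasDerivAt (fun r => f r x) (ft τ x) τ)
    {τ x : ℝ} (hτ : τ ∈ s) (hx : x ∈ Icc 0 L)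
    (hdx : HasDerivWithinAt (fun y => f τ y) (fx τ x) (Icc 0 L) x) :
    HasFDerivWithinAt (fun p : ℝ × ℝ => f p.1 p.2) (lin2 (ft τ x) (fx τ x)) (s ×ˢ Icc 0 L)
      (τ, x) := by
  rw [hasFDerivWithinAt_iff_isLittleO, Asymptotics.isLittleO_iff]
  intro ε hε
  have hε2 : 0 < ε / 2 := by linarith
  -- first part: uniform estimate in τ
  obtain ⟨δ0, hδ0, hball0⟩ := Metric.isOpen_iff.1 hs τ hτ
  have hcw := hc (τ, x) ⟨hτ, hx⟩
  rw [Metric.continuousWithinAt_iff] at hcw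
  obtain ⟨δ1, hδ1, h1⟩ := hcw (ε / 2) hε2
  -- second part: one-variable derivative
  rw [hasDerivWithinAt_iff_hasFDerivWithinAt, hasFDerivWithinAt_iff_isLittleO,
    Asymptotics.isLittleO_iff] at hdx
  obtain ⟨δ2, hδ2, h2⟩ := Metric.mem_nhdsWithin_iff.1 (hdx hε2)
  have hδ : 0 < min δ0 (min δ1 δ2) := lt_min hδ0 (lt_min hδ1 hδ2)
  rw [Filter.eventually_iff, Metric.mem_nhdsWithin_iff]
  refine ⟨min δ0 (min δ1 δ2), hδ, ?_⟩
  rintro ⟨σ, y⟩ ⟨hd, hσ, hy⟩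
  rw [Metric.mem_ball, Prod.dist_eq] at hd
  have hd1 : dist σ τ < min δ0 (min δ1 δ2) := lt_of_le_of_lt (le_max_left _ _) hd
  have hd2 : dist y x < min δ0 (min δ1 δ2) := lt_of_le_of_lt (le_max_right _ _) hd
  rw [lt_min_iff, lt_min_iff] at hd1 hd2
  obtain ⟨hd10, hd11, hd12⟩ := hd1
  obtain ⟨hd20, hd21, hd22⟩ := hd2
  simp only [mem_ofPred_eq]
  have hy' : y ∈ Icc 0 L := hy
  -- the τ-increment at fixed `y`
  have e1 : ‖f σ y - f τ y - (ft τ x) * (σ - τ)‖ ≤ ε / 2 * ‖σ - τ‖ := by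
    have hsub : ∀ r ∈ Metric.ball τ (min δ0 δ1), HasFDerivWithinAt (fun r => f r y)
        ((ContinuousLinearMap.smulRight (1 : ℝ →L[ℝ] ℝ) (ft r y))) (Metric.ball τ (min δ0 δ1)) r := by
      intro r hr
      have hr' : r ∈ s := hball0 (Metric.ball_subset_ball (min_le_left _ _) hr)
      exact (ht r hr' y hy').hasFDerivAt.hasFDerivWithinAt
    have := (convex_ball τ (min δ0 δ1)).norm_image_sub_le_of_norm_hasFDerivWithin_le'
      (f := fun r => f r y)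
      (f' := fun r => (ContinuousLinearMap.smulRight (1 : ℝ →L[ℝ] ℝ) (ft r y)))
      (φ := ContinuousLinearMap.smulRight (1 : ℝ →L[ℝ] ℝ) (ft τ x)) (C := ε / 2) hsub ?_
      (Metric.mem_ball_self (lt_min hδ0 hδ1)) (y := σ)
      (by rw [Metric.mem_ball]; exact lt_min hd10 hd11)
    · simpa [mul_comm] using this
    · intro r hr
      rw [Metric.mem_ball, lt_min_iff] at hr
      have hr' : r ∈ s := hball0 hr.1
      have h3 := h1 (x := (r, y)) ⟨hr', hy'⟩ (by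
        rw [Prod.dist_eq, max_lt_iff]; exact ⟨hr.2, hd21⟩)
      rw [dist_eq_norm] at h3
      have h4 : ContinuousLinearMap.smulRight (1 : ℝ →L[ℝ] ℝ) (ft r y)
          - ContinuousLinearMap.smulRight (1 : ℝ →L[ℝ] ℝ) (ft τ x)
          = ContinuousLinearMap.smulRight (1 : ℝ →L[ℝ] ℝ) (ft r y - ft τ x) := by
        ext
        simp
      rw [h4, ContinuousLinearMap.norm_smulRight_apply]
      simpa using h3.le
  have e2 : ‖f τ y - f τ x - (fx τ x) * (y - x)‖ ≤ ε / 2 * ‖y - x‖ := by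
    have h5 : y ∈ {y' | ‖f τ y' - f τ x - (ContinuousLinearMap.toSpanSingleton ℝ (fx τ x))
        (y' - x)‖ ≤ ε / 2 * ‖y' - x‖} :=
      h2 ⟨by rw [Metric.mem_ball]; exact hd22, hy'⟩
    simpa [mul_comm] using h5
  have e3 : f σ y - f τ x - (lin2 (ft τ x) (fx τ x)) ((σ, y) - (τ, x))
      = (f σ y - f τ y - (ft τ x) * (σ - τ)) + (f τ y - f τ x - (fx τ x) * (y - x)) := by
    simp
    ring
  rw [e3]
  refine (norm_add_le _ _).trans ?_
  have n1 : ‖σ - τ‖ ≤ ‖((σ, y) : ℝ × ℝ) - (τ, x)‖ := by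
    rw [Prod.norm_def]; exact le_max_left _ _
  have n2 : ‖y - x‖ ≤ ‖((σ, y) : ℝ × ℝ) - (τ, x)‖ := by
    rw [Prod.norm_def]; exact le_max_right _ _
  nlinarith [norm_nonneg (((σ, y) : ℝ × ℝ) - (τ, x))]

theorem contDiffOn_of_partials {s : Set ℝ} (hs : IsOpen s) {L : ℝ} (hL : 0 < L) (n : ℕ) :
    ∀ {U : ℕ → ℕ → ℝ → ℝ → ℝ},
    (∀ i j, i + j ≤ n → ContinuousOn (fun p : ℝ × ℝ => U i j p.1 p.2) (s ×ˢ Icc 0 L)) →
    (∀ i j, i + j < n → ∀ τ ∈ s, ∀ x ∈ Icc 0 L,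
      HasDerivAt (fun r => U i j r x) (U (i + 1) j τ x) τ) →
    (∀ i j, i + j < n → ∀ τ ∈ s, ∀ x ∈ Icc 0 L,
      HasDerivWithinAt (fun y => U i j τ y) (U i (j + 1) τ x) (Icc 0 L) x) →
    ContDiffOn ℝ n (fun p : ℝ × ℝ => U 0 0 p.1 p.2) (s ×ˢ Icc 0 L) := by
  have hu : UniqueDiffOn ℝ (s ×ˢ Icc 0 L) := hs.uniqueDiffOn.prod (uniqueDiffOn_Icc hL)
  induction n with
  | zero =>
    intro U hc _ _
    rw [Nat.cast_zero, contDiffOn_zero]
    exact hc 0 0 le_rfl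
  | succ n ih =>
    intro U hc ht hx
    have hD : ∀ p ∈ s ×ˢ Icc 0 L, HasFDerivWithinAt (fun p : ℝ × ℝ => U 0 0 p.1 p.2)
        (lin2 (U 1 0 p.1 p.2) (U 0 1 p.1 p.2)) (s ×ˢ Icc 0 L) p := by
      rintro ⟨τ, x⟩ ⟨hτ, hx'⟩
      exact hasFDerivWithinAt_of_partials hs (hc 1 0 (by omega)) (ht 0 0 (by omega)) hτ hx'
        (hx 0 0 (by omega) τ hτ x hx')
    rw [Nat.cast_add, Nat.cast_one, contDiffOn_succ_iff_fderivWithin hu]
    refine ⟨fun p hp => (hD p hp).differentiableWithinAt, by simp, ?_⟩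
    have h1 : ContDiffOn ℝ n (fun p : ℝ × ℝ => U 1 0 p.1 p.2) (s ×ˢ Icc 0 L) :=
      ih (U := fun i j => U (i + 1) j) (fun i j h => hc _ _ (by omega))
        (fun i j h => ht _ _ (by omega)) (fun i j h => hx _ _ (by omega))
    have h2 : ContDiffOn ℝ n (fun p : ℝ × ℝ => U 0 1 p.1 p.2) (s ×ˢ Icc 0 L) :=
      ih (U := fun i j => U i (j + 1)) (fun i j h => hc _ _ (by omega))
        (fun i j h => ht _ _ (by omega)) (fun i j h => hx _ _ (by omega))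
    have h3 : ContDiffOn ℝ n (fun p : ℝ × ℝ => lin2 (U 1 0 p.1 p.2) (U 0 1 p.1 p.2))
        (s ×ˢ Icc 0 L) := by
      unfold lin2
      exact (h1.smul contDiffOn_const).add (h2.smul contDiffOn_const)
    exact h3.congr (fun p hp => (hD p hp).fderivWithin (hu p hp))

/-- **joint smoothness** from continuous mixed partial derivatives of all orders. -/
theorem sm_of_partials {s : Set ℝ} (hs : IsOpen s) {L : ℝ} (hL : 0 < L)
    {U : ℕ → ℕ → ℝ → ℝ → ℝ}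
    (hc : ∀ i j, ContinuousOn (fun p : ℝ × ℝ => U i j p.1 p.2) (s ×ˢ Icc 0 L))
    (ht : ∀ i j, ∀ τ ∈ s, ∀ x ∈ Icc 0 L, HasDerivAt (fun r => U i j r x) (U (i + 1) j τ x) τ)
    (hx : ∀ i j, ∀ τ ∈ s, ∀ x ∈ Icc 0 L,
      HasDerivWithinAt (fun y => U i j τ y) (U i (j + 1) τ x) (Icc 0 L) x) (i j : ℕ) :
    Sm s L (U i j) := by
  have h : ∀ n : ℕ, ContDiffOn ℝ n (fun p : ℝ × ℝ => U i j p.1 p.2) (s ×ˢ Icc 0 L) := by
    intro n
    have := contDiffOn_of_partials hs hL n (U := fun a b => U (a + i) (b + j))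
      (fun a b _ => hc _ _) (fun a b _ τ hτ x hx' => ?_) (fun a b _ τ hτ x hx' => ?_)
    · simpa using this
    · have := ht (a + i) (b + j) τ hτ x hx'
      rwa [show a + i + 1 = a + 1 + i by ring] at this
    · have := hx (a + i) (b + j) τ hτ x hx'
      rwa [show b + j + 1 = b + 1 + j by ring] at this
  unfold Sm
  exact contDiffOn_infty.2 h

/-! ### converse facts -/

section
variable {s : Set ℝ} {L : ℝ} {u : ℝ → ℝ → ℝ}

lemma uniqueDiffOn_strip (hs : IsOpen s) (hL : 0 < L) : UniqueDiffOn ℝ (s ×ˢ Icc 0 L) :=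
  hs.uniqueDiffOn.prod (uniqueDiffOn_Icc hL)

lemma Sm.hasFDerivWithinAt' (hu : Sm s L u) {τ x : ℝ} (hτ : τ ∈ s) (hx : x ∈ Icc 0 L) :
    HasFDerivWithinAt (fun p : ℝ × ℝ => u p.1 p.2)
      (fderivWithin ℝ (fun p : ℝ × ℝ => u p.1 p.2) (s ×ˢ Icc 0 L) (τ, x)) (s ×ˢ Icc 0 L) (τ, x) :=
  ((hu (τ, x) ⟨hτ, hx⟩).differentiableWithinAt (by simp)).hasFDerivWithinAt

lemma Sm.hasDerivWithinAt_fderivWithin (hu : Sm s L u) {τ x : ℝ} (hτ : τ ∈ s)
    (hx : x ∈ Icc 0 L) :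
    HasDerivWithinAt (fun y => u τ y)
      (fderivWithin ℝ (fun p : ℝ × ℝ => u p.1 p.2) (s ×ˢ Icc 0 L) (τ, x) (0, 1)) (Icc 0 L) x := by
  have h1 := hu.hasFDerivWithinAt' hτ hx
  have h2 : HasDerivWithinAt (fun y : ℝ => (τ, y)) ((0 : ℝ), (1 : ℝ)) (Icc 0 L) x :=
    (hasDerivWithinAt_const x (Icc 0 L) τ).prodMk (hasDerivWithinAt_id x (Icc 0 L))
  exact HasFDerivWithinAt.comp_hasDerivWithinAt x h1 h2
    (fun y (hy : y ∈ Icc 0 L) => (⟨hτ, hy⟩ : (τ, y) ∈ s ×ˢ Icc 0 L))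

lemma Sm.hasDerivAt_fderivWithin (hs : IsOpen s) (hu : Sm s L u) {τ x : ℝ} (hτ : τ ∈ s)
    (hx : x ∈ Icc 0 L) :
    HasDerivAt (fun r => u r x)
      (fderivWithin ℝ (fun p : ℝ × ℝ => u p.1 p.2) (s ×ˢ Icc 0 L) (τ, x) (1, 0)) τ := by
  have h1 := hu.hasFDerivWithinAt' hτ hx
  have h2 : HasDerivWithinAt (fun r : ℝ => (r, x)) ((1 : ℝ), (0 : ℝ)) s τ :=
    (hasDerivWithinAt_id τ s).prodMk (hasDerivWithinAt_const τ s x)
  exact (HasFDerivWithinAt.comp_hasDerivWithinAt τ h1 h2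
    (fun y (hy : y ∈ s) => (⟨hy, hx⟩ : (y, x) ∈ s ×ˢ Icc 0 L))).hasDerivAt
    (hs.mem_nhds hτ)

/-- `x`-derivative of a smooth function -/
lemma Sm.hasDerivWithinAt_dx (hL : 0 < L) (hu : Sm s L u) {τ x : ℝ} (hτ : τ ∈ s)
    (hx : x ∈ Icc 0 L) : HasDerivWithinAt (fun y => u τ y) (dx L u τ x) (Icc 0 L) x := by
  have := hu.hasDerivWithinAt_fderivWithin hτ hx
  unfold dx
  rwa [this.derivWithin (uniqueDiffOn_Icc hL x hx)]

/-- `τ`-derivative of a smooth function -/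
lemma Sm.hasDerivAt_dt (hs : IsOpen s) (hu : Sm s L u) {τ x : ℝ} (hτ : τ ∈ s)
    (hx : x ∈ Icc 0 L) : HasDerivAt (fun r => u r x) (dt u τ x) τ := by
  have := hu.hasDerivAt_fderivWithin hs hτ hx
  unfold dt
  rwa [this.deriv]

lemma Sm.dx_eq_fderivWithin (hL : 0 < L) (hu : Sm s L u) {τ x : ℝ} (hτ : τ ∈ s) (hx : x ∈ Icc 0 L) :
    dx L u τ x
      = fderivWithin ℝ (fun p : ℝ × ℝ => u p.1 p.2) (s ×ˢ Icc 0 L) (τ, x) (0, 1) :=
  (hu.hasDerivWithinAt_fderivWithin hτ hx).derivWithin (uniqueDiffOn_Icc hL x hx)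

lemma Sm.dt_eq_fderivWithin (hs : IsOpen s) (hu : Sm s L u) {τ x : ℝ} (hτ : τ ∈ s) (hx : x ∈ Icc 0 L) :
    dt u τ x
      = fderivWithin ℝ (fun p : ℝ × ℝ => u p.1 p.2) (s ×ˢ Icc 0 L) (τ, x) (1, 0) :=
  (hu.hasDerivAt_fderivWithin hs hτ hx).deriv

end

end Crest.Agent.R213
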